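import Vale.Agent.P277.H622.B3
import Vale.Agent.P277.A.Emb

/-!
# P277: B3 without compactness of `Y` (the proof of helper622)
-/

open scoped Manifold ContDiff Topology
open Vale.Agent.P272.K Set Filter
noncomputable section

namespace Vale.Agent.P277.H29

open Vale.Agent.P277.H622

/-- (B3) without compactness of `Y`. -/
theorem b3 (Y : Type) [TopologicalSpace Y] [ChartedSpace (Cm 4) Y]
    [IsManifold 𝓘(ℂ, Cm 4) ω Y] (X : CSp) (O : Set Y) (v : Y → X.pt) (hv : IsOpenEmb X O v)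
    (hdense : Dense (v '' O)) (hdim : DimLe X 2 (v '' O)ᶜ) (G : Fin 4 → X.pt → ℂ) (x : X.pt)
    (V : Set X.pt) (hVo : IsOpen V) (hxV : x ∈ V) (hG : ∀ i, ∀ y ∈ V, X.Hol (G i) y)
    (hGx : ∀ i, G i x = 0)
    (hgen : ∀ W : Set X.pt, IsOpen W → W ⊆ V → W.Nonempty → ∃ y ∈ O, v y ∈ W ∧
      ∀ e : Chart 4 Y, At e y → Jac v G e (e y) ≠ 0) :
    ¬ {y | y ∈ V ∧ G 0 y = 0 ∧ G 1 y = 0 ∧ G 2 y = 0}.Countable := by
  classical
  intro hcount
  -- the map `G` as a map to `ℂ⁴`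
  set Gv : X.pt → Cm 4 := fun y i => G i y with hGv
  have hGcont : ∀ y ∈ V, ContinuousAt Gv y := fun y hy =>
    continuousAt_pi.2 fun i => hol_continuousAt (hG i y hy)
  obtain ⟨U, ρ, r₀, hUo, hxU, hUV, hr₀, hρx, hρ, -, hcomp⟩ := exists_exhaustion X (hVo.mem_nhds hxV)
  set C : Set X.pt := {y | y ∈ V ∧ G 0 y = 0 ∧ G 1 y = 0 ∧ G 2 y = 0} with hC
  -- a radius such that the sphere misses `C`
  obtain ⟨r, ⟨hr0, hrr⟩, hrC⟩ := ((hcount.image ρ).dense_compl ℝ).inter_open_nonempty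
    (Ioo 0 r₀) isOpen_Ioo ⟨r₀ / 2, by constructor <;> linarith⟩
  set K : Set X.pt := {y | y ∈ U ∧ ρ y ≤ r} with hK
  have hKc : IsCompact K := hcomp r hrr
  have hKV : K ⊆ V := fun y hy => hUV hy.1
  have hρcont : ContinuousOn ρ K := fun y hy => (hρ y hy.1).1.continuousWithinAt
  have hGvcont : ContinuousOn Gv K := fun y hy => (hGcont y (hKV hy)).continuousWithinAt
  set S : Set X.pt := {y | y ∈ K ∧ ρ y = r} with hS
  have hSc : IsCompact S := by
    have h1 : IsClosed (K ∩ ρ ⁻¹' {r}) := hρcont.preimage_isClosed_of_isClosed hKc.isClosed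
      isClosed_singleton
    have h2 : S = K ∩ (K ∩ ρ ⁻¹' {r}) := by
      ext y; simp only [hS, mem_ofPred_eq, mem_inter_iff, mem_preimage, mem_singleton_iff]; tauto
    rw [h2]
    exact hKc.inter_right h1
  have hSne : ∀ y ∈ S, Gv y ≠ 0 := by
    intro y hy h0
    apply hrC
    refine ⟨y, ⟨hKV hy.1, ?_, ?_, ?_⟩, hy.2⟩
    · exact congrFun h0 0
    · exact congrFun h0 1
    · exact congrFun h0 2
  obtain ⟨ε, hε, hεS⟩ : ∃ ε > 0, ∀ y ∈ S, ε ≤ ‖Gv y‖ := by
    rcases S.eq_empty_or_nonempty with hSe | hSne'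
    · exact ⟨1, one_pos, fun y hy => by rw [hSe] at hy; exact hy.elim⟩
    · obtain ⟨y0, hy0, hmin⟩ := hSc.exists_isMinOn hSne'
        ((hGvcont.mono fun y hy => hy.1).norm)
      exact ⟨‖Gv y0‖, norm_pos_iff.2 (hSne y0 hy0), fun y hy => hmin hy⟩
  -- the first thin set: image of the complement of `v '' O`
  obtain ⟨Ω1, g1, hΩ1, hg1, hcov1⟩ := hdim
  let π : Cm 3 → Cm 2 := fun q => fun j => q (Fin.castSucc j)
  have hπ : ∀ q, AnalyticAt ℂ π q := fun q => by
    rw [analyticAt_pi_iff]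
    intro j
    exact (ContinuousLinearMap.proj (R := ℂ) (φ := fun _ : Fin 3 => ℂ) (Fin.castSucc j)).analyticAt q
  let W1 : ℕ → Set (Cm 3) := fun k => {q | π q ∈ Ω1 k ∧ g1 k (π q) ∈ V}
  let F1 : ℕ → Cm 3 → Cm 4 := fun k q => Gv (g1 k (π q))
  have hW1 : ∀ k, IsOpen (W1 k) := by
    intro k
    rw [isOpen_iff_mem_nhds]
    intro q hq
    have h1 : ∀ᶠ q' in 𝓝 q, π q' ∈ Ω1 k :=
      (hπ q).continuousAt.eventually ((hΩ1 k).mem_nhds hq.1)
    have h2 : ContinuousAt (fun q => g1 k (π q)) q :=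
      ContinuousAt.comp (hg1 k (π q) hq.1).1 (hπ q).continuousAt
    filter_upwards [h1, h2.eventually (hVo.mem_nhds hq.2)] with q' a b using ⟨a, b⟩
  have hF1 : ∀ k, ContDiffOn ℝ 1 (F1 k) (W1 k) := by
    intro k
    refine contDiffOn_real fun q hq => ?_
    rw [analyticAt_pi_iff]
    intro i
    have h1 : AnalyticAt ℂ (G i ∘ g1 k) (π q) := (hg1 k (π q) hq.1).2 (G i) (hG i _ hq.2)
    exact h1.comp_of_eq (hπ q) rfl
  -- the second thin set: image of the critical points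
  obtain ⟨s, hs, hsU⟩ : ∃ s : Set Y, s.Countable ∧ O ⊆ ⋃ y ∈ s, (chartAt (Cm 4) y).source := by
    rcases O.eq_empty_or_nonempty with hO | ⟨y₀, -⟩
    · exact ⟨∅, countable_empty, by simp [hO]⟩
    obtain ⟨t, htO, ht, htU⟩ := TopologicalSpace.countable_cover_nhdsWithin (s := v '' O)
      (f := fun x => v '' (O ∩ (chartAt (Cm 4) (hv.inv y₀ x)).source)) (by
        rintro _ ⟨y, hy, rfl⟩
        refine mem_nhdsWithin_of_mem_nhds ?_
        rw [hv.inv_apply y₀ hy]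
        exact hv.image_mem_nhds hy (inter_mem (hv.isOpen.mem_nhds hy)
          (chart_source_mem_nhds (Cm 4) y)))
    refine ⟨hv.inv y₀ '' t, ht.image _, fun y hy => ?_⟩
    have h1 := htU (mem_image_of_mem v hy)
    simp only [mem_iUnion] at h1 ⊢
    obtain ⟨x, hx, y', hy', hyy⟩ := h1
    have h2 : y' = y := hv.inj hy'.1 hy hyy
    exact ⟨hv.inv y₀ x, mem_image_of_mem _ hx, h2 ▸ hy'.2⟩
  obtain ⟨xx, hxx, -⟩ := hdense.exists_mem_open hVo ⟨x, hxV⟩
  have hOne : O.Nonempty := by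
    obtain ⟨y, hy, _⟩ := hxx; exact ⟨y, hy⟩
  have hYne : Nonempty Y := ⟨hOne.some⟩
  have hsne : s.Nonempty := by
    by_contra h
    rw [not_nonempty_iff_eq_empty] at h
    have h1 : hOne.some ∈ ⋃ y ∈ s, (chartAt (Cm 4) y).source := hsU hOne.some_mem
    simp [h] at h1
  obtain ⟨en, hen⟩ := hs.exists_eq_range hsne
  let e : ℕ → Chart 4 Y := fun n => chartAt (Cm 4) (en n)
  have he : ∀ n, e n ∈ atlas (Cm 4) Y := fun n => chart_mem_atlas _ _
  have hecov : ∀ y ∈ O, ∃ n, y ∈ (e n).source := by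
    intro y hyO
    have h1 : y ∈ ⋃ y ∈ s, (chartAt (Cm 4) y).source := hsU hyO
    simp only [mem_iUnion] at h1
    obtain ⟨y', hy', hyy⟩ := h1
    rw [hen] at hy'
    obtain ⟨n, rfl⟩ := hy'
    exact ⟨n, hyy⟩
  let Ωc : ℕ → Set (Cm 4) := fun n => {z | z ∈ (e n).target ∧ (e n).symm z ∈ O ∧
    v ((e n).symm z) ∈ V}
  have hΩc : ∀ n, IsOpen (Ωc n) := by
    intro n
    rw [isOpen_iff_mem_nhds]
    intro z hz
    filter_upwards [(e n).open_target.mem_nhds hz.1,
      ((e n).continuousAt_symm hz.1).eventually (hv.isOpen.mem_nhds hz.2.1),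
      (emb_chart_continuousAt hv hz.1 hz.2.1).eventually (hVo.mem_nhds hz.2.2)]
      with z' a b c using ⟨a, b, c⟩
  have hJan : ∀ n, ∀ z ∈ Ωc n, AnalyticAt ℂ (Jac v G (e n)) z := fun n z hz =>
    analyticAt_Jac hv (he n) hz.1 hz.2.1 fun i => hG i _ hz.2.2
  have hJne : ∀ n, ∀ z ∈ Ωc n, ¬ Jac v G (e n) =ᶠ[𝓝 z] 0 := by
    intro n z hz h0
    obtain ⟨N, hN, hNo, hzN⟩ := eventually_nhds_iff.1 (h0.and ((hΩc n).mem_nhds hz))
    have hNt : N ⊆ (e n).target := fun z' hz' => (hN z' hz').2.1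
    have h2 : IsOpen ((e n).symm '' N) := (e n).isOpen_image_symm_of_subset_target hNo hNt
    have h3 : (e n).symm '' N ⊆ O := by
      rintro _ ⟨z', hz', rfl⟩; exact (hN z' hz').2.2.1
    have h4 : IsOpen (v '' ((e n).symm '' N)) := hv.isOpenMap _ h3 h2
    have h5 : v '' ((e n).symm '' N) ⊆ V := by
      rintro _ ⟨_, ⟨z', hz', rfl⟩, rfl⟩; exact (hN z' hz').2.2.2
    obtain ⟨y, hyO, hyW, hyJ⟩ := hgen _ h4 h5 ⟨_, ⟨_, ⟨z, hzN, rfl⟩, rfl⟩⟩
    obtain ⟨y', ⟨z', hz', rfl⟩, hyy⟩ := hyW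
    have h6 : (e n).symm z' = y := hv.inj (h3 ⟨z', hz', rfl⟩) hyO hyy
    subst h6
    have h7 : At (e n) ((e n).symm z') := ⟨he n, (e n).map_target (hNt hz')⟩
    apply hyJ (e n) h7
    rw [(e n).right_inv (hNt hz')]
    exact (hN z' hz').1
  have hB1 := fun n => stB1 3 (Ωc n) (Jac v G (e n)) (hΩc n) (hJan n) (hJne n)
  choose W2 g2 hW2 hg2 hcov2 using hB1
  let F2 : ℕ → ℕ → Cm 3 → Cm 4 := fun n k q => Gv (v ((e n).symm (g2 n k q)))
  have hF2 : ∀ n k, ContDiffOn ℝ 1 (F2 n k) (W2 n k) := by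
    intro n k
    refine contDiffOn_real fun q hq => ?_
    rw [analyticAt_pi_iff]
    intro i
    have h1 := hg2 n k q hq
    have h2 : AnalyticAt ℂ (fun z => G i (v ((e n).symm z))) (g2 n k q) :=
      emb_analytic hv (he n) h1.2.1 h1.2.2.1 (hG i _ h1.2.2.2)
    exact h2.comp_of_eq h1.1 rfl
  -- the union of the two families
  let W : ℕ → Set (Cm 3) := fun k => if k % 2 = 0 then W1 (k / 2) else
    W2 (Nat.unpair (k / 2)).1 (Nat.unpair (k / 2)).2
  let F : ℕ → Cm 3 → Cm 4 := fun k => if k % 2 = 0 then F1 (k / 2) else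
    F2 (Nat.unpair (k / 2)).1 (Nat.unpair (k / 2)).2
  have hW : ∀ k, IsOpen (W k) := by
    intro k
    by_cases hk : k % 2 = 0
    · simp only [W, if_pos hk]; exact hW1 _
    · simp only [W, if_neg hk]; exact hW2 _ _
  have hF : ∀ k, ContDiffOn ℝ 1 (F k) (W k) := by
    intro k
    by_cases hk : k % 2 = 0
    · simp only [W, F, if_pos hk]; exact hF1 _
    · simp only [W, F, if_neg hk]; exact hF2 _ _
  obtain ⟨hpre, hclos⟩ := stB2 0 ε W F hε hW hF
  set E : Set (Cm 4) := ⋃ k, F k '' W k with hE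
  have hE1 : ∀ k, ∀ q ∈ W1 k, F1 k q ∈ E := by
    intro k q hq
    refine mem_iUnion.2 ⟨2 * k, q, ?_, ?_⟩
    · have h1 : 2 * k % 2 = 0 := by omega
      have h2 : 2 * k / 2 = k := by omega
      simp only [W, h1, if_true, h2]; exact hq
    · have h1 : 2 * k % 2 = 0 := by omega
      have h2 : 2 * k / 2 = k := by omega
      simp only [F, h1, if_true, h2]
  have hE2 : ∀ n k, ∀ q ∈ W2 n k, F2 n k q ∈ E := by
    intro n k q hq
    have h1 : ¬ ((2 * Nat.pair n k + 1) % 2 = 0) := by omega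
    have h2 : (2 * Nat.pair n k + 1) / 2 = Nat.pair n k := by omega
    refine mem_iUnion.2 ⟨2 * Nat.pair n k + 1, q, ?_, ?_⟩
    · simp only [W, if_neg h1, h2, Nat.unpair_pair]; exact hq
    · simp only [F, if_neg h1, h2, Nat.unpair_pair]
  -- points outside `E`
  have hout : ∀ y ∈ V, Gv y ∉ E → ∃ y' ∈ O, v y' = y ∧ ∃ c : Chart 4 Y, At c y' ∧
      Jac v G c (c y') ≠ 0 := by
    intro y hy hyE
    have h1 : y ∈ v '' O := by
      by_contra hcon
      have h2 := hcov1 hcon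
      simp only [mem_iUnion] at h2
      obtain ⟨k, p, hp, rfl⟩ := h2
      have h3 : π ![p 0, p 1, 0] = p := by
        funext j
        fin_cases j <;> rfl
      apply hyE
      have h4 := hE1 k ![p 0, p 1, 0] (by
        show π ![p 0, p 1, 0] ∈ Ω1 k ∧ g1 k (π ![p 0, p 1, 0]) ∈ V
        rw [h3]; exact ⟨hp, hy⟩)
      have h5 : F1 k ![p 0, p 1, 0] = Gv (g1 k p) := by
        show Gv (g1 k (π ![p 0, p 1, 0])) = _
        rw [h3]
      rwa [h5] at h4
    obtain ⟨y', hy', rfl⟩ := h1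
    obtain ⟨n, hn⟩ := hecov y' hy'
    refine ⟨y', hy', rfl, e n, ⟨he n, hn⟩, fun h0 => hyE ?_⟩
    have h2 : e n y' ∈ {z | z ∈ Ωc n ∧ Jac v G (e n) z = 0} := by
      refine ⟨⟨(e n).map_source hn, ?_, ?_⟩, h0⟩
      · rw [(e n).left_inv hn]; exact hy'
      · rw [(e n).left_inv hn]; exact hy
    have h3 := hcov2 n h2
    simp only [mem_iUnion] at h3
    obtain ⟨k, q, hq, hqe⟩ := h3
    have h4 := hE2 n k q hq
    have h5 : F2 n k q = Gv (v y') := by
      show Gv (v ((e n).symm (g2 n k q))) = _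
      rw [hqe, (e n).left_inv hn]
    rwa [h5] at h4
  -- interior points of `K`
  have hKint : ∀ y ∈ K, ‖Gv y‖ < ε → K ∈ 𝓝 y := by
    intro y hy hlt
    have h1 : ρ y < r := by
      refine lt_of_le_of_ne hy.2 fun h => ?_
      exact absurd (hεS y ⟨hy, h⟩) (not_le.2 hlt)
    filter_upwards [hUo.mem_nhds hy.1, (hρ y hy.1).1.eventually (Iio_mem_nhds h1)] with z a b
    exact ⟨a, le_of_lt b⟩
  have hGKclosed : IsClosed (Gv '' K) := (hKc.image_of_continuousOn hGvcont).isClosed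
  have hlocal : ∀ y ∈ K, ‖Gv y‖ < ε → Gv y ∉ E → Gv '' K ∈ 𝓝 (Gv y) := by
    intro y hy hlt hyE
    obtain ⟨y', hy'O, rfl, c, hc, hJ⟩ := hout y (hKV hy) hyE
    exact image_mem_nhds hv hc hy'O (fun i => hG i _ (hKV hy)) hJ (hKint _ hy hlt)
  -- the ball minus `E` is contained in the image
  have hsub : Metric.ball (0 : Cm 4) ε \ E ⊆ Gv '' K := by
    have h1 := isPreconnected_iff_subset_of_disjoint.1 hpre (interior (Gv '' K)) (Gv '' K)ᶜ
      isOpen_interior hGKclosed.isOpen_compl ?_ ?_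
    · rcases h1 with h1 | h1
      · exact h1.trans interior_subset
      · exfalso
        -- find a point in the image
        have h2 : IsOpen {y | y ∈ U ∧ ρ y < r ∧ ‖Gv y‖ < ε} := by
          rw [isOpen_iff_mem_nhds]
          intro y hy
          filter_upwards [hUo.mem_nhds hy.1, (hρ y hy.1).1.eventually (Iio_mem_nhds hy.2.1),
            (hGcont y (hUV hy.1)).norm.eventually (Iio_mem_nhds hy.2.2)] with z a b c
          exact ⟨a, b, c⟩
        have hGvx : Gv x = 0 := by funext i; exact hGx i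
        have h3 : ({y | y ∈ U ∧ ρ y < r ∧ ‖Gv y‖ < ε} : Set X.pt).Nonempty :=
          ⟨x, hxU, by rw [hρx]; exact hr0, by rw [hGvx, norm_zero]; exact hε⟩
        obtain ⟨y, hyO, hyW, hyJ⟩ := hgen _ h2 (fun y hy => hUV hy.1) h3
        have h4 : K ∈ 𝓝 (v y) := by
          filter_upwards [h2.mem_nhds hyW] with z hz
          exact ⟨hz.1, hz.2.1.le⟩
        have h5 := image_mem_nhds hv ⟨chart_mem_atlas (Cm 4) y, mem_chart_source (Cm 4) y⟩ hyO
          (fun i => hG i _ (hUV hyW.1)) (hyJ _ ⟨chart_mem_atlas (Cm 4) y,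
            mem_chart_source (Cm 4) y⟩) h4
        have h6 : Metric.ball (0 : Cm 4) ε ∈ 𝓝 (Gv (v y)) :=
          Metric.isOpen_ball.mem_nhds (by rw [mem_ball_zero_iff]; exact hyW.2.2)
        have h7 : Gv (v y) ∈ closure (Metric.ball (0 : Cm 4) ε \ E) :=
          hclos (mem_of_mem_nhds h6)
        obtain ⟨w, hw1, hw2⟩ := mem_closure_iff_nhds.1 h7 _ h5
        exact h1 hw2 hw1
    · intro w hw
      by_cases hwK : w ∈ Gv '' K
      · left
        obtain ⟨y, hy, rfl⟩ := hwK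
        rw [mem_interior_iff_mem_nhds]
        exact hlocal y hy (by have := hw.1; rwa [mem_ball_zero_iff] at this) hw.2
      · right; exact hwK
    · ext w
      constructor
      · rintro ⟨-, h2, h3⟩; exact (h3 (interior_subset h2)).elim
      · intro h; exact h.elim
  have hball : Metric.ball (0 : Cm 4) ε ⊆ Gv '' K := by
    intro w hw
    have h1 := closure_mono hsub (hclos hw)
    rwa [hGKclosed.closure_eq] at h1
  -- uncountably many zeros of the first three functions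
  have hw : ∀ c ∈ Metric.ball (0 : ℂ) ε, ∃ y ∈ K, Gv y = ![0, 0, 0, c] := by
    intro c hc
    have h1 : (![0, 0, 0, c] : Cm 4) ∈ Metric.ball (0 : Cm 4) ε := by
      rw [mem_ball_zero_iff, pi_norm_lt_iff hε]
      intro i
      rw [mem_ball_zero_iff] at hc
      fin_cases i <;> simp [hε, hc]
    obtain ⟨y, hy, hyw⟩ := hball h1
    exact ⟨y, hy, hyw⟩
  apply ball_not_countable hε
  have hXne : Nonempty X.pt := ⟨x⟩
  choose! yc hyK hyc using hw
  refine Set.MapsTo.countable_of_injOn (f := yc) (t := C) ?_ ?_ hcount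
  · intro c hc
    have h1 := hyc c hc
    refine ⟨hKV (hyK c hc), ?_, ?_, ?_⟩
    · exact congrFun h1 0
    · exact congrFun h1 1
    · exact congrFun h1 2
  · intro c hc c' hc' heq
    have h1 := congrFun (hyc c hc) 3
    have h2 := congrFun (hyc c' hc') 3
    rw [heq] at h1
    have h3 : (![0, 0, 0, c] : Cm 4) 3 = (![0, 0, 0, c'] : Cm 4) 3 := h1.symm.trans h2
    simpa using h3

end Vale.Agent.P277.H29
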