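import Vale.Agent.P277.H619.StD
import Vale.Agent.P277.H29.B3nc
import Vale.Agent.P277.H73.Final
import Vale.Agent.P277.A.Emb
import Mathlib.LinearAlgebra.Matrix.NonsingularInverse

/-!
# P277, package D5
-/

open scoped Manifold ContDiff Topology
open Vale.Agent.P272.K Vale.Agent.P285.H281.FD Set Filter

noncomputable section

namespace Vale.Agent.P277.H29

open Vale.Agent.P277.H619

/-- the trivial line bundle -/
def triv (T : Type) : Bd T where
  ι := Unit
  U _ := univ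
  g _ _ _ := 1

theorem isLBx_triv (X : CSp) : IsLBx X (triv X.pt) where
  isOpen _ := isOpen_univ
  cover x := ⟨(), mem_univ x⟩
  holo _ _ x _ _ := hol_const 1 x
  ne_zero _ _ _ _ _ := one_ne_zero
  cocycle _ _ _ _ _ _ _ := one_mul 1

/-- countably many proper subspaces do not cover -/
theorem exists_notMem {M : ℕ} {I : Type} [Countable I] (H : I → Submodule ℂ (Fin M → ℂ))
    (hH : ∀ k, H k ≠ ⊤) : ∃ w, ∀ k, w ∉ H k := by
  rcases isEmpty_or_nonempty I with hI | hI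
  · exact ⟨0, fun k => (hI.false k).elim⟩
  · obtain ⟨e, he⟩ := exists_surjective_nat I
    obtain ⟨w, hw⟩ := H73.stC2 M (fun n => H (e n)) (fun n => hH _)
    refine ⟨w, fun k => ?_⟩
    obtain ⟨n, rfl⟩ := he k
    exact hw n

/-- evaluation of a linear form on the standard basis -/
def evalB : (Cm 4 →L[ℂ] ℂ) →ₗ[ℂ] (Fin 4 → ℂ) where
  toFun L j := L (Pi.single j 1)
  map_add' _ _ := rfl
  map_smul' _ _ := rfl

theorem evalB_injective : Function.Injective evalB := by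
  intro L L' h
  ext z
  have h1 : z = ∑ j, z j • (Pi.single j 1 : Cm 4) := by
    rw [← pi_eq_sum_univ' z]
  rw [h1, map_sum, map_sum]
  refine Finset.sum_congr rfl fun j _ => ?_
  rw [map_smul, map_smul]
  congr 1
  exact congrFun h j

theorem jac_ne_zero {Y T : Type} [TopologicalSpace Y] (v : Y → T) (G : Fin 4 → T → ℂ)
    (e : Chart 4 Y) (y : Y) (h : LinearIndependent ℂ fun i => dfr v e y (G i)) :
    Jac v G e (e y) ≠ 0 := by
  have h1 : LinearIndependent ℂ (Matrix.of fun i j =>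
      fderiv ℂ (fun z => G i (v (e.symm z))) (e y) (Pi.single j 1)).row := by
    have h2 := h.map' evalB (LinearMap.ker_eq_bot.2 evalB_injective)
    exact h2
  rw [Matrix.linearIndependent_rows_iff_isUnit, Matrix.isUnit_iff_isUnit_det] at h1
  exact h1.ne_zero

section span

variable {Y : Type} [TopologicalSpace Y] [ChartedSpace (Cm 4) Y] {X : CSp} {O : Set Y}
  {v : Y → X.pt}

theorem dfr_hasFDerivAt (hv : IsOpenEmb X O v) {y : Y} (hy : y ∈ O) {e : Chart 4 Y} (he : At e y)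
    {h : X.pt → ℂ} (hh : X.Hol h (v y)) :
    HasFDerivAt (fun z => h (v (e.symm z))) (dfr v e y h) (e y) :=
  ((hv.hol_iff hy he).1 hh).differentiableAt.hasFDerivAt

/-- the differential of a linear combination -/
theorem dfr_lin (hv : IsOpenEmb X O v) {y : Y} (hy : y ∈ O) {e : Chart 4 Y} (he : At e y) {N : ℕ}
    {u : Fin N → X.pt → ℂ} (hu : ∀ a, X.Hol (u a) (v y)) (w : Fin N → ℂ) (c : Fin N → ℂ) :
    dfr v e y (fun x => ∑ a, w a * (u a x - c a)) = ∑ a, w a • dfr v e y (u a) := by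
  have h1 : ∀ a, HasFDerivAt (fun z => w a * (u a (v (e.symm z)) - c a)) (w a • dfr v e y (u a))
      (e y) := fun a => ((dfr_hasFDerivAt hv hy he (hu a)).sub_const (c a)).const_mul (w a)
  have h2 := HasFDerivAt.fun_sum (u := Finset.univ) fun a _ => h1 a
  exact h2.fderiv

/-- the differentials of coordinate functions span the cotangent space -/
theorem exists_dfr_eq (hv : IsOpenEmb X O v) {y : Y} (hy : y ∈ O) {e : Chart 4 Y} (he : At e y)
    {N : ℕ} {V : Set X.pt} {u : Fin N → X.pt → ℂ} (hu : IsCoord X V u) (hyV : v y ∈ V)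
    (ℓ : Cm 4 →L[ℂ] ℂ) : ∃ w : Fin N → ℂ, ∑ a, w a • dfr v e y (u a) = ℓ := by
  have h0 : X.Hol (fun x => ℓ (e (hv.inv y x))) (v y) := by
    refine hv.hol_of_analyticAt y hy he (g := fun y => ℓ (e y)) ?_
    refine (ℓ.analyticAt _).congr ?_
    filter_upwards [e.open_target.mem_nhds (e.map_source he.2)] with z hz
    rw [e.right_inv hz]
  obtain ⟨g, hg, hgu⟩ := (hu.iff (v y) hyV _).1 h0
  have h1 : HasFDerivAt (fun z => ℓ (e (hv.inv y (v (e.symm z))))) ℓ (e y) := by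
    refine ℓ.hasFDerivAt.congr_of_eventuallyEq ?_
    have h2 : ∀ᶠ z in 𝓝 (e y), e.symm z ∈ O := by
      refine (e.continuousAt_symm (e.map_source he.2)).eventually_mem ?_
      rw [e.left_inv he.2]
      exact hv.isOpen.mem_nhds hy
    filter_upwards [h2, e.open_target.mem_nhds (e.map_source he.2)] with z hz hz'
    rw [hv.inv_apply y hz, e.right_inv hz']
  have h2 : HasFDerivAt (fun z => g (fun a => u a (v (e.symm z))))
      ((fderiv ℂ g (fun a => u a (v y))).comp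
        (ContinuousLinearMap.pi fun a => dfr v e y (u a))) (e y) := by
    have h3 : HasFDerivAt (fun z => fun a => u a (v (e.symm z)))
        (ContinuousLinearMap.pi fun a => dfr v e y (u a)) (e y) :=
      hasFDerivAt_pi.2 fun a => dfr_hasFDerivAt hv hy he (hu.hol a _ hyV)
    have h4 : HasFDerivAt g (fderiv ℂ g (fun a => u a (v y))) (fun a => u a (v (e.symm (e y)))) := by
      rw [e.left_inv he.2]
      exact hg.differentiableAt.hasFDerivAt
    exact h4.comp (e y) h3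
  have h3 : (fun z => ℓ (e (hv.inv y (v (e.symm z))))) =ᶠ[𝓝 (e y)]
      fun z => g (fun a => u a (v (e.symm z))) := by
    have h4 : Tendsto (fun z => v (e.symm z)) (𝓝 (e y)) (𝓝 (v y)) := by
      have := (hv.holAt hy he).1
      rwa [ContinuousAt, e.left_inv he.2] at this
    exact h4.eventually hgu
  have h4 := (h2.congr_of_eventuallyEq h3).unique h1
  refine ⟨fun a => fderiv ℂ g (fun a => u a (v y)) (Pi.single a 1), ?_⟩
  rw [← h4]
  ext z
  simp only [sum_apply, smul_apply, smul_eq_mul, ContinuousLinearMap.comp_apply]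
  set c : Fin N → ℂ := fun a => dfr v e y (u a) z
  have h5 : (ContinuousLinearMap.pi fun a => dfr v e y (u a)) z =
      ∑ a, c a • (Pi.single a 1 : Fin N → ℂ) := by
    rw [← pi_eq_sum_univ' c]
    rfl
  rw [h5, map_sum]
  refine Finset.sum_congr rfl fun a _ => ?_
  rw [map_smul, smul_eq_mul, mul_comm]

end span

/-- (D5), for arbitrary `Y`. -/
theorem d5 (Y : Type) [TopologicalSpace Y] [ChartedSpace (Cm 4) Y]
    [IsManifold 𝓘(ℂ, Cm 4) ω Y] (X : CSp) (O : Set Y) (v : Y → X.pt) (hv : IsOpenEmb X O v)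
    (hdense : Dense (v '' O)) (hdim : DimLe X 1 (v '' O)ᶜ) (U : Set X.pt) (hU : IsOpen U) (x : X.pt)
    (hxU : x ∈ U) (h₁ h₂ : X.pt → ℂ) (hol : ∀ y ∈ U, X.Hol h₁ y ∧ X.Hol h₂ y) (hx1 : h₁ x = 0)
    (hx2 : h₂ x = 0) (D : ℕ → Y) (e : ℕ → Chart 4 Y) (heD : ∀ n, At (e n) (D n))
    (hDO : ∀ n, D n ∈ O ∧ v (D n) ∈ U)
    (hind : ∀ n, LinearIndependent ℂ ![dfr v (e n) (D n) h₁, dfr v (e n) (D n) h₂])
    (hDd : ∀ W : Set X.pt, IsOpen W → W ⊆ U → W.Nonempty → ∃ n, v (D n) ∈ W) :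
    ¬ {y | y ∈ U ∧ h₁ y = 0 ∧ h₂ y = 0} ⊆ (v '' O)ᶜ := by
  classical
  intro hsub
  obtain ⟨N, V₀, u, hxV₀, hu₀⟩ := exists_isCoord X x
  set V := V₀ ∩ U
  have hVo : IsOpen V := hu₀.isOpen.inter hU
  have hu : IsCoord X V u := hu₀.mono hVo inter_subset_left
  have hxV : x ∈ V := ⟨hxV₀, hxU⟩
  -- the indices in `V`
  let I : Type := {n : ℕ // v (D n) ∈ V}
  let Λ : ∀ n : I, (Fin N → ℂ) →ₗ[ℂ] (Cm 4 →L[ℂ] ℂ) := fun n =>
    { toFun := fun w => ∑ a, w a • dfr v (e n) (D n) (u a)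
      map_add' := fun w w' => by
        simp only [Pi.add_apply]
        rw [← Finset.sum_add_distrib]
        refine Finset.sum_congr rfl fun a _ => ContinuousLinearMap.ext fun z => ?_
        exact add_mul (w a) (w' a) (dfr v (e n) (D n) (u a) z)
      map_smul' := fun c w => by simp [mul_smul, Finset.smul_sum] }
  have hΛ : ∀ n : I, Function.Surjective (Λ n) := fun n ℓ =>
    exists_dfr_eq hv (hDO n).1 (heD n) hu n.2 ℓ
  have hfr : Module.finrank ℂ (Cm 4 →L[ℂ] ℂ) = 4 := by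
    have h1 : Module.finrank ℂ (Cm 4 →L[ℂ] ℂ) = Module.finrank ℂ (Cm 4 →ₗ[ℂ] ℂ) :=
      (LinearMap.toContinuousLinearMap (E := Cm 4) (F' := ℂ) (𝕜 := ℂ)).finrank_eq.symm
    rw [h1, Module.finrank_linearMap]
    simp
  have hspan : ∀ {k : ℕ} (hk : k < 4) (b : Fin k → (Cm 4 →L[ℂ] ℂ)),
      Submodule.span ℂ (range b) ≠ ⊤ := by
    intro k hk b htop
    have h1 : Module.finrank ℂ (Submodule.span ℂ (range b)) ≤ k := by
      have := finrank_range_le_card (R := ℂ) b
      simpa [Set.finrank] using this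
    rw [htop, finrank_top, hfr] at h1
    omega
  have hcomap : ∀ (n : I) (p : Submodule ℂ (Cm 4 →L[ℂ] ℂ)), p ≠ ⊤ → p.comap (Λ n) ≠ ⊤ := by
    intro n p hp h
    apply hp
    rw [Submodule.eq_top_iff']
    intro ℓ
    obtain ⟨w, rfl⟩ := hΛ n ℓ
    have : w ∈ p.comap (Λ n) := by rw [h]; trivial
    exact this
  obtain ⟨n₀, hn₀⟩ := hDd V hVo inter_subset_right ⟨x, hxV⟩
  have hN : N ≠ 0 := by
    rintro rfl
    obtain ⟨w, hw⟩ := hΛ ⟨n₀, hn₀⟩ (ContinuousLinearMap.proj (R := ℂ) (φ := fun _ : Fin 4 => ℂ) 0)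
    have h1 : (Λ ⟨n₀, hn₀⟩) w = 0 := by simp [Λ]
    rw [h1] at hw
    have := congrArg (fun L : Cm 4 →L[ℂ] ℂ => L (Pi.single 0 1)) hw
    simp at this
  -- C1
  set S : Set X.pt := {y | y ∈ V ∧ h₁ y = 0 ∧ h₂ y = 0}
  have hS1 : DimLe X (0 + 1) S := hdim.mono fun y hy => hsub ⟨hy.1.2, hy.2⟩
  obtain ⟨H, hH1, hH2⟩ := H73.stC1_final X (triv X.pt) (isLBx_triv X) V hVo N hN
    (fun a _ y => u a y - u a x)
    (fun a => ⟨fun _ y hy _ => hol_sub (hu.hol a y hy) (hol_const _ _), fun _ _ y _ _ _ => by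
      simp [triv]⟩) 0 S (fun y hy => hy.1) hS1 x (by
      intro y hy hyx
      by_contra hcon
      push Not at hcon
      apply hyx
      refine hu.injOn hy.1 hxV ?_
      ext a
      have := hcon a () (mem_univ _)
      exact sub_eq_zero.1 this)
  -- choice of the first coordinate
  obtain ⟨w, hw⟩ := exists_notMem (I := ℕ ⊕ I) (Sum.elim H fun n => (Submodule.span ℂ
    (range ![dfr v (e n) (D n) h₁, dfr v (e n) (D n) h₂])).comap (Λ n)) (by
      rintro (k | n)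
      · exact hH1 k
      · exact hcomap n _ (hspan (by norm_num) _))
  obtain ⟨w', hw'⟩ := exists_notMem (I := I) (fun n => (Submodule.span ℂ
    (range ![dfr v (e n) (D n) h₁, dfr v (e n) (D n) h₂, Λ n w])).comap (Λ n))
      (fun n => hcomap n _ (hspan (by norm_num) _))
  have hcount : (S ∩ Zs (triv X.pt) (lin w fun a _ y => u a y - u a x)).Countable :=
    (hH2 w fun k => hw (Sum.inl k)).countable
  set l₁ : X.pt → ℂ := fun y => ∑ a, w a * (u a y - u a x)
  set l₂ : X.pt → ℂ := fun y => ∑ a, w' a * (u a y - u a x)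
  have hl : ∀ (w : Fin N → ℂ), ∀ y ∈ V, X.Hol (fun y => ∑ a, w a * (u a y - u a x)) y :=
    fun w y hy => hol_sum _ fun a _ => hol_mul (hol_const _ _) (hol_sub (hu.hol a y hy) (hol_const _ _))
  have hG : ∀ i, ∀ y ∈ V, X.Hol ((![h₁, h₂, l₁, l₂] : Fin 4 → X.pt → ℂ) i) y := by
    intro i y hy
    fin_cases i
    · exact (hol y hy.2).1
    · exact (hol y hy.2).2
    · exact hl w y hy
    · exact hl w' y hy
  refine b3 Y X O v hv hdense (hdim.le (by norm_num)) ![h₁, h₂, l₁, l₂] x V hVo hxV hG ?_ ?_ ?_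
  · intro i
    fin_cases i
    · exact hx1
    · exact hx2
    · simp [l₁]
    · simp [l₂]
  · intro W hW hWV hWn
    obtain ⟨n, hn⟩ := hDd W hW (hWV.trans inter_subset_right) hWn
    have hnV : v (D n) ∈ V := hWV hn
    refine ⟨D n, (hDO n).1, hn, fun e' he' => ?_⟩
    rw [← Jac_ne_zero_iff hv (hDO n).1 (heD n) he' fun i => hG i _ hnV]
    refine jac_ne_zero v _ (e n) (D n) ?_
    have e1 : ∀ w : Fin N → ℂ, dfr v (e n) (D n) (fun y => ∑ a, w a * (u a y - u a x)) =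
        Λ ⟨n, hnV⟩ w := fun w =>
      dfr_lin hv (hDO n).1 (heD n) (fun a => hu.hol a _ hnV) w _
    have e2 : (fun i => dfr v (e n) (D n) ((![h₁, h₂, l₁, l₂] : Fin 4 → X.pt → ℂ) i)) =
        Fin.snoc ![dfr v (e n) (D n) h₁, dfr v (e n) (D n) h₂, Λ ⟨n, hnV⟩ w] (Λ ⟨n, hnV⟩ w') := by
      ext1 i
      fin_cases i
      · rfl
      · rfl
      · exact e1 w
      · exact e1 w'
    have e3 : (![dfr v (e n) (D n) h₁, dfr v (e n) (D n) h₂, Λ ⟨n, hnV⟩ w] :
        Fin 3 → (Cm 4 →L[ℂ] ℂ)) =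
        Fin.snoc ![dfr v (e n) (D n) h₁, dfr v (e n) (D n) h₂] (Λ ⟨n, hnV⟩ w) := by
      ext1 i
      fin_cases i <;> rfl
    rw [e2, linearIndependent_finSnoc]
    refine ⟨?_, hw' ⟨n, hnV⟩⟩
    rw [e3, linearIndependent_finSnoc]
    exact ⟨hind n, hw (Sum.inr ⟨n, hnV⟩)⟩
  · refine hcount.mono ?_
    rintro y ⟨hyV, hy0, hy1, hy2⟩
    exact ⟨⟨hyV, hy0, hy1⟩, (), mem_univ _, hy2⟩

theorem stD5 : StD5 := by
  intro Y _ _ _ _ _ X O v hv hdense hdim U hU x hxU h₁ h₂ hol hx1 hx2 D e heD hDO hind hDd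
  exact d5 Y X O v hv hdense hdim U hU x hxU h₁ h₂ hol hx1 hx2 D e heD hDO hind hDd

end Vale.Agent.P277.H29
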