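import Vale.Agent.P277.H29.Alg3

/-!
# P277, TX-ALG: proof of `StAlg`
-/

open Filter Topology Metric Set
open Vale.Agent.P298.H941 Vale.Agent.P272.K Vale.Agent.P277.TX

noncomputable section

namespace Vale.Agent.P277.H29

variable {X : CSp} {V : Set X.pt} {G : X.pt → Cm 4} {c : Cm 4} {r : ℝ} {d : ℕ} {lam : X.pt → ℂ}
  {θ : Cm 4 → ℂ}

/-- density, local version -/
theorem cov_zero' (h : IsCov X V G c r d lam θ) {f : Cm 4 → ℂ} {x : X.pt}
    (hx : x ∈ V) (hf : ¬ f =ᶠ[𝓝 (G x)] 0) {g : X.pt → ℂ} (hg : ContinuousAt g x) {W : Set X.pt}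
    (hW : W ∈ 𝓝 x) (h0 : ∀ y ∈ W, y ∈ V → f (G y) ≠ 0 → g y = 0) : g x = 0 := by
  by_contra hcon
  obtain ⟨U, hUW, hUo, hxU⟩ := mem_nhds_iff.1 (inter_mem (inter_mem hW (h.isOpen.mem_nhds hx))
    (hg.eventually_ne hcon))
  apply hf
  filter_upwards [(h.openMap U (fun y hy => (hUW hy).1.2) hUo).mem_nhds ⟨x, hxU, rfl⟩]
  rintro _ ⟨y, hy, rfl⟩
  by_contra hne
  exact (hUW hy).2 (h0 y (hUW hy).1.1 (hUW hy).1.2 hne)

/-- the shift -/
theorem shift_analytic (c : Cm 4) (z : Cm 4) : AnalyticAt ℂ (fun w : Cm 4 => w - c) z :=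
  analyticAt_id.sub analyticAt_const

theorem analytic_shift {f : Cm 4 → ℂ} (hf : AnalyticAt ℂ f 0) (c : Cm 4) :
    AnalyticAt ℂ (fun w => f (w - c)) c :=
  AnalyticAt.comp_of_eq hf (shift_analytic c c) (sub_self c)

theorem ctr_eq (G : X.pt → Cm 4) (c : Cm 4) (y : X.pt) : ctr G c y = G y - c := rfl

section

variable {p : X.pt} {ι : Type} [Fintype ι] {A : ι → X.pt → ℂ} {b₀ : Cm 4 → ℂ}

/-- over a good point the matrix of the generators has rank `d` -/
theorem good_point (h : IsCov X V G c r d lam θ) (hp : p ∈ V) (hpc : G p = c)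
    (hu : ∀ y ∈ V, G y = G p → y = p)
    (hspan : ∀ f, X.Hol f p → ∃ ρ : ι → Cm 4 → ℂ, (∀ i, AnalyticAt ℂ (ρ i) 0) ∧
        ∀ᶠ y in 𝓝 p, b₀ (ctr G c y) * f y = ∑ i, ρ i (ctr G c y) * A i y) :
    ∀ᶠ w in 𝓝 c, b₀ (w - c) ≠ 0 → θ w ≠ 0 → ∀ x : Fin d → X.pt, Enum V G w x →
      ∀ v : Fin d → ℂ, (∀ i, ∑ k, A i (x k) * v k = 0) → v = 0 := by
  have h1 : ∀ j : Fin d, ∃ ρ : ι → Cm 4 → ℂ, (∀ i, AnalyticAt ℂ (ρ i) 0) ∧
        ∀ᶠ y in 𝓝 p, b₀ (ctr G c y) * lam y ^ (j : ℕ) = ∑ i, ρ i (ctr G c y) * A i y := fun j =>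
    hspan (fun y => lam y ^ (j : ℕ)) (hol_pow (h.lamHol p hp) _)
  choose ρ hρ hρ' using h1
  obtain ⟨N, hN, hNo, hpN⟩ := mem_nhds_iff.1 (eventually_all.2 hρ')
  have hcb : c ∈ ball c r := mem_ball_self h.pos
  have h2 := fibre_near h hcb hNo (fun x hx hxy => by rw [hu x hx (by rw [hxy, hpc])]; exact hpN)
  filter_upwards [h2, isOpen_ball.mem_nhds hcb] with w hw hwb hb hθ x hx v hv
  have hxV : ∀ k, x k ∈ V ∧ G (x k) = w := fun k => (hx.2 (x k)).1 ⟨k, rfl⟩
  have h3 : ∀ j : Fin d, ∑ k, lam (x k) ^ (j : ℕ) * v k = 0 := by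
    intro j
    have h4 : ∀ k, b₀ (w - c) * lam (x k) ^ (j : ℕ) = ∑ i, ρ j i (w - c) * A i (x k) := by
      intro k
      have h5 := hN (hw _ (hxV k).1 (hxV k).2) j
      rw [ctr_eq, (hxV k).2] at h5
      exact h5
    have h6 : b₀ (w - c) * ∑ k, lam (x k) ^ (j : ℕ) * v k = 0 := by
      calc b₀ (w - c) * ∑ k, lam (x k) ^ (j : ℕ) * v k
          = ∑ k, (∑ i, ρ j i (w - c) * A i (x k)) * v k := by
            rw [Finset.mul_sum]
            exact Finset.sum_congr rfl fun k _ => by rw [← h4 k]; ring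
        _ = ∑ i, ρ j i (w - c) * ∑ k, A i (x k) * v k := by
            simp only [Finset.sum_mul, Finset.mul_sum]
            rw [Finset.sum_comm]
            exact Finset.sum_congr rfl fun i _ => Finset.sum_congr rfl fun k _ => by ring
        _ = 0 := by simp [hv]
    exact (mul_eq_zero.1 h6).resolve_left hb
  have hinj : Function.Injective fun k => lam (x k) := fun k l hkl =>
    hx.1 (h.sep w hwb hθ (hxV k) (hxV l) hkl)
  have hdet : (Matrix.vandermonde fun k => lam (x k)).det ≠ 0 := Matrix.det_vandermonde_ne_zero_iff.2 hinj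
  apply Matrix.eq_zero_of_vecMul_eq_zero hdet
  ext j
  show ∑ k, v k * lam (x k) ^ (j : ℕ) = 0
  rw [← h3 j]
  exact Finset.sum_congr rfl fun k _ => mul_comm _ _

/-- **The number of generators.** -/
theorem card_eq (h : IsCov X V G c r d lam θ) (hp : p ∈ V) (hpc : G p = c)
    (hu : ∀ y ∈ V, G y = G p → y = p) (hA : ∀ i, ∀ x ∈ V, X.Hol (A i) x)
    (hb₀ : AnalyticAt ℂ b₀ 0) (hb0 : ¬ ∀ᶠ z in 𝓝 0, b₀ z = 0)
    (hspan : ∀ f, X.Hol f p → ∃ ρ : ι → Cm 4 → ℂ, (∀ i, AnalyticAt ℂ (ρ i) 0) ∧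
        ∀ᶠ y in 𝓝 p, b₀ (ctr G c y) * f y = ∑ i, ρ i (ctr G c y) * A i y)
    (hind : ∀ ρ : ι → Cm 4 → ℂ, (∀ i, AnalyticAt ℂ (ρ i) 0) →
        (∀ᶠ y in 𝓝 p, ∑ i, ρ i (ctr G c y) * A i y = 0) → ∀ i, ∀ᶠ z in 𝓝 0, ρ i z = 0) :
    Fintype.card ι = d := by
  classical
  have hcb : c ∈ ball c r := mem_ball_self h.pos
  have hgp := good_point h hp hpc hu hspan
  -- the function `θ b`
  have hbc : AnalyticAt ℂ (fun w => b₀ (w - c)) c := analytic_shift hb₀ c
  have hbc0 : ¬ ∀ᶠ w in 𝓝 c, b₀ (w - c) = 0 := by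
    intro h0
    apply hb0
    have h1 : Tendsto (fun z : Cm 4 => c + z) (𝓝 0) (𝓝 c) := by
      have : Continuous fun z : Cm 4 => c + z := continuous_const.add continuous_id
      have h2 := this.tendsto 0
      rwa [add_zero] at h2
    filter_upwards [h1.eventually h0] with z hz
    rwa [add_sub_cancel_left] at hz
  have hfc : ¬ ∀ᶠ w in 𝓝 c, θ w * b₀ (w - c) = 0 := fun h0 =>
    (zero_or (h.an c hcb) hbc h0).elim (h.ne c hcb) hbc0
  obtain ⟨R, hR, hRan⟩ := Metric.eventually_nhds_iff_ball.1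
    ((h.an c hcb).mul hbc).eventually_analyticAt
  have hNZ : NZ c R (fun w => θ w * b₀ (w - c)) := nz_of_analytic hRan (mem_ball_self hR) hfc
  obtain ⟨w, hw, hwb, hw0⟩ := hNZ.exists_ne (mem_ball_self hR) (inter_mem hgp
    (isOpen_ball.mem_nhds hcb))
  have hθw : θ w ≠ 0 := left_ne_zero_of_mul hw0
  have hbw : b₀ (w - c) ≠ 0 := right_ne_zero_of_mul hw0
  obtain ⟨x, hx⟩ := h.enum w hw.2 hθw
  apply le_antisymm
  · -- `card ι ≤ d`
    by_contra hlt
    push Not at hlt
    choose T hT hT' using fun i i' => exists_trace h (g := fun y => A i y * A i' y)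
      (fun x hx => hol_mul (hA i x hx) (hA i' x hx))
    have hsh : AnalyticAt ℂ (fun z : Cm 4 => c + z) 0 := analyticAt_const.add analyticAt_id
    have hTan : ∀ i i', AnalyticAt ℂ (fun z => T i i' (c + z)) 0 := fun i i' =>
      AnalyticAt.comp_of_eq (hT i i' c hcb) hsh (add_zero c)
    let M : Matrix ι ι (An (Cm 4)) := fun i i' => ⟨fun z => T i i' (c + z), hTan i i'⟩
    have hMz : ∀ z, (M.det : Cm 4 → ℂ) z = (Matrix.of fun i i' => T i i' (c + z)).det := by
      intro z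
      have h1 := RingHom.map_det ((Pi.evalRingHom (fun _ : Cm 4 => ℂ) z).comp
        (An (Cm 4)).val.toRingHom) M
      exact h1
    have hdet0 : ∀ᶠ z in 𝓝 (0 : Cm 4), θ (c + z) * (M.det : Cm 4 → ℂ) z = 0 := by
      have hb : ∀ᶠ z : Cm 4 in 𝓝 0, c + z ∈ ball c r :=
        hsh.continuousAt.eventually (by
          show ball c r ∈ 𝓝 (c + 0)
          rw [add_zero]; exact isOpen_ball.mem_nhds hcb)
      filter_upwards [hb] with z hz
      by_cases hθ : θ (c + z) = 0
      · rw [hθ, zero_mul]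
      · obtain ⟨x, hx⟩ := h.enum _ hz hθ
        rw [hMz]
        let B : Matrix ι (Fin d) ℂ := Matrix.of fun i k => A i (x k)
        have h1 : (Matrix.of fun i i' => T i i' (c + z)) = B * B.transpose := by
          ext i i'
          exact hT' i i' _ hz hθ x hx
        have h2 : (B * B.transpose).det = 0 := by
          by_contra hne
          have h3 : (B * B.transpose).rank = Fintype.card ι :=
            Matrix.rank_of_isUnit _ ((Matrix.isUnit_iff_isUnit_det _).2 (isUnit_iff_ne_zero.2 hne))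
          have h4 : (B * B.transpose).rank ≤ B.rank := Matrix.rank_mul_le_left _ _
          have h5 : B.rank ≤ d := by
            have := Matrix.rank_le_card_width B
            rwa [Fintype.card_fin] at this
          omega
        rw [h1, h2, mul_zero]
    have hMan : AnalyticAt ℂ (M.det : Cm 4 → ℂ) 0 := M.det.2
    have hθan : AnalyticAt ℂ (fun z : Cm 4 => θ (c + z)) 0 :=
      AnalyticAt.comp_of_eq (h.an c hcb) hsh (add_zero c)
    have hM0 : ∀ᶠ z in 𝓝 (0 : Cm 4), (M.det : Cm 4 → ℂ) z = 0 := by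
      refine (zero_or hθan hMan hdet0).resolve_left fun h0 => h.ne c hcb ?_
      have h1 : Tendsto (fun w : Cm 4 => w - c) (𝓝 c) (𝓝 0) := by
        have := (shift_analytic c c).continuousAt.tendsto
        rwa [sub_self] at this
      filter_upwards [h1.eventually h0] with w hw
      rwa [add_sub_cancel] at hw
    -- the germ matrix
    let q : An (Cm 4) →+* O (Cm 4) := Ideal.Quotient.mk (nu (Cm 4))
    have hq0 : (q.mapMatrix M).det = 0 := by
      rw [← RingHom.map_det]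
      exact (mk_eq_zero_iff M.det.2).2 hM0
    obtain ⟨v, hv, hMv⟩ := Matrix.exists_mulVec_eq_zero_iff.2 hq0
    choose ρ hρ hρ' using fun i => exists_rep (v i)
    have hrel : ∀ i, ∀ᶠ z in 𝓝 (0 : Cm 4), ∑ i', T i i' (c + z) * ρ i' z = 0 := by
      intro i
      have h1 := congrFun hMv i
      have h2 : (∑ i', mk (fun z => T i i' (c + z)) (hTan i i') * mk (ρ i') (hρ i') : O (Cm 4)) = 0 := by
        refine Eq.trans ?_ h1
        exact Finset.sum_congr rfl fun i' _ => by rw [hρ']; rfl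
      have h3 : ∀ i', (mk (fun z => T i i' (c + z)) (hTan i i') * mk (ρ i') (hρ i') : O (Cm 4)) =
          mk (fun z => T i i' (c + z) * ρ i' z) ((hTan i i').mul (hρ i')) := fun i' => rfl
      rw [Finset.sum_congr rfl fun i' _ => h3 i', mk_sum, mk_eq_zero_iff] at h2
      filter_upwards [h2] with z hz
      exact hz
    -- the combination vanishes
    have hzero : ∀ᶠ y in 𝓝 p, ∑ i, ρ i (ctr G c y) * A i y = 0 := by
      have hcG : Tendsto G (𝓝 p) (𝓝 c) := by
        have := cov_cont h hp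
        rwa [ContinuousAt, hpc] at this
      have hcG' : Tendsto (ctr G c) (𝓝 p) (𝓝 0) := by
        have h1 : Tendsto (fun w : Cm 4 => w - c) (𝓝 c) (𝓝 0) := by
          have := (shift_analytic c c).continuousAt.tendsto
          rwa [sub_self] at this
        exact h1.comp hcG
      have hshift : Tendsto (fun w : Cm 4 => w - c) (𝓝 c) (𝓝 0) := by
        have := (shift_analytic c c).continuousAt.tendsto
        rwa [sub_self] at this
      have hE : ∀ᶠ w in 𝓝 c, (b₀ (w - c) ≠ 0 → θ w ≠ 0 → ∀ x : Fin d → X.pt, Enum V G w x →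
          ∀ v : Fin d → ℂ, (∀ i, ∑ k, A i (x k) * v k = 0) → v = 0) ∧
          (∀ i, ∑ i', T i i' w * ρ i' (w - c) = 0) ∧ w ∈ ball c r ∧
          (∀ i, AnalyticAt ℂ (ρ i) (w - c)) ∧ w ∈ ball c R := by
        have e1 : ∀ᶠ w in 𝓝 c, ∀ i, ∑ i', T i i' w * ρ i' (w - c) = 0 := by
          filter_upwards [hshift.eventually (eventually_all.2 hrel)] with w hw i
          have := hw i
          rwa [add_sub_cancel] at this
        have e2 : ∀ᶠ w in 𝓝 c, ∀ i, AnalyticAt ℂ (ρ i) (w - c) :=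
          hshift.eventually (eventually_all.2 fun i => (hρ i).eventually_analyticAt)
        filter_upwards [hgp, e1, isOpen_ball.mem_nhds hcb, e2,
          isOpen_ball.mem_nhds (mem_ball_self hR)] with w w1 w2 w3 w4 w5 using ⟨w1, w2, w3, w4, w5⟩
      filter_upwards [hcG.eventually hE.eventually_nhds, h.isOpen.mem_nhds hp] with y hy hyV
      have hy0 := hy.self_of_nhds
      refine cov_zero' h (f := fun w => θ w * b₀ (w - c)) hyV (hNZ.2 _ hy0.2.2.2.2)
        (g := fun y => ∑ i, ρ i (ctr G c y) * A i y) ?_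
        ((cov_cont h hyV).eventually hy) ?_
      · refine tendsto_finsetSum _ fun i _ => ?_
        have h1 : ContinuousAt (fun y => ρ i (ctr G c y)) y := by
          have h2 : ContinuousAt (ctr G c) y := (cov_cont h hyV).sub continuousAt_const
          exact ContinuousAt.comp (f := ctr G c) (g := ρ i) (hy0.2.2.2.1 i).continuousAt h2
        exact h1.mul (hol_continuousAt (hA i y hyV))
      · intro y' hy' hyV' hne
        have hθ : θ (G y') ≠ 0 := left_ne_zero_of_mul hne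
        have hb : b₀ (G y' - c) ≠ 0 := right_ne_zero_of_mul hne
        have hy1 : _ ∧ _ := hy'
        obtain ⟨x, hx⟩ := h.enum _ hy1.2.2.1 hθ
        have hxV : ∀ k, x k ∈ V ∧ G (x k) = G y' := fun k => (hx.2 (x k)).1 ⟨k, rfl⟩
        have h1 := hy1.1 hb hθ x hx (fun k => ∑ i, ρ i (ctr G c (x k)) * A i (x k)) (by
          intro i
          have h2 : ∀ k, ctr G c (x k) = G y' - c := fun k => by rw [ctr_eq, (hxV k).2]
          calc ∑ k, A i (x k) * ∑ i', ρ i' (ctr G c (x k)) * A i' (x k)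
              = ∑ i', (∑ k, A i (x k) * A i' (x k)) * ρ i' (G y' - c) := by
                simp only [h2, Finset.sum_mul, Finset.mul_sum]
                rw [Finset.sum_comm]
                exact Finset.sum_congr rfl fun i' _ => Finset.sum_congr rfl fun k _ => by ring
            _ = ∑ i', T i i' (G y') * ρ i' (G y' - c) :=
                Finset.sum_congr rfl fun i' _ => by rw [hT' i i' _ hy1.2.2.1 hθ x hx]
            _ = 0 := hy1.2.1 i)
        obtain ⟨k, hk⟩ := (hx.2 y').2 ⟨hyV', rfl⟩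
        have h3 := congrFun h1 k
        simp only [hk] at h3
        exact h3
    apply hv
    ext i
    rw [Pi.zero_apply, ← hρ' i, mk_eq_zero_iff]
    exact hind ρ hρ hzero i
  · -- `d ≤ card ι`
    let L : (Fin d → ℂ) →ₗ[ℂ] (ι → ℂ) := Matrix.mulVecLin (Matrix.of fun i k => A i (x k))
    have hL : Function.Injective L := by
      rw [← LinearMap.ker_eq_bot, LinearMap.ker_eq_bot']
      intro v hv
      exact hw.1 hbw hθw x hx v fun i => congrFun hv i
    have h1 := LinearMap.finrank_le_finrank_of_injective hL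
    simpa using h1

end

/-- **(TX-ALG).** -/
theorem stAlg : StAlg := by
  intro X hX S hS hS2 V G c r d lam θ h n ζ hζ
  obtain ⟨p, hp, hpc, hpS, hu⟩ := exists_center h
  obtain ⟨ι, _, A, b₀, hA, hb₀, hb0, hspan, hind⟩ := exists_basis_fun hX hS hS2 h hp hpc hu hζ
  have hcb : c ∈ ball c r := mem_ball_self h.pos
  have hinc : Tendsto (fun u : Cm 2 => inc 3 (inc 2 u)) (𝓝 0) (𝓝 0) := by
    have h1 : AnalyticAt ℂ (fun u : Cm 2 => inc 3 (inc 2 u)) 0 :=
      AnalyticAt.comp_of_eq (inc_analytic 3 0) (inc_analytic 2 0) (inc_zero 2)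
    have := h1.continuousAt.tendsto
    rwa [inc_zero, inc_zero] at this
  have hcard : Fintype.card ι = d := card_eq h.toIsCov hp hpc hu hA hb₀
    (fun h0 => hb0 (hinc.eventually h0)) hspan hind
  let e : Fin d ≃ ι := (Fintype.equivFinOfCardEq hcard).symm
  obtain ⟨R, hR, hRan⟩ := Metric.eventually_nhds_iff_ball.1
    (analytic_shift hb₀ c).eventually_analyticAt
  refine ⟨min r R, fun i => A (e i), fun w => b₀ (w - c), lt_min h.pos hR, min_le_left _ _,
    fun i x hx _ => hA (e i) x hx, fun z hz => hRan z (ball_subset_ball (min_le_right _ _) hz),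
    ?_, ?_⟩
  · intro ε hε
    have h1 : ∃ᶠ u : Cm 2 in 𝓝 0, b₀ (inc 3 (inc 2 u)) ≠ 0 := fun hcon => hb0 (by
      filter_upwards [hcon] with u hu
      exact not_not.1 hu)
    have h2 : ∀ᶠ u : Cm 2 in 𝓝 0, c + inc 3 (inc 2 u) ∈ ball c ε := by
      have h3 : Tendsto (fun u : Cm 2 => c + inc 3 (inc 2 u)) (𝓝 0) (𝓝 (c + 0)) :=
        tendsto_const_nhds.add hinc
      rw [add_zero] at h3
      exact h3 (ball_mem_nhds c hε)
    obtain ⟨u, hu1, hu2⟩ := (h1.and_eventually h2).exists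
    refine ⟨c + inc 3 (inc 2 u), hu2, ?_, ?_, ?_⟩
    · show c 0 + (0 : ℂ) = 0
      rw [h.c0, add_zero]
    · show c 1 + (0 : ℂ) = 0
      rw [h.c1, add_zero]
    · show b₀ (c + inc 3 (inc 2 u) - c) ≠ 0
      rwa [add_sub_cancel_left]
  · intro f hf
    obtain ⟨ρ, hρ, hρ'⟩ := hspan f (hf p hp)
    obtain ⟨N, hN, hNo, hpN⟩ := mem_nhds_iff.1 hρ'
    have h2 := fibre_near h.toIsCov hcb hNo (fun x hx hxy => by
      rw [hu x hx (by rw [hxy, hpc])]; exact hpN)
    have h3 : ∀ᶠ w in 𝓝 c, ∀ i, AnalyticAt ℂ (fun w => ρ i (w - c)) w :=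
      eventually_all.2 fun i => (analytic_shift (hρ i) c).eventually_analyticAt
    obtain ⟨r₂, hr₂, hb⟩ := Metric.eventually_nhds_iff_ball.1 (h2.and h3)
    refine ⟨min r₂ (min r R), lt_min hr₂ (lt_min h.pos hR), min_le_right _ _,
      fun i w => ρ (e i) (w - c), fun i z hz => (hb z (ball_subset_ball (min_le_left _ _) hz)).2 _,
      fun x hx hxb => ?_⟩
    have h4 := hN ((hb _ (ball_subset_ball (min_le_left _ _) hxb)).1 x hx rfl)
    have h5 : b₀ (G x - c) * f x = ∑ i, ρ i (G x - c) * A i x := h4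
    rw [h5, ← e.sum_comp]

end Vale.Agent.P277.H29
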