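import Vale.Agent.P277.Stmts11
import Vale.Agent.P277.Stmts9

/-!
# P277, T3: adapted charts
-/

open scoped Manifold ContDiff Topology
open Vale.Agent.P272.K Vale.Agent.P285.H281.FD Vale.Agent.P267.H175 Set Metric Filter

noncomputable section

namespace Vale.Agent.P277.T3

/-- `Ψ` is a local coordinate system of `Y`, in which `G` is `{z 0 = 0}` and `V ⊆ G` is
`{z 0 = z 1 = 0}`. -/
structure IsAdp {Y : Type} [TopologicalSpace Y] [ChartedSpace (Cm 4) Y] (G V : Set Y)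
    (Ψ : Cm 4 → Y) (z₀ : Cm 4) (r : ℝ) : Prop where
  par : T2.IsPar G Ψ z₀ r
  zero1 : z₀ 1 = 0
  mem1 : ∀ z ∈ ball z₀ r, Ψ z ∈ V ↔ z 0 = 0 ∧ z 1 = 0

/-- A connected smooth surface `V` in the smooth hypersurface `G`. -/
structure IsSfc {Y : Type} [TopologicalSpace Y] [ChartedSpace (Cm 4) Y] (G V : Set Y) : Prop where
  conn : IsPreconnected V
  adp : ∀ y ∈ V, ∃ Ψ z₀ r, IsAdp G V Ψ z₀ r ∧ Ψ z₀ = y

end Vale.Agent.P277.T3
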