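import Vale.Agent.P277.H29.Bet
import Vale.Agent.P277.H29.Adp
import Vale.Agent.P277.H615.Par
import Vale.Agent.P277.H884.Conn
import Vale.Agent.P277.H762.CL1

/-!
# P277, T3, (A5): values along the adapted wedges of a connected surface are constant
-/

set_option linter.unusedSectionVars false

open scoped Manifold ContDiff Topology
open Vale.Agent.P272.K Vale.Agent.P285.H281.FD Vale.Agent.P267.H175 Set Metric Filter
open Vale.Agent.P277.T3

noncomputable section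

namespace Vale.Agent.P277.H29.FC

open Vale.Agent.P277.H762 (Cv)

/-- the complement of a thin set in a connected open set of `ℂ³` -/
theorem cv_compl {D B : Set (Cm 3)} (hD : IsOpen D) (hDc : IsPreconnected D) (hB : Cv 2 B) :
    IsPreconnected (D \ B) ∧ D ⊆ closure (D \ B) := by
  obtain ⟨Ω, g, hΩ, hg, hcov⟩ := hB
  have hloc : ∀ y ∈ D, ∃ U ⊆ D, IsOpen U ∧ y ∈ U ∧ IsPreconnected (U \ B) ∧ U ⊆ closure (U \ B) := by
    intro y hy
    obtain ⟨r, hr, hs⟩ := Metric.isOpen_iff.1 hD y hy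
    obtain ⟨h1, h2⟩ := H884.b2_three (c := y) hr hΩ (g := g) (fun k p hp =>
      ((hg k p hp).restrictScalars (𝕜 := ℝ)).contDiffAt.contDiffWithinAt)
    have hsub : ball y r \ ⋃ k, g k '' Ω k ⊆ ball y r \ B := sdiff_subset_sdiff_right hcov
    refine ⟨ball y r, hs, isOpen_ball, mem_ball_self hr, ?_, h2.trans (closure_mono hsub)⟩
    exact h1.subset_closure hsub fun u hu => h2 hu.1
  have hdense : D ⊆ closure (D \ B) := by
    intro y hy
    obtain ⟨U, hUD, -, hyU, -, hU⟩ := hloc y hy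
    exact closure_mono (sdiff_subset_sdiff_left hUD) (hU hyU)
  refine ⟨?_, hdense⟩
  intro u v hu hv huv ⟨a, ⟨haD, haB⟩, hau⟩ ⟨b, ⟨hbD, hbB⟩, hbv⟩
  by_contra hne
  have hdisj : ∀ x ∈ D, x ∉ B → x ∈ u → x ∈ v → False := fun x hxD hx h1 h2 =>
    hne ⟨x, ⟨hxD, hx⟩, h1, h2⟩
  have hcase : ∀ y ∈ D, (∃ N ∈ 𝓝 y, N \ B ⊆ u ∧ N ⊆ D) ∨ ∃ N ∈ 𝓝 y, N \ B ⊆ v ∧ N ⊆ D := by
    intro y hy
    obtain ⟨U, hUD, hUo, hyU, hUc, hUd⟩ := hloc y hy
    have h1 : U \ B ⊆ u ∪ v := fun x hx => huv ⟨hUD hx.1, hx.2⟩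
    rcases (U \ B ∩ u).eq_empty_or_nonempty with h2 | h2
    · right
      refine ⟨U, hUo.mem_nhds hyU, fun x hx => (h1 hx).resolve_left fun h3 => ?_, hUD⟩
      exact (h2 ▸ ⟨hx, h3⟩ : x ∈ (∅ : Set (Cm 3))).elim
    · left
      refine ⟨U, hUo.mem_nhds hyU, fun x hx => (h1 hx).resolve_right fun h3 => ?_, hUD⟩
      obtain ⟨z, hz, hzu, hzv⟩ := hUc u v hu hv h1 h2 ⟨x, hx, h3⟩
      exact hdisj z (hUD hz.1) hz.2 hzu hzv
  have hopen : ∀ w : Set (Cm 3), IsOpen {y : Cm 3 | ∃ N ∈ 𝓝 y, N \ B ⊆ w ∧ N ⊆ D} := by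
    intro w
    rw [isOpen_iff_mem_nhds]
    rintro y ⟨N, hN, hNw⟩
    filter_upwards [eventually_mem_nhds_iff.2 hN] with z hz using ⟨N, hz, hNw⟩
  obtain ⟨x, -, ⟨N, hN, hNu, hND⟩, N', hN', hNv, -⟩ := hDc _ _ (hopen u) (hopen v)
    (fun y hy => hcase y hy)
    ⟨a, haD, u ∩ D, (hu.inter hD).mem_nhds ⟨hau, haD⟩, fun x hx => hx.1.1, inter_subset_right⟩
    ⟨b, hbD, v ∩ D, (hv.inter hD).mem_nhds ⟨hbv, hbD⟩, fun x hx => hx.1.1, inter_subset_right⟩
  have hxD : x ∈ D := hND (mem_of_mem_nhds hN)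
  obtain ⟨z, ⟨hzN, hzN'⟩, hzD, hzB⟩ := mem_closure_iff_nhds.1 (hdense hxD) _ (inter_mem hN hN')
  exact hdisj z hzD hzB (hNu ⟨hzN, hzB⟩) (hNv ⟨hzN', hzB⟩)

/-- a locally constant relation on a preconnected set is constant -/
theorem rel_const {T α : Type*} [TopologicalSpace T] {D : Set T} (hD : IsPreconnected D)
    {R : T → α → Prop} (hex : ∀ p ∈ D, ∃ a, R p a) (hu : ∀ p ∈ D, ∀ a b, R p a → R p b → a = b)
    (hloc : ∀ p ∈ D, ∀ a, R p a → ∃ U ∈ 𝓝 p, ∀ q ∈ U ∩ D, R q a) {p q : T} (hp : p ∈ D)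
    (hq : q ∈ D) {a b : α} (ha : R p a) (hb : R q b) : a = b := by
  by_contra hne
  let U : Set T := interior {x | x ∈ D → R x a}
  let V : Set T := interior {x | x ∈ D → ∃ c, c ≠ a ∧ R x c}
  have hcov : D ⊆ U ∪ V := by
    intro x hx
    obtain ⟨c, hc⟩ := hex x hx
    obtain ⟨N, hN, hNc⟩ := hloc x hx c hc
    by_cases hca : c = a
    · left
      rw [mem_interior_iff_mem_nhds]
      filter_upwards [hN] with z hz hzD
      rw [← hca]
      exact hNc z ⟨hz, hzD⟩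
    · right
      rw [mem_interior_iff_mem_nhds]
      filter_upwards [hN] with z hz hzD
      exact ⟨c, hca, hNc z ⟨hz, hzD⟩⟩
  have hpU : p ∈ U := by
    obtain ⟨N, hN, hNc⟩ := hloc p hp a ha
    rw [mem_interior_iff_mem_nhds]
    filter_upwards [hN] with z hz hzD using hNc z ⟨hz, hzD⟩
  have hqV : q ∈ V := by
    obtain ⟨N, hN, hNc⟩ := hloc q hq b hb
    rw [mem_interior_iff_mem_nhds]
    filter_upwards [hN] with z hz hzD using ⟨b, fun h => hne h.symm, hNc z ⟨hz, hzD⟩⟩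
  obtain ⟨x, hxD, hxU, hxV⟩ := hD U V isOpen_interior isOpen_interior hcov ⟨p, hp, hpU⟩ ⟨q, hq, hqV⟩
  obtain ⟨c, hca, hc⟩ := interior_subset hxV hxD
  exact hca (hu x hxD c a hc (interior_subset hxU hxD))

/-- the insertion of the hyperplane -/
def ins (p : Cm 3) : Cm 4 := ![0, p 0, p 1, p 2]

/-- the projection to the hyperplane -/
def til (w : Cm 4) : Cm 3 := ![w 1, w 2, w 3]

theorem ins_til {w : Cm 4} (h : w 0 = 0) : ins (til w) = w := by
  funext i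
  fin_cases i
  · exact h.symm
  · rfl
  · rfl
  · rfl

theorem til_ins (p : Cm 3) : til (ins p) = p := by
  funext i
  fin_cases i <;> rfl

theorem ins_an (p : Cm 3) : AnalyticAt ℂ ins p := by
  have hc : ∀ j : Fin 3, AnalyticAt ℂ (fun p : Cm 3 => p j) p := fun j =>
    (ContinuousLinearMap.proj (R := ℂ) (φ := fun _ : Fin 3 => ℂ) j).analyticAt p
  refine analyticAt_pi_iff.2 fun i => ?_
  fin_cases i
  · exact analyticAt_const
  · exact hc 0
  · exact hc 1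
  · exact hc 2

theorem til_an (w : Cm 4) : AnalyticAt ℂ til w := by
  refine analyticAt_pi_iff.2 fun i => ?_
  fin_cases i
  · exact an_coord 1 w
  · exact an_coord 2 w
  · exact an_coord 3 w

theorem ins_cont : Continuous ins := continuous_iff_continuousAt.2 fun p => (ins_an p).continuousAt

theorem til_cont : Continuous til := continuous_iff_continuousAt.2 fun p => (til_an p).continuousAt

theorem bet_cont (g : ℕ) : Continuous (bet g) :=
  continuous_iff_continuousAt.2 fun p => (bet_an p).continuousAt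

variable {Y : Type} [TopologicalSpace Y] [ChartedSpace (Cm 4) Y] {G V : Set Y}
  {Ψ Ψ' : Cm 4 → Y} {z₀ z₀' : Cm 4} {r r' : ℝ}

/-- change of parametrisations -/
theorem par_trans (h : T2.IsPar G Ψ z₀ r) (h' : T2.IsPar G Ψ' z₀' r')
    (heq : Ψ z₀ = Ψ' z₀') : ∃ Λ : Cm 4 → Cm 4, LocIso Λ z₀ ∧ Λ z₀ = z₀' ∧
      (∀ᶠ w in 𝓝 z₀, Ψ' (Λ w) = Ψ w) ∧ ∀ᶠ w in 𝓝 z₀, (Λ w 0 = 0 ↔ w 0 = 0) := by
  obtain ⟨Λ, C, h1, h2, h3, h4, h5⟩ := H615.exists_trans' h h' heq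
  obtain ⟨Λ', C', g1, g2, g3, g4, g5⟩ := H615.exists_trans' h' h heq.symm
  have ht : Tendsto Λ (𝓝 z₀) (𝓝 z₀') := by
    have := h1.continuousAt.tendsto
    rwa [h2] at this
  have ht' : Tendsto Λ' (𝓝 z₀') (𝓝 z₀) := by
    have := g1.continuousAt.tendsto
    rwa [g2] at this
  have hid : ∀ᶠ w in 𝓝 z₀, Λ' (Λ w) = w := by
    have hc : Tendsto (fun w => Λ' (Λ w)) (𝓝 z₀) (𝓝 z₀) := ht'.comp ht
    filter_upwards [h3, ht.eventually g3, isOpen_ball.mem_nhds (mem_ball_self h.pos),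
      hc.eventually (isOpen_ball.mem_nhds (mem_ball_self h.pos))] with w k1 k2 k3 k4
    exact h.inj k4 k3 (by rw [k2, k1])
  refine ⟨Λ, ⟨h1, fun hdet => ?_⟩, h2, h3, ?_⟩
  · have g1' : DifferentiableAt ℂ Λ' (Λ z₀) := by rw [h2]; exact g1.differentiableAt
    have k1 := det_comp' g1' h1.differentiableAt
    have k2 : (fun w => Λ' (Λ w)) =ᶠ[𝓝 z₀] id := hid
    rw [k2.fderiv_eq, fderiv_id, hdet, mul_zero, det_id] at k1
    exact one_ne_zero k1
  · filter_upwards [h5] with w hw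
    constructor
    · intro h0
      have := hw.2
      rw [h0, norm_zero, mul_zero] at this
      exact norm_le_zero_iff.1 this
    · intro h0
      have := hw.1
      rw [h0, norm_zero, mul_zero] at this
      exact norm_le_zero_iff.1 this

/-- values along germs of wedges -/
structure ValRel {α : Type*} (R : (Cm 4 → Y) → Cm 4 → α → Prop) : Prop where
  near : ∀ ξ w a, w 0 = 0 → R ξ w a → ∀ᶠ w' in 𝓝 w, w' 0 = 0 → R ξ w' a
  uniq : ∀ ξ w a b, w 0 = 0 → R ξ w a → R ξ w b → a = b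
  comp : ∀ (ξ ξ' : Cm 4 → Y) (χ : Cm 4 → Cm 4) w a, w 0 = 0 → R ξ (χ w) a → LocIso χ w →
    (∀ᶠ w' in 𝓝 w, (χ w' 0 = 0 ↔ w' 0 = 0)) → (∀ᶠ w' in 𝓝 w, ξ' w' = ξ (χ w')) → R ξ' w a

theorem _root_.Vale.Agent.P277.T3.IsAdp.at (h : IsAdp G V Ψ z₀ r) {z : Cm 4}
    (hz : z ∈ ball z₀ r) (h0 : z 0 = 0) (h1 : z 1 = 0) :
    ∃ r₁, ball z r₁ ⊆ ball z₀ r ∧ IsAdp G V Ψ z r₁ := by
  obtain ⟨r₁, hr₁, hs⟩ := Metric.isOpen_iff.1 isOpen_ball z hz
  exact ⟨r₁, hs, h.par.restrict h0 hr₁ hs, h1, fun w hw => h.mem1 w (hs hw)⟩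

theorem bet_zero {g : ℕ} (hg : 1 ≤ g) {w : Cm 4} (h0 : w 0 = 0) : bet g w 0 = 0 ∧ bet g w 1 = 0 := by
  refine ⟨?_, h0⟩
  show w 0 ^ g * w 1 = 0
  rw [h0, zero_pow (by omega), zero_mul]

section main

variable {α : Type*} {R : (Cm 4 → Y) → Cm 4 → α → Prop} {g : ℕ}

/-- the domain of the adapted wedge, in the hyperplane -/
def dom (g : ℕ) (z₀ : Cm 4) (r : ℝ) : Set (Cm 3) := {p | bet g (ins p) ∈ ball z₀ r}

theorem isOpen_dom : IsOpen (dom g z₀ r) :=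
  isOpen_ball.preimage ((bet_cont g).comp ins_cont)

theorem bet_ins (hg : 1 ≤ g) (p : Cm 3) : bet g (ins p) = ![0, 0, p 1, p 2] := by
  funext i
  fin_cases i
  · show (0 : ℂ) ^ g * p 0 = 0
    rw [zero_pow (by omega), zero_mul]
  · rfl
  · rfl
  · rfl

theorem dom_conn (hg : 1 ≤ g) : IsPreconnected (dom g z₀ r) := by
  have hc : Convex ℝ (dom g z₀ r) := by
    have h1 : dom g z₀ r = (fun p : Cm 3 => (![0, 0, p 1, p 2] : Cm 4)) ⁻¹' ball z₀ r := by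
      ext p
      show bet g (ins p) ∈ ball z₀ r ↔ _
      rw [bet_ins hg]
      rfl
    rw [h1]
    have h2 : IsLinearMap ℝ fun p : Cm 3 => (![0, 0, p 1, p 2] : Cm 4) := by
      constructor
      · intro p q
        funext i
        fin_cases i <;> simp
      · intro t p
        funext i
        fin_cases i <;> simp
    exact (convex_ball z₀ r).is_linear_preimage h2
  exact hc.isPreconnected

theorem chart_const (hR : ValRel R) (hg : 1 ≤ g)
    (hthin : Cv 2 {p | p ∈ dom g z₀ r ∧ ¬ ∃ a, R (fun w => Ψ (bet g w)) (ins p) a})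
    {w w' : Cm 4} (hw0 : w 0 = 0) (hw'0 : w' 0 = 0) (hw : bet g w ∈ ball z₀ r)
    (hw' : bet g w' ∈ ball z₀ r) {a a' : α} (ha : R (fun w => Ψ (bet g w)) w a)
    (ha' : R (fun w => Ψ (bet g w)) w' a') : a = a' := by
  obtain ⟨h1, -⟩ := cv_compl isOpen_dom (dom_conn (z₀ := z₀) (r := r) hg) hthin
  have key : ∀ p ∈ dom g z₀ r \ {p | p ∈ dom g z₀ r ∧ ¬ ∃ a, R (fun w => Ψ (bet g w)) (ins p) a},
      ∃ a, R (fun w => Ψ (bet g w)) (ins p) a := by
    rintro p ⟨hp, hp'⟩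
    by_contra hcon
    exact hp' ⟨hp, hcon⟩
  refine rel_const h1 (R := fun p a => R (fun w => Ψ (bet g w)) (ins p) a) key
    (fun p _ a b h1 h2 => hR.uniq _ _ a b rfl h1 h2) (fun p _ a h => ?_) (p := til w) (q := til w')
    ?_ ?_ ?_ ?_
  · have h2 := ins_cont.continuousAt.eventually (hR.near _ _ a rfl h)
    exact ⟨_, h2, fun q hq => hq.1 rfl⟩
  · refine ⟨?_, fun h => h.2 ⟨a, ?_⟩⟩
    · show bet g (ins (til w)) ∈ ball z₀ r
      rw [ins_til hw0]; exact hw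
    · rw [ins_til hw0]; exact ha
  · refine ⟨?_, fun h => h.2 ⟨a', ?_⟩⟩
    · show bet g (ins (til w')) ∈ ball z₀ r
      rw [ins_til hw'0]; exact hw'
    · rw [ins_til hw'0]; exact ha'
  · show R (fun w => Ψ (bet g w)) (ins (til w)) a
    rw [ins_til hw0]; exact ha
  · show R (fun w => Ψ (bet g w)) (ins (til w')) a'
    rw [ins_til hw'0]; exact ha'

end main

end Vale.Agent.P277.H29.FC
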