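import Vale.Agent.P277.H29.A5
import Vale.Agent.P277.H615.R.AdDef

/-!
# P277, T3: the adapted wedges (A4', A4'', A5, A5', A5'')
-/

set_option linter.unusedSectionVars false

open scoped Manifold ContDiff Topology
open Vale.Agent.P272.K Vale.Agent.P285.H281.FD Vale.Agent.P267.H175 Set Metric Filter
open Vale.Agent.P277.T3

noncomputable section

namespace Vale.Agent.P277.H29.FC

open Vale.Agent.P277.H615 Vale.Agent.P277.T2

/-- images of small open sets under a local isomorphism -/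
theorem locIso_nhds {φ : Cm 4 → Cm 4} {w : Cm 4} (h : LocIso φ w) {N : Set (Cm 4)}
    (hN : N ∈ 𝓝 w) : φ '' N ∈ 𝓝 (φ w) := by
  obtain ⟨θ, h1, h2, -, h4⟩ := exists_inv h
  have ht : Tendsto θ (𝓝 (φ w)) (𝓝 w) := by
    have := h1.1.continuousAt.tendsto
    rwa [h2] at this
  filter_upwards [ht hN, h4] with s hs hs'
  exact ⟨θ s, hs, hs'⟩

/-- a dense open set is met by small pieces of a local coordinate system -/
theorem par_dense {Y : Type} [TopologicalSpace Y] [ChartedSpace (Cm 4) Y] {G : Set Y}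
    {ξ : Cm 4 → Y} {c : Cm 4} {r : ℝ} (h : IsPar G ξ c r) {O : Set Y} (hd : Dense O)
    {z : Cm 4} (hz : z ∈ ball c r) {N : Set (Cm 4)} (hN : N ∈ 𝓝 z) : ∃ w ∈ N, ξ w ∈ O := by
  have h1 : IsOpen (ξ '' (interior N ∩ ball c r)) :=
    h.openMap _ inter_subset_right (isOpen_interior.inter isOpen_ball)
  have h2 : (ξ '' (interior N ∩ ball c r)).Nonempty :=
    ⟨ξ z, z, ⟨mem_interior_iff_mem_nhds.2 hN, hz⟩, rfl⟩
  obtain ⟨y, ⟨w, hw, rfl⟩, hy⟩ := hd.inter_open_nonempty _ h1 h2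
  exact ⟨w, interior_subset hw.1, hy⟩

theorem _root_.Vale.Agent.P277.H615.stWgPar : StWgPar := by
  intro Y _ _ _ _ G ξ c r h
  refine ⟨isOpen_ball, ⟨c, mem_ball_self h.pos, h.zero⟩, ?_, h.cont, fun w hw e he =>
    (h.an w hw e he).1, ?_⟩
  · have h1 : Convex ℝ {w : Cm 4 | w ∈ ball c r ∧ w 0 = 0} := by
      intro x hx y hy a b ha hb hab
      refine ⟨convex_ball c r hx.1 hy.1 ha hb hab, ?_⟩
      show a • x 0 + b • y 0 = 0
      rw [hx.2, hy.2, smul_zero, smul_zero, add_zero]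
    exact h1.isPreconnected
  · intro O hO hd w hw
    rw [mem_closure_iff_nhds]
    intro N hN
    obtain ⟨z, hz, hzO⟩ := par_dense h hd hw (inter_mem hN (isOpen_ball.mem_nhds hw))
    exact ⟨z, hz.1, hz.2, hzO⟩

theorem _root_.Vale.Agent.P277.H615.stWgAd : StWgAd := by
  intro Y _ _ _ _ G Ψ c r h h1 g hg
  refine ⟨isOpen_ball.preimage (bet_cont g), ⟨![0, 0, c 2, c 3], ?_, rfl⟩, ?_, ?_, ?_, ?_⟩
  · have : bet g (![0, 0, c 2, c 3] : Cm 4) = c := by
      funext i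
      fin_cases i
      · show (0 : ℂ) ^ g * 0 = c 0
        rw [h.zero, mul_zero]
      · exact h1.symm
      · rfl
      · rfl
    show bet g (![0, 0, c 2, c 3] : Cm 4) ∈ ball c r
    rw [this]
    exact mem_ball_self h.pos
  · have h2 : Convex ℝ {w : Cm 4 | w ∈ {w | bet g w ∈ ball c r} ∧ w 0 = 0} := by
      intro x hx y hy a b ha hb hab
      have h3 : a • x 0 + b • y 0 = 0 := by
        rw [hx.2, hy.2, smul_zero, smul_zero, add_zero]
      refine ⟨?_, h3⟩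
      have h4 : bet g (a • x + b • y) = a • bet g x + b • bet g y := by
        funext i
        fin_cases i
        · show (a • x 0 + b • y 0) ^ g * (a • x 1 + b • y 1) =
            a • (x 0 ^ g * x 1) + b • (y 0 ^ g * y 1)
          rw [h3, hx.2, hy.2, zero_pow (by omega)]
          simp
        · rfl
        · rfl
        · rfl
      show bet g (a • x + b • y) ∈ ball c r
      rw [h4]
      exact convex_ball c r hx.1 hy.1 ha hb hab
    exact h2.isPreconnected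
  · intro w hw
    exact (h.cont _ hw).comp (bet_an w).continuousAt
  · intro w hw e he
    have := (h.an _ hw e he).1
    exact this.comp (bet_an w)
  · intro O hO hd w hw
    rw [mem_closure_iff_nhds]
    intro N hN
    have hD : {w | bet g w ∈ ball c r} ∈ 𝓝 w := (isOpen_ball.preimage (bet_cont g)).mem_nhds hw
    obtain ⟨z, ⟨hz1, hz2⟩, hz0⟩ := freq_ne (w := w)
      ((eventually_mem_nhds_iff.2 hN).and (eventually_mem_nhds_iff.2 hD))
    have hz3 : z ∈ {w | bet g w ∈ ball c r} := mem_of_mem_nhds hz2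
    have hl : LocIso (bet g) z := by
      refine ⟨bet_an z, ?_⟩
      rw [det_bet]
      exact neg_ne_zero.2 (pow_ne_zero _ hz0)
    have h5 := locIso_nhds hl (inter_mem hz1 hz2)
    obtain ⟨s, ⟨t, ht, rfl⟩, hsO⟩ := par_dense h hd (z := bet g z) hz3 h5
    exact ⟨t, ht.1, ht.2, hsO⟩

theorem _root_.Vale.Agent.P277.H615.stParRel : StParRel := by
  intro Y _ _ _ _ G Ψ Ψ' c c' r r' h h' heq
  obtain ⟨Λ, h1, h2, h3, h4⟩ := par_trans h h' heq
  exact ⟨Λ, h1, h2, by filter_upwards [h3, h4] with z hz hz' using ⟨hz', hz⟩⟩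

theorem _root_.Vale.Agent.P277.H615.stAdRel : StAdRel := by
  intro Y _ _ _ _ E V Ψ Ψ' c c' r r' h h' heq g hg
  obtain ⟨Λ, h1, h2, h3, h4⟩ := par_trans h.par h'.par heq
  have hw : bet g (![0, 0, c 2, c 3] : Cm 4) = c := by
    funext i
    fin_cases i
    · show (0 : ℂ) ^ g * 0 = c 0
      rw [h.par.zero, mul_zero]
    · exact h.one.symm
    · rfl
    · rfl
  set w : Cm 4 := ![0, 0, c 2, c 3] with hwd
  have hb : ∀ᶠ z in 𝓝 c, z ∈ ball c r := isOpen_ball.mem_nhds (mem_ball_self h.par.pos)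
  have ht : Tendsto Λ (𝓝 c) (𝓝 c') := by
    have := h1.1.continuousAt.tendsto
    rwa [h2] at this
  have hb' : ∀ᶠ z in 𝓝 c, Λ z ∈ ball c' r' :=
    ht.eventually (isOpen_ball.mem_nhds (mem_ball_self h'.par.pos))
  have hV : ∀ᶠ z in 𝓝 c, z 0 = 0 → z 1 = 0 → Λ z 1 = 0 := by
    filter_upwards [hb, hb', h3] with z k1 k2 k3 k4 k5
    have := (h.mem z k1).2 ⟨k4, k5⟩
    rw [← k3] at this
    exact ((h'.mem _ k2).1 this).2
  -- the derivative of `Λ 1`
  obtain ⟨a, ha, haΛ⟩ := H19.exists_div (an_comp_coord h1.1 0) h.par.zero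
    (h4.mono fun z hz hz' => hz.2 hz')
  have hd0 : ∀ j, j ≠ 0 → pd j (fun z => Λ z 0) c = 0 := by
    intro j hj
    rw [pd_congr haΛ, pd_mul (an_coord 0 c).differentiableAt ha.differentiableAt, h.par.zero,
      pd_coord, if_neg hj.symm]
    ring
  have hd1 : ∀ j, j ≠ 0 → j ≠ 1 → pd j (fun z => Λ z 1) c = 0 := by
    intro j hj hj1
    have hA := (an_comp_coord h1.1 1).differentiableAt
    have hline : HasDerivAt (fun t : ℂ => c + t • (Pi.single j 1 : Cm 4)) (Pi.single j 1) 0 := by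
      have := ((hasDerivAt_id (0 : ℂ)).smul_const (Pi.single j 1 : Cm 4)).const_add c
      simpa using this
    have hc0 : c + (0 : ℂ) • (Pi.single j 1 : Cm 4) = c := by rw [zero_smul, add_zero]
    have hF : HasFDerivAt (fun z => Λ z 1) (fderiv ℂ (fun z => Λ z 1) c)
        (c + (0 : ℂ) • (Pi.single j 1 : Cm 4)) := by rw [hc0]; exact hA.hasFDerivAt
    have hcomp := hF.comp_hasDerivAt (0 : ℂ) hline
    have hconst : (fun t : ℂ => Λ (c + t • (Pi.single j 1 : Cm 4)) 1) =ᶠ[𝓝 0] fun _ => 0 := by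
      have htt : Tendsto (fun t : ℂ => c + t • (Pi.single j 1 : Cm 4)) (𝓝 0) (𝓝 c) := by
        have := hline.continuousAt.tendsto
        rwa [hc0] at this
      filter_upwards [htt.eventually hV] with t ht
      refine ht ?_ ?_
      · show c 0 + t * (Pi.single j 1 : Cm 4) 0 = 0
        rw [Pi.single_eq_of_ne hj.symm, mul_zero, add_zero, h.par.zero]
      · show c 1 + t * (Pi.single j 1 : Cm 4) 1 = 0
        rw [Pi.single_eq_of_ne hj1.symm, mul_zero, add_zero, h.one]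
    have hz : HasDerivAt (fun t : ℂ => Λ (c + t • (Pi.single j 1 : Cm 4)) 1) 0 0 :=
      (hasDerivAt_const (0 : ℂ) (0 : ℂ)).congr_of_eventuallyEq hconst
    exact hcomp.unique hz
  have hp1 : pd 1 (fun z => Λ z 1) c ≠ 0 := by
    intro hcon
    apply h1.2
    rw [det_eq_Jm]
    have hr0 : ∀ j, j ≠ 0 → Jm Λ c 0 j = 0 := fun j hj => by
      rw [Jm_apply h1.1.differentiableAt]; exact hd0 j hj
    have hr1 : ∀ j, j ≠ 0 → Jm Λ c 1 j = 0 := fun j hj => by
      rw [Jm_apply h1.1.differentiableAt]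
      by_cases hj1 : j = 1
      · rw [hj1]; exact hcon
      · exact hd1 j hj hj1
    -- rows `0` and `1` are proportional to `e₀`
    by_cases h00 : Jm Λ c 0 0 = 0
    · refine Matrix.det_eq_zero_of_row_eq_zero 0 fun j => ?_
      by_cases hj : j = 0
      · rw [hj]; exact h00
      · exact hr0 j hj
    · have key := Matrix.det_updateRow_add_smul_self (Jm Λ c) (i := 1) (j := 0) (by decide)
        (-(Jm Λ c 1 0 / Jm Λ c 0 0))
      rw [← key]
      refine Matrix.det_eq_zero_of_row_eq_zero 1 fun j => ?_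
      rw [Matrix.updateRow_self]
      show Jm Λ c 1 j + -(Jm Λ c 1 0 / Jm Λ c 0 0) * Jm Λ c 0 j = 0
      by_cases hj : j = 0
      · rw [hj]
        field_simp
        ring
      · rw [hr0 j hj, hr1 j hj]
        ring
  obtain ⟨χ, g1, g2, g3⟩ := bet_lift (Λ := Λ) hg (w₂ := w) rfl (by rw [hw]; exact h1)
    (by rw [hw]; exact h4) (by rw [hw]; exact hV) (by
      rw [hw]
      have : w 1 = 0 := rfl
      rw [this]
      simpa using hp1)
  have hχ : bet g (χ w) = c' := by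
    rw [← g3.self_of_nhds, hw, h2]
  refine ⟨w, χ w, rfl, ?_, ?_, χ, g1, rfl, ?_⟩
  · rw [hw]; exact mem_ball_self h.par.pos
  · rw [hχ]; exact mem_ball_self h'.par.pos
  · have hbt : Tendsto (bet g) (𝓝 w) (𝓝 c) := by
      have := (bet_an (g := g) w).continuousAt.tendsto
      rwa [hw] at this
    filter_upwards [g2, g3, hbt.eventually h3] with z k1 k2 k3
    refine ⟨k1, ?_⟩
    show Ψ' (bet g (χ z)) = Ψ (bet g z)
    rw [← k2, k3]

/-- a wedge restricted to a smaller domain is related to itself -/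
theorem wgRel_self {Y : Type} [TopologicalSpace Y] {γ : Cm 4 → Y} {w : Cm 4} :
    WgRel γ γ w w := by
  refine ⟨id, ⟨analyticAt_id, ?_⟩, rfl, Eventually.of_forall fun z => ⟨Iff.rfl, rfl⟩⟩
  rw [fderiv_id, det_id]
  exact one_ne_zero

theorem bet_pt {g : ℕ} {z : Cm 4} (h0 : z 0 = 0) (h1 : z 1 = 0) :
    bet g (![0, 0, z 2, z 3] : Cm 4) = z := by
  funext i
  fin_cases i
  · show (0 : ℂ) ^ g * 0 = z 0
    rw [h0, mul_zero]
  · exact h1.symm
  · rfl
  · rfl

theorem isAd_at {Y : Type} [TopologicalSpace Y] [ChartedSpace (Cm 4) Y] {E V : Set Y}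
    {Ψ : Cm 4 → Y} {c : Cm 4} {r : ℝ} (h : IsAd E V Ψ c r) {z : Cm 4}
    (hz : z ∈ ball c r) (h0 : z 0 = 0) (h1 : z 1 = 0) :
    ∃ r₁, ball z r₁ ⊆ ball c r ∧ IsAd E V Ψ z r₁ := by
  obtain ⟨r₁, hr₁, hs⟩ := Metric.isOpen_iff.1 isOpen_ball z hz
  exact ⟨r₁, hs, h.par.restrict h0 hr₁ hs, h1, fun w hw => h.mem w (hs hw)⟩

theorem _root_.Vale.Agent.P277.H615.stConst' : StConst' := by
  intro Y _ _ _ _ α a ha
  constructor
  · intro E V hE hV g hg Ψ Ψ' c c' r r' h h'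
    refine rel_const hV (R := fun y x => ∃ Φ d s, IsAd E V Φ d s ∧ Φ d = y ∧
      a (fun w => Φ (bet g w)) {w | bet g w ∈ ball d s} = x) (fun y hy => ?_)
      (fun y _ x x' h1 h2 => ?_) (fun y _ x h1 => ?_) (p := Ψ c) (q := Ψ' c') ?_ ?_
      ⟨Ψ, c, r, h, rfl, rfl⟩ ⟨Ψ', c', r', h', rfl, rfl⟩
    · obtain ⟨Φ, d, s, h1, h2⟩ := hE y hy
      exact ⟨_, Φ, d, s, h1, h2, rfl⟩
    · obtain ⟨Φ, d, s, g1, g2, rfl⟩ := h1
      obtain ⟨Φ', d', s', g1', g2', rfl⟩ := h2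
      obtain ⟨w, w', k1, k2, k3, k4⟩ := stAdRel Y E V Φ Φ' d d' s s' g1 g1' (g2.trans g2'.symm) g hg
      refine ha _ _ _ _ w w' (stWgAd Y E Φ d s g1.par g1.one g hg)
        (stWgAd Y E Φ' d' s' g1'.par g1'.one g hg) k2 k1 k3 ?_ k4
      obtain ⟨χ, -, e1, e2⟩ := k4
      rw [← e1]
      exact e2.self_of_nhds.1.2 k1
    · obtain ⟨Φ, d, s, g1, g2, rfl⟩ := h1
      refine ⟨Φ '' ball d s, ?_, ?_⟩
      · rw [← g2]
        exact (g1.par.openMap _ Subset.rfl isOpen_ball).mem_nhds ⟨d, mem_ball_self g1.par.pos, rfl⟩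
      · rintro _ ⟨⟨z, hz, rfl⟩, hzV⟩
        obtain ⟨h0, h1⟩ := (g1.mem z hz).1 hzV
        obtain ⟨s₁, hs₁, g4⟩ := isAd_at g1 hz h0 h1
        have hb : bet g (![0, 0, z 2, z 3] : Cm 4) ∈ ball z s₁ := by
          rw [bet_pt h0 h1]; exact mem_ball_self g4.par.pos
        exact ⟨Φ, z, s₁, g4, rfl, ha _ _ _ _ ![0, 0, z 2, z 3] ![0, 0, z 2, z 3]
          (stWgAd Y E Φ z s₁ g4.par g4.one g hg) (stWgAd Y E Φ d s g1.par g1.one g hg) hb rfl
          (hs₁ hb) rfl wgRel_self⟩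
    · exact (h.mem c (mem_ball_self h.par.pos)).2 ⟨h.par.zero, h.one⟩
    · exact (h'.mem c' (mem_ball_self h'.par.pos)).2 ⟨h'.par.zero, h'.one⟩
  · intro G hG hGc Ψ Ψ' c c' r r' h h'
    refine rel_const hGc (R := fun y x => ∃ Φ d s, IsPar G Φ d s ∧ Φ d = y ∧
      a Φ (ball d s) = x) (fun y hy => ?_)
      (fun y _ x x' h1 h2 => ?_) (fun y _ x h1 => ?_) (p := Ψ c) (q := Ψ' c') ?_ ?_
      ⟨Ψ, c, r, h, rfl, rfl⟩ ⟨Ψ', c', r', h', rfl, rfl⟩
    · obtain ⟨Φ, d, s, h1, h2⟩ := hG y hy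
      exact ⟨_, Φ, d, s, h1, h2, rfl⟩
    · obtain ⟨Φ, d, s, g1, g2, rfl⟩ := h1
      obtain ⟨Φ', d', s', g1', g2', rfl⟩ := h2
      exact ha _ _ _ _ d d' (stWgPar Y G Φ d s g1) (stWgPar Y G Φ' d' s' g1')
        (mem_ball_self g1.pos) g1.zero (mem_ball_self g1'.pos) g1'.zero
        (stParRel Y G Φ Φ' d d' s s' g1 g1' (g2.trans g2'.symm))
    · obtain ⟨Φ, d, s, g1, g2, rfl⟩ := h1
      refine ⟨Φ '' ball d s, ?_, ?_⟩
      · rw [← g2]
        exact (g1.openMap _ Subset.rfl isOpen_ball).mem_nhds ⟨d, mem_ball_self g1.pos, rfl⟩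
      · rintro _ ⟨⟨z, hz, rfl⟩, hzV⟩
        have h0 := (g1.mem z hz).1 hzV
        obtain ⟨s₁, hr₁, hs⟩ := Metric.isOpen_iff.1 isOpen_ball z hz
        have g4 := g1.restrict h0 hr₁ hs
        exact ⟨Φ, z, s₁, g4, rfl, ha _ _ _ _ z z (stWgPar Y G Φ z s₁ g4) (stWgPar Y G Φ d s g1)
          (mem_ball_self g4.pos) h0 hz h0 wgRel_self⟩
    · exact (h.mem c (mem_ball_self h.pos)).2 h.zero
    · exact (h'.mem c' (mem_ball_self h'.pos)).2 h'.zero

end Vale.Agent.P277.H29.FC
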