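import Mathlib.LinearAlgebra.Matrix.Adjugate
import Mathlib.LinearAlgebra.Matrix.Determinant.Basic
import Mathlib.Data.Finset.Max
import Mathlib.Algebra.Algebra.Basic
import Mathlib.Order.Preorder.Finite

/-!
# P277, TX-ALG: freeness in codimension two (pure algebra)

`R` is a ring with a chain of restrictions `R → R₁ → R₂` with kernels `(x)` and `(x, y)`, `M` a finite
`R`-algebra on which `x, y` is a regular sequence. Then `M` is free over `R` after inverting one
element outside of `(x, y)`.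
-/

open Finset

namespace Vale.Agent.P277.H29

variable {R R₁ R₂ M : Type*} [CommRing R] [CommRing R₁] [CommRing R₂] [CommRing M] [Algebra R M]

/-- the family `1, g_j (j ∈ T)` -/
def fam {n : ℕ} (g : Fin n → M) (T : Finset (Fin n)) : Option T → M
  | none => 1
  | some j => g j

/-- the data -/
structure AlgData (π₁ : R →+* R₁) (π₂ : R₁ →+* R₂) (x y : R) (ρ : M →+* R₂) {n : ℕ}
    (g : Fin n → M) : Prop where
  ker₁ : ∀ r, π₁ r = 0 ↔ ∃ s, r = x * s
  ker₂ : ∀ r, π₂ (π₁ r) = 0 ↔ ∃ s t, r = x * s + y * t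
  ordx : ∀ r, r ≠ 0 → ∃ (k : ℕ) (r' : R), r = x ^ k * r' ∧ π₁ r' ≠ 0
  ordy : ∀ r, π₁ r ≠ 0 → ∃ (k : ℕ) (r' s : R), r = y ^ k * r' + x * s ∧ π₂ (π₁ r') ≠ 0
  gen : ∀ m : M, ∃ (r₀ : R) (r : Fin n → R), m = algebraMap R M r₀ + ∑ j, r j • g j
  res : ∀ r, ρ (algebraMap R M r) = π₂ (π₁ r)
  nzd : ∀ m : M, x • m = 0 → m = 0
  reg : ∀ a b : M, y • a = x • b → ∃ a', a = x • a'

/-- the submodule `qM` -/
def qM (M : Type*) [CommRing M] [Algebra R M] (x y : R) : Set M := {m | ∃ a b : M, m = x • a + y • b}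

/-- independence modulo `q` -/
def AInd (π₁ : R →+* R₁) (π₂ : R₁ →+* R₂) (x y : R) {n : ℕ} (g : Fin n → M) (T : Finset (Fin n)) :
    Prop :=
  ∀ r : Option T → R, ∑ o, r o • fam g T o ∈ qM M x y → ∀ o, π₂ (π₁ (r o)) = 0

variable {π₁ : R →+* R₁} {π₂ : R₁ →+* R₂} {x y : R} {ρ : M →+* R₂} {n : ℕ} {g : Fin n → M}

theorem qM_add {a b : M} (ha : a ∈ qM M x y) (hb : b ∈ qM M x y) : a + b ∈ qM M x y := by
  obtain ⟨a1, a2, rfl⟩ := ha
  obtain ⟨b1, b2, rfl⟩ := hb
  exact ⟨a1 + b1, a2 + b2, by simp only [smul_add]; abel⟩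

theorem qM_smul {a : M} (r : R) (ha : a ∈ qM M x y) : r • a ∈ qM M x y := by
  obtain ⟨a1, a2, rfl⟩ := ha
  exact ⟨r • a1, r • a2, by rw [smul_add, smul_comm r x, smul_comm r y]⟩

theorem qM_zero : (0 : M) ∈ qM M x y := ⟨0, 0, by simp⟩

theorem qM_sum {ι : Type*} (s : Finset ι) {a : ι → M} (ha : ∀ i ∈ s, a i ∈ qM M x y) :
    ∑ i ∈ s, a i ∈ qM M x y := by
  classical
  induction s using Finset.induction_on with
  | empty => simpa using qM_zero
  | insert i s hi ih =>
    rw [Finset.sum_insert hi]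
    exact qM_add (ha i (mem_insert_self _ _)) (ih fun j hj => ha j (mem_insert_of_mem hj))

theorem ind_empty (h : AlgData π₁ π₂ x y ρ g) : AInd π₁ π₂ x y g (∅ : Finset (Fin n)) := by
  intro r hr o
  rcases o with _ | ⟨j, hj⟩
  · have h1 : ∑ o, r o • fam g (∅ : Finset (Fin n)) o = algebraMap R M (r none) := by
      rw [Fintype.sum_option]
      simp [fam, Algebra.smul_def]
    rw [h1] at hr
    obtain ⟨a, b, hab⟩ := hr
    have h2 := congrArg ρ hab
    have hx : π₂ (π₁ x) = 0 := (h.ker₂ x).2 ⟨1, 0, by ring⟩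
    have hy : π₂ (π₁ y) = 0 := (h.ker₂ y).2 ⟨0, 1, by ring⟩
    rw [h.res, map_add, Algebra.smul_def, Algebra.smul_def, map_mul, map_mul, h.res, h.res, hx, hy,
      zero_mul, zero_mul, add_zero] at h2
    exact h2
  · exact absurd hj (notMem_empty j)

theorem exists_maximal (h : AlgData π₁ π₂ x y ρ g) : ∃ T : Finset (Fin n), AInd π₁ π₂ x y g T ∧
    ∀ T' : Finset (Fin n), T ⊆ T' → AInd π₁ π₂ x y g T' → T' = T := by
  classical
  obtain ⟨T, hT, hmax⟩ := (Set.toFinite {T : Finset (Fin n) | AInd π₁ π₂ x y g T}).exists_maximalFor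
    id _ ⟨∅, ind_empty h⟩
  exact ⟨T, hT, fun T' h1 h2 => le_antisymm (hmax h2 h1) h1⟩

/-- every generator is dependent on a maximal family -/
theorem exists_rel [IsDomain R₂] (h : AlgData π₁ π₂ x y ρ g) {T : Finset (Fin n)}
    (hT : AInd π₁ π₂ x y g T)
    (hmax : ∀ T' : Finset (Fin n), T ⊆ T' → AInd π₁ π₂ x y g T' → T' = T) (j : Fin n) :
    ∃ (s : R) (r : Option T → R), π₂ (π₁ s) ≠ 0 ∧ s • g j - ∑ o, r o • fam g T o ∈ qM M x y := by
  classical
  by_cases hj : j ∈ T
  · refine ⟨1, Pi.single (some ⟨j, hj⟩) 1, by simp, ?_⟩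
    have h1 : ∑ o, (Pi.single (some ⟨j, hj⟩) (1 : R) : Option T → R) o • fam g T o = g j := by
      rw [Finset.sum_eq_single (some ⟨j, hj⟩)]
      · simp [fam]
      · intro o _ ho
        simp [ho]
      · simp
    rw [h1, one_smul, sub_self]
    exact qM_zero
  · have h1 : ¬ AInd π₁ π₂ x y g (insert j T) := fun hI => hj (by
      have := hmax _ (subset_insert j T) hI
      rw [← this]; exact mem_insert_self j T)
    unfold AInd at h1
    push Not at h1
    obtain ⟨r, hr, o₀, ho₀⟩ := h1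
    -- restrict the relation
    let inc : T → (insert j T : Finset (Fin n)) := fun i => ⟨i, mem_insert_of_mem i.2⟩
    let r' : Option T → R := fun o => r (o.map inc)
    let s : R := r (some ⟨j, mem_insert_self j T⟩)
    have hsum : ∑ o, r o • fam g (insert j T) o = ∑ o, r' o • fam g T o + s • g j := by
      rw [Fintype.sum_option, Fintype.sum_option]
      have h2 : ∑ i : (insert j T : Finset (Fin n)), r (some i) • fam g (insert j T) (some i) =
          s • g j + ∑ i : T, r' (some i) • fam g T (some i) := by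
        have e1 : ∑ i : (insert j T : Finset (Fin n)), r (some i) • fam g (insert j T) (some i) =
            ∑ i ∈ (insert j T).attach, r (some i) • fam g (insert j T) (some i) := rfl
        have e2 : ∑ i : T, r' (some i) • fam g T (some i) =
            ∑ i ∈ T.attach, r' (some i) • fam g T (some i) := rfl
        rw [e1, e2, Finset.attach_insert, Finset.sum_insert]
        · congr 1
          rw [Finset.sum_image]
          · rfl
          · intro a _ b _ hab
            have := congrArg Subtype.val hab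
            exact Subtype.ext this
        · intro hmem
          obtain ⟨i, -, hi⟩ := Finset.mem_image.1 hmem
          have h7 : (i : Fin n) = j := congrArg Subtype.val hi
          exact hj (h7 ▸ i.2)
      rw [h2]
      show r none • (1 : M) + _ = r none • (1 : M) + _ + _
      abel
    have hs : π₂ (π₁ s) ≠ 0 := by
      intro hs0
      -- then the relation is a relation for `T`
      have h3 : ∑ o, r' o • fam g T o ∈ qM M x y := by
        have h4 : ∑ o, r' o • fam g T o = ∑ o, r o • fam g (insert j T) o + (-1 : R) • (s • g j) := by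
          rw [hsum]; simp
        rw [h4]
        refine qM_add hr (qM_smul _ ?_)
        obtain ⟨a, b, hab⟩ := (h.ker₂ s).1 hs0
        exact ⟨a • g j, b • g j, by rw [hab, add_smul, mul_smul, mul_smul]⟩
      have h5 := hT r' h3
      rcases o₀ with _ | ⟨i, hi⟩
      · exact ho₀ (h5 none)
      · rcases mem_insert.1 hi with rfl | hi'
        · exact ho₀ hs0
        · exact ho₀ (h5 (some ⟨i, hi'⟩))
    refine ⟨s, fun o => -r' o, hs, ?_⟩
    have h6 : s • g j - ∑ o, (-r' o) • fam g T o = ∑ o, r o • fam g (insert j T) o := by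
      rw [hsum]
      simp only [neg_smul, sum_neg_distrib, sub_neg_eq_add]
      abel
    rw [h6]
    exact hr

/-- **Nakayama.** -/
theorem exists_clear [IsDomain R₂] (h : AlgData π₁ π₂ x y ρ g) {T : Finset (Fin n)}
    (hT : AInd π₁ π₂ x y g T)
    (hmax : ∀ T' : Finset (Fin n), T ⊆ T' → AInd π₁ π₂ x y g T' → T' = T) :
    ∃ c : R, π₂ (π₁ c) ≠ 0 ∧ ∀ m : M, ∃ r : Option T → R, c • m = ∑ o, r o • fam g T o := by
  classical
  choose s r hs hr using exists_rel h hT hmax
  -- write the elements of `qM` by the generators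
  have hq : ∀ m ∈ qM M x y, ∃ (r₀ : R) (q : Fin n → R), (∀ l, π₂ (π₁ (q l)) = 0) ∧
      m = r₀ • (1 : M) + ∑ l, q l • g l := by
    rintro m ⟨a, b, rfl⟩
    obtain ⟨ra, qa, ha⟩ := h.gen a
    obtain ⟨rb, qb, hb⟩ := h.gen b
    refine ⟨x * ra + y * rb, fun l => x * qa l + y * qb l, fun l => (h.ker₂ _).2 ⟨_, _, rfl⟩, ?_⟩
    rw [ha, hb]
    simp only [smul_add, Finset.smul_sum, add_smul, mul_smul, Finset.sum_add_distrib,
      Algebra.algebraMap_eq_smul_one]
    abel
  choose r₀ q hq0 hqm using fun j => hq _ (hr j)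
  set S : R := ∏ j, s j
  have hS : π₂ (π₁ S) ≠ 0 := by
    rw [map_prod, map_prod]
    exact Finset.prod_ne_zero_iff.2 fun j _ => hs j
  set S' : Fin n → R := fun j => ∏ i ∈ univ.erase j, s i
  have hSS : ∀ j, S' j * s j = S := fun j => by
    rw [mul_comm]; exact Finset.mul_prod_erase univ s (mem_univ j)
  let Q : Matrix (Fin n) (Fin n) R := fun j l => S' j * q j l
  let B : Matrix (Fin n) (Fin n) R := Matrix.scalar (Fin n) S - Q
  let F : Set M := {m | ∃ r : Option T → R, m = ∑ o, r o • fam g T o}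
  have hF0 : ∀ c : R, c • (1 : M) ∈ F := fun c => ⟨Pi.single none c, by
    rw [Finset.sum_eq_single none]
    · simp [fam]
    · intro o _ ho
      simp [ho]
    · simp⟩
  have hFadd : ∀ a ∈ F, ∀ b ∈ F, a + b ∈ F := by
    rintro _ ⟨ra, rfl⟩ _ ⟨rb, rfl⟩
    exact ⟨ra + rb, by simp [add_smul, Finset.sum_add_distrib]⟩
  have hFsmul : ∀ (c : R), ∀ a ∈ F, c • a ∈ F := by
    rintro c _ ⟨ra, rfl⟩
    exact ⟨c • ra, by simp [Finset.smul_sum, mul_smul]⟩
  have hFsum : ∀ (a : Fin n → M), (∀ j, a j ∈ F) → ∑ j, a j ∈ F := by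
    intro a ha
    have h0 : (0 : M) ∈ F := by simpa using hF0 0
    exact Finset.sum_induction a (· ∈ F) (fun a b ha hb => hFadd a ha b hb) h0 fun j _ => ha j
  have hB : ∀ j, ∑ l, B j l • g l ∈ F := by
    intro j
    have h1 : ∑ l, B j l • g l = S • g j - ∑ l, (S' j * q j l) • g l := by
      have e1 : ∀ l, B j l • g l = (Matrix.scalar (Fin n) S) j l • g l - (S' j * q j l) • g l :=
        fun l => sub_smul _ _ _
      simp only [e1, Finset.sum_sub_distrib]
      congr 1
      rw [Finset.sum_eq_single j]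
      · simp
      · intro l _ hl
        rw [Matrix.scalar_apply, Matrix.diagonal_apply_ne _ (Ne.symm hl), zero_smul]
      · simp
    have h2 : S • g j - ∑ l, (S' j * q j l) • g l =
        S' j • (∑ o, r j o • fam g T o + r₀ j • (1 : M)) := by
      have h3 := hqm j
      have h4 : s j • g j = ∑ o, r j o • fam g T o + (r₀ j • (1 : M) + ∑ l, q j l • g l) := by
        rw [← h3]; abel
      rw [← hSS j, mul_smul, h4]
      simp only [smul_add, Finset.smul_sum, mul_smul]
      abel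
    rw [h1, h2]
    exact hFsmul _ _ (hFadd _ ⟨r j, rfl⟩ _ (hF0 _))
  have hdet : ∀ j, B.det • g j ∈ F := by
    intro j
    have h1 : B.det • g j = ∑ i, B.adjugate j i • ∑ l, B i l • g l := by
      simp only [Finset.smul_sum, smul_smul]
      rw [Finset.sum_comm]
      simp only [← Finset.sum_smul]
      have h2 : ∀ l, ∑ i, B.adjugate j i * B i l = (B.adjugate * B) j l := fun l => rfl
      simp only [h2, Matrix.adjugate_mul, Matrix.smul_apply, Matrix.one_apply, smul_eq_mul]
      rw [Finset.sum_eq_single j]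
      · simp
      · intro l _ hl
        simp [Ne.symm hl]
      · simp
    rw [h1]
    exact hFsum _ fun i => hFsmul _ _ (hB i)
  refine ⟨B.det, ?_, fun m => ?_⟩
  · have h1 : π₂ (π₁ B.det) = (π₂ (π₁ S)) ^ n := by
      rw [← RingHom.comp_apply, RingHom.map_det]
      have h2 : ((π₂.comp π₁).mapMatrix B) = Matrix.scalar (Fin n) (π₂ (π₁ S)) := by
        ext i l
        have e0 : B i l = (Matrix.scalar (Fin n) S) i l - S' i * q i l := rfl
        rw [RingHom.mapMatrix_apply, Matrix.map_apply, e0, RingHom.comp_apply, map_sub, map_sub,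
          map_mul, map_mul, hq0, mul_zero, sub_zero]
        by_cases hil : i = l
        · subst hil; simp
        · rw [Matrix.scalar_apply, Matrix.diagonal_apply_ne _ hil, Matrix.scalar_apply,
            Matrix.diagonal_apply_ne _ hil, map_zero, map_zero]
      rw [h2]
      simp [Matrix.scalar_apply, Matrix.det_diagonal]
    rw [h1]
    exact pow_ne_zero _ hS
  · obtain ⟨m₀, mr, hm⟩ := h.gen m
    have h1 : B.det • m ∈ F := by
      rw [hm, smul_add, Finset.smul_sum]
      refine hFadd _ ?_ _ (hFsum _ fun j => ?_)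
      · rw [Algebra.smul_def, ← map_mul, ← mul_one (algebraMap R M (B.det * m₀)), ← Algebra.smul_def]
        exact hF0 _
      · rw [smul_comm]
        exact hFsmul _ _ (hdet j)
    exact h1

/-- independence modulo `x` -/
theorem ind_mod_x (h : AlgData π₁ π₂ x y ρ g) {T : Finset (Fin n)}
    (hT : AInd π₁ π₂ x y g T) (r : Option T → R) (hr : ∃ a : M, ∑ o, r o • fam g T o = x • a) (o : Option T) :
    π₁ (r o) = 0 := by
  classical
  by_contra hcon
  have key : ∀ o, ∃ (k : ℕ) (r' s : R), π₁ (r o) ≠ 0 → r o = y ^ k * r' + x * s ∧ π₂ (π₁ r') ≠ 0 := by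
    intro o
    by_cases h1 : π₁ (r o) = 0
    · exact ⟨0, 0, 0, fun h2 => absurd h1 h2⟩
    · obtain ⟨k, r', s, h2⟩ := h.ordy _ h1
      exact ⟨k, r', s, fun _ => h2⟩
  choose k r' s hk using key
  have hne : (univ.filter fun o => π₁ (r o) ≠ 0).Nonempty := ⟨o, by simpa using hcon⟩
  obtain ⟨o₁, ho₁, hmin⟩ := Finset.exists_min_image _ k hne
  have ho₁' : π₁ (r o₁) ≠ 0 := (mem_filter.1 ho₁).2
  -- divide by `y ^ k o₁`
  have hdiv : ∀ j, ∃ r'' s'' : R, r j = y ^ k o₁ * r'' + x * s'' ∧ (j = o₁ → π₂ (π₁ r'') ≠ 0) := by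
    intro j
    by_cases h1 : π₁ (r j) = 0
    · obtain ⟨t, ht⟩ := (h.ker₁ _).1 h1
      exact ⟨0, t, by rw [ht]; ring, fun hj => absurd (hj ▸ h1) ho₁'⟩
    · have h2 := hk j h1
      have h3 : k o₁ ≤ k j := hmin j (mem_filter.2 ⟨mem_univ _, h1⟩)
      refine ⟨y ^ (k j - k o₁) * r' j, s j, ?_, ?_⟩
      · rw [← mul_assoc, ← pow_add, Nat.add_sub_cancel' h3]
        exact h2.1
      · rintro rfl
        simpa using h2.2
  choose r'' s'' hr'' hr1 using hdiv
  obtain ⟨a, ha⟩ := hr
  have h1 : y ^ k o₁ • ∑ o, r'' o • fam g T o = x • (a - ∑ o, s'' o • fam g T o) := by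
    rw [smul_sub, ← ha]
    simp only [Finset.smul_sum, smul_smul, ← Finset.sum_sub_distrib, ← sub_smul]
    refine Finset.sum_congr rfl fun o _ => ?_
    congr 1
    rw [hr'' o]
    ring
  have h2 : ∀ (m : ℕ) (b c : M), y ^ m • b = x • c → ∃ b', b = x • b' := by
    intro m
    induction m with
    | zero => intro b c hbc; exact ⟨c, by simpa using hbc⟩
    | succ m ih =>
      intro b c hbc
      rw [pow_succ', mul_smul] at hbc
      obtain ⟨b', hb'⟩ := h.reg _ _ hbc
      exact ih b b' hb'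
  obtain ⟨b', hb'⟩ := h2 _ _ _ h1
  have h3 := hT r'' ⟨b', 0, by rw [hb']; simp⟩ o₁
  exact hr1 o₁ rfl h3

/-- **Freeness.** -/
theorem linInd (h : AlgData π₁ π₂ x y ρ g) {T : Finset (Fin n)}
    (hT : AInd π₁ π₂ x y g T) (r : Option T → R) (hr : ∑ o, r o • fam g T o = 0) (o : Option T) :
    r o = 0 := by
  classical
  by_contra hcon
  have key : ∀ o, ∃ (k : ℕ) (r' : R), r o ≠ 0 → r o = x ^ k * r' ∧ π₁ r' ≠ 0 := by
    intro o
    by_cases h1 : r o = 0
    · exact ⟨0, 0, fun h2 => absurd h1 h2⟩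
    · obtain ⟨k, r', h2⟩ := h.ordx _ h1
      exact ⟨k, r', fun _ => h2⟩
  choose k r' hk using key
  have hne : (univ.filter fun o => r o ≠ 0).Nonempty := ⟨o, by simpa using hcon⟩
  obtain ⟨o₁, ho₁, hmin⟩ := Finset.exists_min_image _ k hne
  have ho₁' : r o₁ ≠ 0 := (mem_filter.1 ho₁).2
  have hdiv : ∀ j, ∃ r'' : R, r j = x ^ k o₁ * r'' ∧ (j = o₁ → π₁ r'' ≠ 0) := by
    intro j
    by_cases h1 : r j = 0
    · exact ⟨0, by rw [h1]; ring, fun hj => absurd (hj ▸ h1) ho₁'⟩
    · have h2 := hk j h1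
      have h3 : k o₁ ≤ k j := hmin j (mem_filter.2 ⟨mem_univ _, h1⟩)
      refine ⟨x ^ (k j - k o₁) * r' j, ?_, ?_⟩
      · rw [← mul_assoc, ← pow_add, Nat.add_sub_cancel' h3]
        exact h2.1
      · rintro rfl
        simpa using h2.2
  choose r'' hr'' hr1 using hdiv
  have h1 : x ^ k o₁ • ∑ o, r'' o • fam g T o = 0 := by
    rw [← hr]
    simp only [Finset.smul_sum, smul_smul]
    exact Finset.sum_congr rfl fun o _ => by rw [hr'' o]
  have h2 : ∀ (m : ℕ) (b : M), x ^ m • b = 0 → b = 0 := by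
    intro m
    induction m with
    | zero => intro b hb; simpa using hb
    | succ m ih =>
      intro b hb
      rw [pow_succ', mul_smul] at hb
      exact ih b (h.nzd _ hb)
  have h3 := ind_mod_x h hT r'' ⟨0, by rw [h2 _ _ h1]; simp⟩ o₁
  exact hr1 o₁ rfl h3

/-- **Freeness in codimension two.** -/
theorem exists_basis [IsDomain R₂] (h : AlgData π₁ π₂ x y ρ g) :
    ∃ (T : Finset (Fin n)) (c : R), π₂ (π₁ c) ≠ 0 ∧
      (∀ m : M, ∃ r : Option T → R, c • m = ∑ o, r o • fam g T o) ∧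
      ∀ r : Option T → R, ∑ o, r o • fam g T o = 0 → ∀ o, r o = 0 := by
  obtain ⟨T, hT, hmax⟩ := exists_maximal h
  obtain ⟨c, hc, hm⟩ := exists_clear h hT hmax
  exact ⟨T, c, hc, hm, linInd h hT⟩

end Vale.Agent.P277.H29
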