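import Vale.Agent.P298.H941.Div
import Vale.Agent.P298.H941.One
import Vale.Agent.P272.K.Stmt

/-!
# P277, TX-ALG: germs of holomorphic functions on `ℂ^(k+1)`, restriction to `{z 0 = 0}`
-/

open Filter Topology Metric Set
open Vale.Agent.P298.H941 Vale.Agent.P272.K

noncomputable section

namespace Vale.Agent.P277.H29

section domain

variable {E : Type*} [NormedAddCommGroup E] [NormedSpace ℂ E]

theorem zero_or {f g : E → ℂ} {p : E} (hf : AnalyticAt ℂ f p) (hg : AnalyticAt ℂ g p)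
    (h : ∀ᶠ y in 𝓝 p, f y * g y = 0) : (∀ᶠ y in 𝓝 p, f y = 0) ∨ ∀ᶠ y in 𝓝 p, g y = 0 := by
  by_cases h0 : ∀ᶠ y in 𝓝 p, f y = 0
  · exact Or.inl h0
  · right
    obtain ⟨r, hr, hb⟩ := Metric.eventually_nhds_iff_ball.1
      ((hf.eventually_analyticAt.and hg.eventually_analyticAt).and h)
    obtain ⟨y₁, hy₁, hy₁0⟩ : ∃ y ∈ ball p r, f y ≠ 0 := by
      by_contra hcon
      push Not at hcon
      exact h0 (by filter_upwards [ball_mem_nhds p hr] with y hy using hcon y hy)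
    have h1 : g =ᶠ[𝓝 y₁] 0 := by
      filter_upwards [(hb y₁ hy₁).1.1.continuousAt.eventually_ne hy₁0,
        isOpen_ball.mem_nhds hy₁] with y hy hyb
      exact (mul_eq_zero.1 (hb y hyb).2).resolve_left hy
    have h2 : AnalyticOnNhd ℂ g (ball p r) := fun y hy => (hb y hy).1.2
    have h3 := h2.eqOn_zero_of_preconnected_of_eventuallyEq_zero
      (convex_ball _ _).isPreconnected hy₁ h1
    filter_upwards [ball_mem_nhds p hr] with y hy using h3 hy

instance : NoZeroDivisors (O E) where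
  eq_zero_or_eq_zero_of_mul_eq_zero := by
    intro a b h
    obtain ⟨f, hf, rfl⟩ := exists_rep a
    obtain ⟨g, hg, rfl⟩ := exists_rep b
    rw [mk_mul, mk_eq_zero_iff] at h
    rw [mk_eq_zero_iff, mk_eq_zero_iff]
    exact zero_or hf hg h

instance : IsDomain (O E) := NoZeroDivisors.to_isDomain _

end domain

/-- inclusion of the hyperplane -/
def inc (k : ℕ) (z : Cm k) : Cm (k + 1) := Fin.cons 0 z

/-- projection to the hyperplane -/
def tl (k : ℕ) (z : Cm (k + 1)) : Cm k := fun i => z i.succ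

theorem cons_analytic {E : Type*} [NormedAddCommGroup E] [NormedSpace ℂ E] {k : ℕ} {a : E → ℂ}
    {b : E → Cm k} {x : E} (ha : AnalyticAt ℂ a x) (hb : AnalyticAt ℂ b x) :
    AnalyticAt ℂ (fun y => (Fin.cons (a y) (b y) : Cm (k + 1))) x := by
  rw [analyticAt_pi_iff]
  intro i
  refine Fin.cases ?_ (fun j => ?_) i
  · simpa using ha
  · simpa using (analyticAt_pi_iff.1 hb) j

theorem inc_analytic (k : ℕ) (z : Cm k) : AnalyticAt ℂ (inc k) z :=
  cons_analytic analyticAt_const analyticAt_id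

theorem inc_zero (k : ℕ) : inc k 0 = 0 := by
  ext i
  refine Fin.cases ?_ (fun j => ?_) i <;> simp [inc]

theorem proj_analytic {k : ℕ} (i : Fin k) (z : Cm k) : AnalyticAt ℂ (fun z : Cm k => z i) z :=
  (ContinuousLinearMap.proj (R := ℂ) (φ := fun _ : Fin k => ℂ) i).analyticAt z

theorem tl_analytic (k : ℕ) (z : Cm (k + 1)) : AnalyticAt ℂ (tl k) z := by
  rw [analyticAt_pi_iff]
  intro i
  exact proj_analytic i.succ z

theorem tl_zero (k : ℕ) : tl k 0 = 0 := rfl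

theorem tl_inc (k : ℕ) (z : Cm k) : tl k (inc k z) = z := by
  ext i; simp [tl, inc]

theorem cons_tl (k : ℕ) (z : Cm (k + 1)) : (Fin.cons (z 0) (tl k z) : Cm (k + 1)) = z :=
  Fin.cons_self_tail z

/-- Weierstrass division in `ℂ^(k+1)`. -/
theorem div_cm {k : ℕ} {F : Cm (k + 1) → ℂ} (hF : AnalyticAt ℂ F 0) {b : ℕ} {u : ℂ → ℂ}
    (hu : AnalyticAt ℂ u 0) (hu0 : u 0 ≠ 0)
    (hFu : ∀ᶠ t in 𝓝 (0 : ℂ), F (Fin.cons t 0) = t ^ b * u t) {g : Cm (k + 1) → ℂ}
    (hg : AnalyticAt ℂ g 0) :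
    ∃ (v : Cm (k + 1) → ℂ) (r : Fin b → Cm k → ℂ), AnalyticAt ℂ v 0 ∧
      (∀ i, AnalyticAt ℂ (r i) 0) ∧
      ∀ᶠ z in 𝓝 (0 : Cm (k + 1)), g z = v z * F z + ∑ i, r i (tl k z) * z 0 ^ (i : ℕ) := by
  have hc : AnalyticAt ℂ (fun p : ℂ × Cm k => (Fin.cons p.1 p.2 : Cm (k + 1))) (0, 0) :=
    cons_analytic analyticAt_fst analyticAt_snd
  have hc0 : (Fin.cons (0 : ℂ) (0 : Cm k) : Cm (k + 1)) = 0 := inc_zero k
  have hF' : AnalyticAt ℂ (fun p : ℂ × Cm k => F (Fin.cons p.1 p.2)) (0, 0) :=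
    AnalyticAt.comp_of_eq hF hc hc0
  have hg' : AnalyticAt ℂ (fun p : ℂ × Cm k => g (Fin.cons p.1 p.2)) (0, 0) :=
    AnalyticAt.comp_of_eq hg hc hc0
  obtain ⟨v, r, hv, hr, h⟩ := weierstrass_division hF' hu hu0 hFu hg'
  have hs : AnalyticAt ℂ (fun z : Cm (k + 1) => (z 0, tl k z)) 0 :=
    (proj_analytic 0 0).prod (tl_analytic k 0)
  refine ⟨fun z => v (z 0, tl k z), r, AnalyticAt.comp_of_eq hv hs rfl, hr, ?_⟩
  have h1 : Tendsto (fun z : Cm (k + 1) => (z 0, tl k z)) (𝓝 0) (𝓝 (0, 0)) := hs.continuousAt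
  filter_upwards [h1.eventually h] with z hz
  rw [cons_tl] at hz
  exact hz

/-- restriction to the hyperplane -/
def res (k : ℕ) : O (Cm (k + 1)) →ₐ[ℂ] O (Cm k) := pull (inc k) (inc_analytic k 0) (inc_zero k)

/-- pull back from the hyperplane -/
def sec (k : ℕ) : O (Cm k) →ₐ[ℂ] O (Cm (k + 1)) := pull (tl k) (tl_analytic k 0) (tl_zero k)

/-- the first coordinate -/
def co (k : ℕ) : O (Cm (k + 1)) := mk (fun z => z 0) (proj_analytic 0 0)

theorem res_sec (k : ℕ) (a : O (Cm k)) : res k (sec k a) = a := by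
  unfold res sec
  rw [pull_pull]
  have h1 : ∀ᶠ x in 𝓝 (0 : Cm k), tl k (inc k x) = x := Eventually.of_forall fun x => tl_inc k x
  rw [pull_congr (g' := fun x => x) (hg' := analyticAt_id) (h0' := rfl) h1, pull_id]

theorem res_co (k : ℕ) : res k (co k) = 0 := by
  unfold res co
  rw [pull_mk, mk_eq_zero_iff]
  exact Eventually.of_forall fun x => rfl

theorem exists_decomp (k : ℕ) (r : O (Cm (k + 1))) : ∃ s t, r = co k * s + sec k t := by
  obtain ⟨f, hf, rfl⟩ := exists_rep r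
  obtain ⟨v, r, hv, hr, h⟩ := div_cm (F := fun z => z 0) (proj_analytic 0 0) (b := 1)
    (u := fun _ => 1) analyticAt_const one_ne_zero (Eventually.of_forall fun t => by simp) hf
  refine ⟨mk v hv, mk (r 0) (hr 0), ?_⟩
  unfold co sec
  rw [pull_mk, mk_mul, mk_add, mk_eq_iff]
  filter_upwards [h] with z hz
  rw [hz]
  simp [mul_comm]

theorem res_eq_zero_iff (k : ℕ) (r : O (Cm (k + 1))) : res k r = 0 ↔ ∃ s, r = co k * s := by
  constructor
  · intro h
    obtain ⟨s, t, rfl⟩ := exists_decomp k r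
    rw [map_add, map_mul, res_co, zero_mul, zero_add, res_sec] at h
    exact ⟨s, by rw [h, map_zero, add_zero]⟩
  · rintro ⟨s, rfl⟩
    rw [map_mul, res_co, zero_mul]

/-- restriction to a line -/
def lineH (k : ℕ) (p : Cm k) : O (Cm k) →ₐ[ℂ] O ℂ :=
  pull (fun t : ℂ => t • p) (by fun_prop) (by simp)

theorem exists_line (k : ℕ) {r : O (Cm (k + 1))} (hr : r ≠ 0) :
    ∃ p : Cm (k + 1), p 0 ≠ 0 ∧ lineH (k + 1) p r ≠ 0 := by
  by_contra hcon
  push Not at hcon
  apply hr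
  obtain ⟨f, hf, rfl⟩ := exists_rep r
  obtain ⟨ε, hε, hb⟩ := Metric.eventually_nhds_iff_ball.1 hf.eventually_analyticAt
  -- zero at the points with `p 0 ≠ 0`
  have h1 : ∀ p ∈ ball (0 : Cm (k + 1)) ε, p 0 ≠ 0 → f p = 0 := by
    intro p hp hp0
    have h2 := hcon p hp0
    unfold lineH at h2
    rw [pull_mk, mk_eq_zero_iff] at h2
    set U : Set ℂ := (fun t : ℂ => t • p) ⁻¹' ball 0 ε
    have hU : IsPreconnected U := by
      refine Convex.isPreconnected ?_
      intro a ha b hb' α β hα hβ hαβ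
      show (α • a + β • b) • p ∈ ball 0 ε
      have h3 := (convex_ball (0 : Cm (k + 1)) ε) ha hb' hα hβ hαβ
      have h4 : (α • a + β • b) • p = α • a • p + β • b • p := by
        rw [add_smul, smul_assoc, smul_assoc]
      rw [h4]
      exact h3
    have hf' : AnalyticOnNhd ℂ (fun t : ℂ => f (t • p)) U := fun t ht =>
      AnalyticAt.comp_of_eq (hb _ ht) (by fun_prop : AnalyticAt ℂ (fun t : ℂ => t • p) t) rfl
    have h0U : (0 : ℂ) ∈ U := by
      show (0 : ℂ) • p ∈ ball 0 ε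
      rw [zero_smul]; exact mem_ball_self hε
    have h1U : (1 : ℂ) ∈ U := by
      show (1 : ℂ) • p ∈ ball 0 ε
      rw [one_smul]; exact hp
    have h5 := hf'.eqOn_zero_of_preconnected_of_eventuallyEq_zero hU h0U h2 h1U
    simpa using h5
  rw [mk_eq_zero_iff]
  filter_upwards [ball_mem_nhds (0 : Cm (k + 1)) hε] with p hp
  by_contra hne
  have h6 : ∀ᶠ q in 𝓝 p, f q ≠ 0 ∧ q ∈ ball (0 : Cm (k + 1)) ε :=
    ((hb p hp).continuousAt.eventually_ne hne).and (isOpen_ball.mem_nhds hp)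
  have h7 : Tendsto (fun t : ℂ => p + Pi.single 0 t) (𝓝[≠] 0) (𝓝 p) := by
    have : Continuous fun t : ℂ => p + (Pi.single 0 t : Cm (k + 1)) :=
      continuous_const.add (ContinuousLinearMap.single ℂ (fun _ : Fin (k + 1) => ℂ) 0).continuous
    have h8 := this.tendsto 0
    simp only [Pi.single_zero, add_zero] at h8
    exact h8.mono_left nhdsWithin_le_nhds
  have h9 : ∀ᶠ t : ℂ in 𝓝[≠] 0, (p + (Pi.single 0 t : Cm (k + 1))) 0 ≠ 0 := by
    have h10 : ∀ᶠ t : ℂ in 𝓝[≠] 0, t ≠ -p 0 := by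
      by_cases hp0 : p 0 = 0
      · rw [hp0, neg_zero]; exact eventually_mem_nhdsWithin
      · exact (continuous_id.continuousAt.eventually_ne (neg_ne_zero.2 hp0).symm).filter_mono
          nhdsWithin_le_nhds
    filter_upwards [h10] with t ht h11
    apply ht
    simp only [Pi.add_apply, Pi.single_eq_same] at h11
    linear_combination h11
  obtain ⟨t, ht1, ht2⟩ := ((h7.eventually h6).and h9).exists
  exact ht1.1 (h1 _ ht1.2 ht2)

theorem exists_ord (k : ℕ) {r : O (Cm (k + 1))} (hr : r ≠ 0) :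
    ∃ (n : ℕ) (r' : O (Cm (k + 1))), r = co k ^ n * r' ∧ res k r' ≠ 0 := by
  by_contra hcon
  push Not at hcon
  have h1 : ∀ n : ℕ, ∃ s, r = co k ^ n * s := by
    intro n
    induction n with
    | zero => exact ⟨r, by simp⟩
    | succ n ih =>
      obtain ⟨s, hs⟩ := ih
      obtain ⟨s', hs'⟩ := (res_eq_zero_iff k s).1 (hcon n s hs)
      exact ⟨s', by rw [hs, hs', pow_succ, mul_assoc]⟩
  obtain ⟨p, hp, hpr⟩ := exists_line k hr
  have hco : lineH (k + 1) p (co k) ≠ 0 := by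
    intro h
    obtain ⟨s, hs⟩ := h1 1
    rw [hs, pow_one, map_mul, h, zero_mul] at hpr
    exact hpr rfl
  have hco1 : 1 ≤ ordG (lineH (k + 1) p (co k)) := by
    rw [Nat.one_le_iff_ne_zero, Ne, ordG_eq_zero_iff hco, P298.H941.isUnit_iff, not_not]
    unfold lineH co
    rw [pull_mk, ev0_mk]
    simp
  obtain ⟨s, hs⟩ := h1 (ordG (lineH (k + 1) p r) + 1)
  have hs0 : lineH (k + 1) p s ≠ 0 := by
    intro h
    rw [hs, map_mul, h, mul_zero] at hpr
    exact hpr rfl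
  have h2 : ordG (lineH (k + 1) p r) =
      (ordG (lineH (k + 1) p r) + 1) * ordG (lineH (k + 1) p (co k)) +
        ordG (lineH (k + 1) p s) := by
    conv_lhs => rw [hs]
    rw [map_mul, map_pow, ordG_mul (pow_ne_zero _ hco) hs0, ordG_pow hco]
  nlinarith

end Vale.Agent.P277.H29
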