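import Vale.Agent.P277.Stmts4
import Vale.Agent.P277.A.Basic
import Vale.Agent.P277.H29.Germ

/-!
# P277, TX-ALG: elementary facts on branched coverings
-/

open Filter Topology Metric Set
open Vale.Agent.P298.H941 Vale.Agent.P272.K Vale.Agent.P277.TX

noncomputable section

namespace Vale.Agent.P277.H29

variable {X : CSp} {V : Set X.pt} {G : X.pt → Cm 4} {c : Cm 4} {r : ℝ} {d : ℕ} {lam : X.pt → ℂ}
  {θ : Cm 4 → ℂ}

theorem cov_cont (h : IsCov X V G c r d lam θ) {x : X.pt} (hx : x ∈ V) : ContinuousAt G x :=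
  continuousAt_pi.2 fun i => hol_continuousAt (h.holo x hx i)

/-- the fibres near a given fibre -/
theorem fibre_near (h : IsCov X V G c r d lam θ) {z : Cm 4} (hz : z ∈ ball c r) {N : Set X.pt}
    (hN : IsOpen N) (hzN : ∀ x ∈ V, G x = z → x ∈ N) :
    ∀ᶠ w in 𝓝 z, ∀ y ∈ V, G y = w → y ∈ N := by
  obtain ⟨r', hr', hr'r⟩ := exists_between (mem_ball.1 hz)
  have hK : IsCompact {x | x ∈ V ∧ G x ∈ closedBall c r'} := h.proper r' hr'r
  have hK' : IsCompact ({x | x ∈ V ∧ G x ∈ closedBall c r'} \ N) := hK.diff hN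
  have hc : ContinuousOn G ({x | x ∈ V ∧ G x ∈ closedBall c r'} \ N) := fun x hx =>
    (cov_cont h hx.1.1).continuousWithinAt
  have hI : IsClosed (G '' ({x | x ∈ V ∧ G x ∈ closedBall c r'} \ N)) :=
    (hK'.image_of_continuousOn hc).isClosed
  have hzI : z ∉ G '' ({x | x ∈ V ∧ G x ∈ closedBall c r'} \ N) := by
    rintro ⟨x, hx, hxz⟩
    exact hx.2 (hzN x hx.1.1 hxz)
  filter_upwards [hI.isOpen_compl.mem_nhds hzI, isOpen_ball.mem_nhds (show z ∈ ball c r' from hr')]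
    with w hw hwb y hy hyw
  by_contra hcon
  apply hw
  refine ⟨y, ⟨⟨hy, ?_⟩, hcon⟩, hyw⟩
  rw [hyw]
  exact ball_subset_closedBall hwb

/-- analytic functions which are not locally zero -/
def NZ (c : Cm 4) (r : ℝ) (f : Cm 4 → ℂ) : Prop :=
  (∀ z ∈ ball c r, AnalyticAt ℂ f z) ∧ ∀ z ∈ ball c r, ¬ f =ᶠ[𝓝 z] 0

theorem NZ.mul {f g : Cm 4 → ℂ} (hf : NZ c r f) (hg : NZ c r g) : NZ c r (fun z => f z * g z) := by
  refine ⟨fun z hz => (hf.1 z hz).mul (hg.1 z hz), fun z hz h0 => ?_⟩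
  rcases zero_or (hf.1 z hz) (hg.1 z hz) h0 with h | h
  · exact hf.2 z hz h
  · exact hg.2 z hz h

theorem NZ.mono {f : Cm 4 → ℂ} (hf : NZ c r f) {c' : Cm 4} {r' : ℝ} (h : ball c' r' ⊆ ball c r) :
    NZ c' r' f := ⟨fun z hz => hf.1 z (h hz), fun z hz => hf.2 z (h hz)⟩

theorem cov_nz (h : IsCov X V G c r d lam θ) : NZ c r θ := ⟨h.an, h.ne⟩

theorem nz_of_analytic {f : Cm 4 → ℂ} (hf : ∀ z ∈ ball c r, AnalyticAt ℂ f z) {z₀ : Cm 4}
    (hz₀ : z₀ ∈ ball c r) (h0 : ¬ f =ᶠ[𝓝 z₀] 0) : NZ c r f := by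
  refine ⟨hf, fun z hz h => h0 ?_⟩
  have h1 : AnalyticOnNhd ℂ f (ball c r) := hf
  have h2 := h1.eqOn_zero_of_preconnected_of_eventuallyEq_zero (convex_ball _ _).isPreconnected hz h
  filter_upwards [isOpen_ball.mem_nhds hz₀] with w hw using h2 hw

theorem NZ.exists_ne {f : Cm 4 → ℂ} (hf : NZ c r f) {z : Cm 4} (hz : z ∈ ball c r) {U : Set (Cm 4)}
    (hU : U ∈ 𝓝 z) : ∃ w ∈ U, w ∈ ball c r ∧ f w ≠ 0 := by
  by_contra hcon
  push Not at hcon
  apply hf.2 z hz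
  filter_upwards [hU, isOpen_ball.mem_nhds hz] with w hw hw' using hcon w hw hw'

/-- points of open sets over which `f ≠ 0` -/
theorem cov_dense (h : IsCov X V G c r d lam θ) {f : Cm 4 → ℂ} (hf : NZ c r f) {W : Set X.pt}
    (hW : IsOpen W) (hWV : W ⊆ V) (hWn : W.Nonempty) : ∃ x ∈ W, f (G x) ≠ 0 := by
  obtain ⟨x, hx⟩ := hWn
  have h1 : G '' W ∈ 𝓝 (G x) := (h.openMap W hWV hW).mem_nhds ⟨x, hx, rfl⟩
  obtain ⟨_, ⟨y, hy, rfl⟩, -, hy0⟩ := hf.exists_ne (h.maps x (hWV hx)) h1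
  exact ⟨y, hy, hy0⟩

/-- a function which vanishes on a dense set vanishes -/
theorem cov_zero (h : IsCov X V G c r d lam θ) {f : Cm 4 → ℂ} (hf : NZ c r f) {x : X.pt}
    (hx : x ∈ V) {g : X.pt → ℂ} (hg : ContinuousAt g x) {W : Set X.pt} (hW : W ∈ 𝓝 x)
    (h0 : ∀ y ∈ W, y ∈ V → f (G y) ≠ 0 → g y = 0) : g x = 0 := by
  by_contra hcon
  obtain ⟨U, hUW, hUo, hxU⟩ := mem_nhds_iff.1 (inter_mem (inter_mem hW (h.isOpen.mem_nhds hx))
    (hg.eventually_ne hcon))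
  obtain ⟨y, hy, hy0⟩ := cov_dense h hf hUo (fun y hy => (hUW hy).1.2) ⟨x, hxU⟩
  exact (hUW hy).2 (h0 y (hUW hy).1.1 (hUW hy).1.2 hy0)

/-- **The trace.** -/
theorem exists_trace (h : IsCov X V G c r d lam θ) {g : X.pt → ℂ} (hg : ∀ x ∈ V, X.Hol g x) :
    ∃ T : Cm 4 → ℂ, (∀ z ∈ ball c r, AnalyticAt ℂ T z) ∧
      ∀ z ∈ ball c r, θ z ≠ 0 → ∀ x : Fin d → X.pt, Enum V G z x → T z = ∑ k, g (x k) := by
  obtain ⟨P, h1, h2, h3⟩ := h.sym g hg
  refine ⟨fun z => -(P z).coeff (d - 1), fun z hz => ((h1 z hz).2.2 _).neg, fun z hz hθ x hx => ?_⟩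
  show -(P z).coeff (d - 1) = ∑ k, g (x k)
  rw [h3 z hz hθ x hx]
  have h4 := Polynomial.prod_X_sub_C_coeff_card_pred (Finset.univ : Finset (Fin d))
    (fun k => g (x k)) (by rw [Finset.card_univ, Fintype.card_fin]; exact h.dpos)
  rw [Finset.card_univ, Fintype.card_fin] at h4
  rw [h4, neg_neg]

/-- the trace at a point with one preimage -/
theorem trace_eq (h : IsCov X V G c r d lam θ) {g : X.pt → ℂ}
    {T : Cm 4 → ℂ} (hT : ∀ z ∈ ball c r, AnalyticAt ℂ T z)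
    (hT' : ∀ z ∈ ball c r, θ z ≠ 0 → ∀ x : Fin d → X.pt, Enum V G z x → T z = ∑ k, g (x k))
    {y : X.pt} (hy : y ∈ V) (hgy : ContinuousAt g y) (hu : ∀ x ∈ V, G x = G y → x = y) :
    T (G y) = d * g y := by
  have hz := h.maps y hy
  by_contra hcon
  set ε := ‖T (G y) - d * g y‖
  have hε : 0 < ε := norm_pos_iff.2 (sub_ne_zero.2 hcon)
  have hd : (0 : ℝ) < d := by exact_mod_cast h.dpos
  -- neighbourhood
  have h1 : ∀ᶠ x in 𝓝 y, ‖g x - g y‖ < ε / (4 * d) := by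
    have := Metric.continuousAt_iff'.1 hgy (ε / (4 * d)) (by positivity)
    filter_upwards [this] with x hx
    rwa [dist_eq_norm] at hx
  obtain ⟨N, hN, hNo, hyN⟩ := mem_nhds_iff.1 h1
  have h2 := fibre_near h hz hNo (fun x hx hxy => by rw [hu x hx hxy]; exact hyN)
  have h3 : ∀ᶠ w in 𝓝 (G y), ‖T w - T (G y)‖ < ε / 4 := by
    have := Metric.continuousAt_iff'.1 (hT _ hz).continuousAt (ε / 4) (by positivity)
    filter_upwards [this] with x hx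
    rwa [dist_eq_norm] at hx
  obtain ⟨w, hw, hwb, hθ⟩ := (cov_nz h).exists_ne hz (h2.and h3)
  obtain ⟨x, hx⟩ := h.enum w hwb hθ
  have h4 := hT' w hwb hθ x hx
  have h5 : ‖∑ k, g (x k) - d * g y‖ ≤ ε / 4 := by
    have e1 : ∑ k, g (x k) - d * g y = ∑ k : Fin d, (g (x k) - g y) := by
      rw [Finset.sum_sub_distrib, Finset.sum_const, Finset.card_univ, Fintype.card_fin,
        nsmul_eq_mul]
    rw [e1]
    refine (norm_sum_le _ _).trans ?_
    have h6 : ∀ k ∈ (Finset.univ : Finset (Fin d)), ‖g (x k) - g y‖ ≤ ε / (4 * d) := by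
      intro k _
      have h7 := (hx.2 (x k)).1 ⟨k, rfl⟩
      exact (hN (hw.1 _ h7.1 h7.2)).le
    refine (Finset.sum_le_sum h6).trans ?_
    rw [Finset.sum_const, Finset.card_univ, Fintype.card_fin, nsmul_eq_mul]
    apply le_of_eq
    field_simp
  rw [← h4] at h5
  have h6 : ε ≤ ‖T w - T (G y)‖ + ‖T w - d * g y‖ := by
    have : T (G y) - d * g y = (T w - d * g y) - (T w - T (G y)) := by ring
    show ‖T (G y) - d * g y‖ ≤ _
    rw [this, add_comm]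
    exact norm_sub_le _ _
  linarith [hw.2]

end Vale.Agent.P277.H29
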