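import Vale.Agent.P277.H29.Gen
import Vale.Agent.P277.H29.Cov0
import Vale.Agent.P277.H29.Alg1

/-!
# P277, TX-ALG: the algebra data of a good covering
-/

open Filter Topology Metric Set
open Vale.Agent.P298.H941 Vale.Agent.P272.K Vale.Agent.P277.TX

noncomputable section

namespace Vale.Agent.P277.H29

variable {X : CSp} {V : Set X.pt} {G : X.pt → Cm 4} {c : Cm 4} {r : ℝ} {d : ℕ} {lam : X.pt → ℂ}
  {θ : Cm 4 → ℂ}

/-- the polynomial of a function at a totally branched point -/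
theorem sym_center (h : IsCov X V G c r d lam θ) {g : X.pt → ℂ} {P : Cm 4 → Polynomial ℂ}
    (hP : ∀ z ∈ ball c r, (P z).Monic ∧ (P z).natDegree = d ∧
      ∀ i, AnalyticAt ℂ (fun w => (P w).coeff i) z)
    (hP' : ∀ z ∈ ball c r, θ z ≠ 0 → ∀ x : Fin d → X.pt, Enum V G z x →
      P z = ∏ k, (Polynomial.X - Polynomial.C (g (x k))))
    {y : X.pt} (hy : y ∈ V) (hgy : ContinuousAt g y) (hg0 : g y = 0)
    (hu : ∀ x ∈ V, G x = G y → x = y) : P (G y) = Polynomial.X ^ d := by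
  refine Polynomial.funext fun t => ?_
  have hz := h.maps y hy
  rw [Polynomial.eval_pow, Polynomial.eval_X]
  by_contra hcon
  set ε := dist ((P (G y)).eval t) (t ^ d)
  have hε : 0 < ε := dist_pos.2 hcon
  -- continuity of the product
  have hc1 : Continuous fun a : Fin d → ℂ => ∏ k, (t - a k) := by fun_prop
  obtain ⟨δ, hδ, hδ'⟩ := Metric.continuousAt_iff.1 (hc1.continuousAt (x := 0)) (ε / 2) (by positivity)
  have hc2 : ∀ᶠ w in 𝓝 (G y), dist ((P w).eval t) ((P (G y)).eval t) < ε / 2 := by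
    have h1 : ContinuousAt (fun w => ∑ i ∈ Finset.range (d + 1), (P w).coeff i * t ^ i) (G y) :=
      tendsto_finsetSum _ fun i _ => ((((hP _ hz).2.2 i).continuousAt).mul continuousAt_const)
    have h2 := Metric.continuousAt_iff'.1 h1 (ε / 2) (by positivity)
    filter_upwards [h2, isOpen_ball.mem_nhds hz] with w hw hwb
    rw [Polynomial.eval_eq_sum_range' (n := d + 1), Polynomial.eval_eq_sum_range' (n := d + 1)]
    · exact hw
    · rw [(hP _ hz).2.1]; exact Nat.lt_succ_self d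
    · rw [(hP _ hwb).2.1]; exact Nat.lt_succ_self d
  have h1 : ∀ᶠ x in 𝓝 y, dist (g x) 0 < δ := by
    have := Metric.continuousAt_iff'.1 hgy δ hδ
    filter_upwards [this] with x hx
    rwa [hg0] at hx
  obtain ⟨N, hN, hNo, hyN⟩ := mem_nhds_iff.1 h1
  have h2 := fibre_near h hz hNo (fun x hx hxy => by rw [hu x hx hxy]; exact hyN)
  obtain ⟨w, hw, hwb, hθ⟩ := (cov_nz h).exists_ne hz (h2.and hc2)
  obtain ⟨x, hx⟩ := h.enum w hwb hθ
  have h3 : (P w).eval t = ∏ k, (t - g (x k)) := by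
    rw [hP' w hwb hθ x hx, Polynomial.eval_prod]
    simp
  have h4 : dist (fun k => g (x k)) 0 < δ := by
    rw [dist_pi_lt_iff hδ]
    intro k
    have h7 := (hx.2 (x k)).1 ⟨k, rfl⟩
    exact hN (hw.1 _ h7.1 h7.2)
  have h5 := hδ' h4
  simp only [Pi.zero_apply, sub_zero, Finset.prod_const, Finset.card_univ, Fintype.card_fin] at h5
  rw [← h3] at h5
  have h6 := hw.2
  have h7 := dist_triangle ((P (G y)).eval t) ((P w).eval t) (t ^ d)
  rw [dist_comm ((P (G y)).eval t) ((P w).eval t)] at h7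
  linarith [h5, h6, h7]

variable {S : Set X.pt}

/-- the centre of a good covering -/
theorem exists_center (h : IsGood X S V G c r d lam θ) :
    ∃ p, p ∈ V ∧ G p = c ∧ p ∈ S ∧ ∀ y ∈ V, G y = G p → y = p := by
  obtain ⟨-, p, hp, hpc⟩ := h.finite c (mem_ball_self h.pos)
  have h1 : p ∈ S := (h.memS p hp).2 ⟨by rw [hpc]; exact h.c0, by rw [hpc]; exact h.c1⟩
  exact ⟨p, hp, hpc, h1, fun y hy hyp => h.uniq p hp h1 y hy hyp⟩

/-- the map to `ℂ⁴` centred at `p` -/
def ctr (G : X.pt → Cm 4) (c : Cm 4) (y : X.pt) : Cm 4 := fun i => G y i - c i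

theorem ctr_hol (h : IsCov X V G c r d lam θ) {p : X.pt} (hp : p ∈ V) (i : Fin 4) :
    X.Hol (fun y => ctr G c y i) p := hol_sub (h.holo p hp i) (hol_const _ _)

theorem ctr_zero {p : X.pt} (hp : G p = c) : ctr G c p = 0 := by
  ext i
  show G p i - c i = 0
  rw [hp, sub_self]

/-- the equations of the coordinates -/
theorem exists_eqn (h : IsCov X V G c r d lam θ) {p : X.pt} (hp : p ∈ V) (hpc : G p = c)
    (hu : ∀ y ∈ V, G y = G p → y = p) {g : X.pt → ℂ} (hg : ∀ x ∈ V, X.Hol g x) (hg0 : g p = 0) :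
    Eqn (ctr G c) p d g := by
  refine ⟨hg p hp, hg0, ?_⟩
  obtain ⟨P, h1, h2, h3⟩ := h.sym g hg
  classical
  have hcb : c ∈ ball c r := mem_ball_self h.pos
  have h4 : P (G p) = Polynomial.X ^ d :=
    sym_center h h1 h3 hp (hol_continuousAt (hg p hp)) hg0 hu
  have hsh : AnalyticAt ℂ (fun w : Cm 4 => c + w) 0 := analyticAt_const.add analyticAt_id
  have hcont : ContinuousAt (fun w : Cm 4 => c + w) 0 := hsh.continuousAt
  have hb : ∀ᶠ w : Cm 4 in 𝓝 0, c + w ∈ ball c r :=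
    hcont.eventually (by
      show ball c r ∈ 𝓝 (c + 0)
      rw [add_zero]; exact isOpen_ball.mem_nhds hcb)
  refine ⟨fun w => if c + w ∈ ball c r then P (c + w) else 0, fun w => ?_, ?_, fun i => ?_, ?_⟩
  · show Polynomial.natDegree (if c + w ∈ ball c r then P (c + w) else 0) ≤ d
    split_ifs with h5
    · exact (h1 _ h5).2.1.le
    · simp
  · show (if c + 0 ∈ ball c r then P (c + 0) else 0) = _
    rw [if_pos (by rw [add_zero]; exact hcb), add_zero, ← hpc, h4]
  · have h6 : AnalyticAt ℂ (fun w => (P (c + w)).coeff i) 0 :=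
      AnalyticAt.comp_of_eq ((h1 c hcb).2.2 i) hsh (add_zero c)
    refine h6.congr ?_
    filter_upwards [hb] with w hw
    rw [if_pos hw]
  · filter_upwards [h.isOpen.mem_nhds hp] with y hy
    have h7 : c + ctr G c y = G y := by
      ext i
      show c i + (G y i - c i) = G y i
      ring
    show Polynomial.eval (g y) (if c + ctr G c y ∈ ball c r then P (c + ctr G c y) else 0) = 0
    rw [h7, if_pos (h.maps y hy)]
    exact h2 y hy

/-- the coordinates generate -/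
theorem exists_rep_coord (h : IsCov X V G c r d lam θ) {p : X.pt} (hp : p ∈ V) (hpc : G p = c)
    (hu : ∀ y ∈ V, G y = G p → y = p) {n : ℕ} {ζ : Fin n → X.pt → ℂ} (hζ : IsCoord X V ζ)
    (a : HG X p) : ∃ ρ : (Fin n → Fin d) → O (Cm 4), a = ∑ α,
      pullX (ctr G c) (ctr_hol h hp) (ctr_zero hpc) (ρ α) *
        ∏ j, hmk (fun y => ζ j y - ζ j p) (hol_sub (hζ.hol j p hp) (hol_const _ _)) ^ (α j : ℕ) := by
  obtain ⟨f, hf, rfl⟩ := hexists_rep a
  obtain ⟨g, hg, hfg⟩ := (hζ.iff p hp f).1 hf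
  have hE : ∀ j, Eqn (ctr G c) p d (fun y => ζ j y - ζ j p) := fun j =>
    exists_eqn h hp hpc hu (fun x hx => hol_sub (hζ.hol j x hx) (hol_const _ _)) (sub_self _)
  have hz : fst (m := 4) n 0 = 0 := by
    have h1 := fst_psi (m := 4) (ctr G c) n (fun j y => ζ j y - ζ j p) p
    rw [psi_zero (ctr_zero hpc) n _ (fun j => (hE j).zero)] at h1
    rw [h1]
    ext j
    exact sub_self _
  have hF : AnalyticAt ℂ (fun z : Cm (4 + n) => g (fun j => fst n z j + ζ j p)) 0 := by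
    have h2 : AnalyticAt ℂ (fun z : Cm (4 + n) => (fun j => fst n z j + ζ j p : Cm n)) 0 :=
      AnalyticAt.add (fst_analytic n 0) (analyticAt_const (v := fun j => ζ j p))
    refine AnalyticAt.comp_of_eq hg h2 ?_
    ext j
    show fst n 0 j + ζ j p = ζ j p
    rw [hz]
    exact zero_add _
  obtain ⟨ρ, hρ⟩ := exists_gen (ctr_hol h hp) (ctr_zero hpc) n (fun j y => ζ j y - ζ j p) hE
    (mk _ hF)
  refine ⟨ρ, ?_⟩
  rw [← hρ, pullX_mk, hmk_eq_iff]
  filter_upwards [hfg] with y hy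
  rw [hy, fst_psi]
  congr 1
  ext j
  ring

/-- the germs along the surface -/
theorem exists_section (h : IsGood X S V G c r d lam θ) {p : X.pt} (hp : p ∈ V) (hpc : G p = c)
    {n : ℕ} {ζ : Fin n → X.pt → ℂ} (hζ : IsCoord X V ζ) :
    ∃ (σ : Cm 2 → X.pt), HolAt X σ 0 ∧ σ 0 = p ∧
      ∀ᶠ u in 𝓝 0, σ u ∈ V ∧ G (σ u) = c + inc 3 (inc 2 u) := by
  classical
  have hcb : c ∈ ball c r := mem_ball_self h.pos
  have hinc : AnalyticAt ℂ (fun u : Cm 2 => c + inc 3 (inc 2 u)) 0 :=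
    analyticAt_const.add (AnalyticAt.comp_of_eq (inc_analytic 3 0) (inc_analytic 2 0) (inc_zero 2))
  have hinc0 : c + inc 3 (inc 2 0) = c := by rw [inc_zero, inc_zero, add_zero]
  have hb : ∀ᶠ u : Cm 2 in 𝓝 0, c + inc 3 (inc 2 u) ∈ ball c r :=
    hinc.continuousAt.eventually (by
      show ball c r ∈ 𝓝 (c + inc 3 (inc 2 0))
      rw [hinc0]; exact isOpen_ball.mem_nhds hcb)
  have key : ∀ u : Cm 2, ∃ x : X.pt, c + inc 3 (inc 2 u) ∈ ball c r →
      x ∈ V ∧ G x = c + inc 3 (inc 2 u) := by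
    intro u
    by_cases hub : c + inc 3 (inc 2 u) ∈ ball c r
    · obtain ⟨-, x, hx⟩ := h.finite _ hub
      exact ⟨x, fun _ => hx⟩
    · exact ⟨p, fun h' => absurd h' hub⟩
  choose σ hσ using key
  have hS : ∀ u, c + inc 3 (inc 2 u) ∈ ball c r → ∀ x ∈ V, G x = G (σ u) → x = σ u := by
    intro u hub x hx hxu
    refine h.uniq _ (hσ u hub).1 ((h.memS _ (hσ u hub).1).2 ?_) x hx hxu
    rw [(hσ u hub).2]
    refine ⟨?_, ?_⟩
    · show c 0 + (0 : ℂ) = 0
      rw [h.c0, add_zero]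
    · show c 1 + (0 : ℂ) = 0
      rw [h.c1, add_zero]
  have hσ0 : σ 0 = p := by
    have h1 : c + inc 3 (inc 2 0) ∈ ball c r := by rw [hinc0]; exact hcb
    have h2 := (hσ 0 h1).2
    rw [hinc0] at h2
    exact (hS 0 h1 p hp (by rw [hpc, h2])).symm
  refine ⟨σ, ?_, hσ0, ?_⟩
  · refine holAt_of_coord hζ ?_ fun a => ?_
    · filter_upwards [hb] with u hu using (hσ u hu).1
    · obtain ⟨T, hT, hT'⟩ := exists_trace h.toIsCov (hζ.hol a)
      have hd : (d : ℂ) ≠ 0 := by
        have := h.dpos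
        exact_mod_cast (by omega : d ≠ 0)
      have h3 : AnalyticAt ℂ (fun u : Cm 2 => T (c + inc 3 (inc 2 u)) / d) 0 :=
        (AnalyticAt.comp_of_eq (hT c hcb) hinc hinc0).div analyticAt_const hd
      refine h3.congr ?_
      filter_upwards [hb] with u hu
      have h4 := trace_eq h.toIsCov hT hT' (hσ u hu).1
        (hol_continuousAt (hζ.hol a _ (hσ u hu).1)) (hS u hu)
      rw [(hσ u hu).2] at h4
      rw [h4, mul_div_cancel_left₀ _ hd]
  · filter_upwards [hb] with u hu using hσ u hu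

/-- the coordinate function is not locally zero -/
theorem nz_coord (c : Cm 4) (r : ℝ) (i : Fin 4) : NZ c r (fun z => z i) := by
  refine ⟨fun z _ => proj_analytic i z, fun z _ h => ?_⟩
  have h7 : Tendsto (fun t : ℂ => z + Pi.single i t) (𝓝[≠] 0) (𝓝 z) := by
    have : Continuous fun t : ℂ => z + (Pi.single i t : Cm 4) :=
      continuous_const.add (ContinuousLinearMap.single ℂ (fun _ : Fin 4 => ℂ) i).continuous
    have h8 := this.tendsto 0
    simp only [Pi.single_zero, add_zero] at h8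
    exact h8.mono_left nhdsWithin_le_nhds
  obtain ⟨t, ht1, ht2⟩ := ((h7.eventually h).and eventually_mem_nhdsWithin).exists
  have h0 : z i = 0 := h.self_of_nhds
  have h1 : (z + (Pi.single i t : Cm 4)) i = 0 := ht1
  rw [Pi.add_apply, Pi.single_eq_same, h0, zero_add] at h1
  exact ht2 h1

/-- `G 0` is a nonzero divisor -/
theorem cov_nzd (h : IsCov X V G c r d lam θ) {p : X.pt} (hp : p ∈ V) {f : X.pt → ℂ}
    (hf : X.Hol f p) (i : Fin 4) (h0 : ∀ᶠ y in 𝓝 p, G y i * f y = 0) : ∀ᶠ y in 𝓝 p, f y = 0 := by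
  filter_upwards [(hol_eventually hf), h0.eventually_nhds, h.isOpen.mem_nhds hp] with y hy hy0 hyV
  obtain ⟨W, hW, hWy⟩ := eventually_iff_exists_mem.1 hy0
  refine cov_zero h (nz_coord c r i) hyV (hol_continuousAt hy) hW fun w hw _ hne => ?_
  exact (mul_eq_zero.1 (hWy w hw)).resolve_left hne

theorem isAn_mono {E W W' : Set X.pt} (h : IsAn X W E) (hW : W' ⊆ W) : IsAn X W' E :=
  fun x hx => h x (hW hx)

theorem dimLe_subset {k : ℕ} {A B : Set X.pt} (h : DimLe X k A) (hB : B ⊆ A) : DimLe X k B := by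
  obtain ⟨Ω, g, h1, h2, h3⟩ := h
  exact ⟨Ω, g, h1, h2, hB.trans h3⟩

/-- `G 0, G 1` is a regular sequence -/
theorem cov_reg (hX : IsNormal 4 X) (hS : IsAn X univ S) (hS2 : DimLe X 2 S)
    (h : IsGood X S V G c r d lam θ) {p : X.pt} (hp : p ∈ V) {f g : X.pt → ℂ} (hf : X.Hol f p)
    (hg : X.Hol g p) (hfg : ∀ᶠ y in 𝓝 p, G y 1 * f y = G y 0 * g y) :
    ∃ k : X.pt → ℂ, X.Hol k p ∧ ∀ᶠ y in 𝓝 p, f y = G y 0 * k y := by
  classical
  obtain ⟨N, hN, hNo, hpN⟩ := mem_nhds_iff.1 ((((hol_eventually hf).and (hol_eventually hg)).and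
    hfg).and (h.isOpen.mem_nhds hp))
  set q : X.pt → ℂ := fun y => if G y 0 ≠ 0 then f y / G y 0 else g y / G y 1 with hq
  have hq0 : ∀ y, G y 0 ≠ 0 → q y = f y / G y 0 := fun y hy => if_pos hy
  have hq1 : ∀ y ∈ N, G y 1 ≠ 0 → q y = g y / G y 1 := by
    intro y hy h1
    by_cases h0 : G y 0 = 0
    · exact if_neg (by simpa using h0)
    · rw [hq0 y h0, div_eq_div_iff h0 h1]
      linear_combination (hN hy).1.2
  have hqh : ∀ x ∈ N \ S, X.Hol q x := by
    rintro x ⟨hxN, hxS⟩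
    have hxV : x ∈ V := (hN hxN).2
    have hcx : ∀ i, ContinuousAt (fun y => G y i) x := fun i => hol_continuousAt (h.holo x hxV i)
    rw [h.memS x hxV, not_and_or] at hxS
    rcases hxS with h0 | h1
    · refine hol_congr (hol_div (hN hxN).1.1.1 (h.holo x hxV 0) h0) ?_
      filter_upwards [(hcx 0).eventually_ne h0] with y hy using hq0 y hy
    · refine hol_congr (hol_div (hN hxN).1.1.2 (h.holo x hxV 1) h1) ?_
      filter_upwards [(hcx 1).eventually_ne h1, hNo.mem_nhds hxN] with y hy hyN using hq1 y hyN hy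
  obtain ⟨k, hk, hk'⟩ := hX.ext N S hNo (isAn_mono hS (subset_univ _))
    (dimLe_subset hS2 inter_subset_right) q hqh
  refine ⟨k, hk p hpN, ?_⟩
  filter_upwards [hNo.mem_nhds hpN] with x hx
  have hxV : x ∈ V := (hN hx).2
  have h1 : f x - G x 0 * k x = 0 := by
    refine cov_zero h.toIsCov (nz_coord c r 0) hxV (g := fun y => f y - G y 0 * k y)
      ((hol_continuousAt (hN hx).1.1.1).sub ((hol_continuousAt (h.holo x hxV 0)).mul
        (hol_continuousAt (hk x hx)))) (hNo.mem_nhds hx) fun y hy hyV hne => ?_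
    have hyS : y ∉ S := fun hyS => hne ((h.memS y hyV).1 hyS).1
    show f y - G y 0 * k y = 0
    rw [hk' y ⟨hy, hyS⟩, hq0 y hne, mul_div_cancel₀ _ hne, sub_self]
  linear_combination h1

end Vale.Agent.P277.H29
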