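import Vale.Agent.P277.H29.Alg2
import Mathlib.LinearAlgebra.Matrix.ToLinearEquiv
import Mathlib.LinearAlgebra.Matrix.Rank

/-!
# P277, TX-ALG: proof
-/

open Filter Topology Metric Set
open Vale.Agent.P298.H941 Vale.Agent.P272.K Vale.Agent.P277.TX

noncomputable section

namespace Vale.Agent.P277.H29

variable {X : CSp} {V : Set X.pt} {G : X.pt → Cm 4} {c : Cm 4} {r : ℝ} {d : ℕ} {lam : X.pt → ℂ}
  {θ : Cm 4 → ℂ} {S : Set X.pt}

theorem ker2_iff (r : O (Cm 4)) :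
    res 2 (res 3 r) = 0 ↔ ∃ s t, r = co 3 * s + sec 3 (co 2) * t := by
  constructor
  · intro h
    obtain ⟨t, ht⟩ := (res_eq_zero_iff 2 _).1 h
    have h1 : res 3 (r - sec 3 (co 2) * sec 3 t) = 0 := by
      rw [map_sub, map_mul, res_sec, res_sec, ht, sub_self]
    obtain ⟨s, hs⟩ := (res_eq_zero_iff 3 _).1 h1
    exact ⟨s, sec 3 t, by rw [← hs]; ring⟩
  · rintro ⟨s, t, rfl⟩
    rw [map_add, map_mul, map_mul, res_co, zero_mul, zero_add, res_sec, map_mul, res_co, zero_mul]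

theorem ordy_germ (r : O (Cm 4)) (hr : res 3 r ≠ 0) :
    ∃ (k : ℕ) (r' s : O (Cm 4)), r = sec 3 (co 2) ^ k * r' + co 3 * s ∧ res 2 (res 3 r') ≠ 0 := by
  obtain ⟨k, t, ht, ht0⟩ := exists_ord 2 hr
  have h1 : res 3 (r - sec 3 (co 2) ^ k * sec 3 t) = 0 := by
    rw [map_sub, map_mul, map_pow, res_sec, res_sec, ht, sub_self]
  obtain ⟨s, hs⟩ := (res_eq_zero_iff 3 _).1 h1
  exact ⟨k, sec 3 t, s, by rw [← hs]; ring, by rw [res_sec]; exact ht0⟩

theorem hmk_pow {p : X.pt} {f : X.pt → ℂ} (hf : X.Hol f p) (n : ℕ) :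
    hmk f hf ^ n = hmk (fun y => f y ^ n) (hol_pow hf n) := by
  induction n with
  | zero =>
    rw [pow_zero, hmk_one, hmk_eq_iff]
    exact Eventually.of_forall fun y => by simp
  | succ n ih =>
    rw [pow_succ, ih, hmk_mul, hmk_eq_iff]
    exact Eventually.of_forall fun y => by simp [pow_succ]

theorem hmk_prod {p : X.pt} {ι : Type} (s : Finset ι) (f : ι → X.pt → ℂ)
    (hf : ∀ i, X.Hol (f i) p) :
    ∏ i ∈ s, hmk (f i) (hf i) = hmk (fun x => ∏ i ∈ s, f i x) (hol_prod s fun i _ => hf i) := by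
  classical
  induction s using Finset.induction_on with
  | empty => rfl
  | insert a s ha ih =>
    rw [Finset.prod_insert ha, ih, hmk_mul]
    refine (hmk_eq_iff _ _).2 (Eventually.of_forall fun x => ?_)
    simp only [Finset.prod_insert ha]

/-- the algebra structure -/
abbrev algG (h : IsCov X V G c r d lam θ) {p : X.pt} (hp : p ∈ V) (hpc : G p = c) :
    Algebra (O (Cm 4)) (HG X p) := (pullX (ctr G c) (ctr_hol h hp) (ctr_zero hpc)).toAlgebra

/-- **The algebra data.** -/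
theorem exists_algData (hX : IsNormal 4 X) (hS : IsAn X univ S) (hS2 : DimLe X 2 S)
    (h : IsGood X S V G c r d lam θ) {p : X.pt} (hp : p ∈ V) (hpc : G p = c)
    (hu : ∀ y ∈ V, G y = G p → y = p) {n : ℕ} {ζ : Fin n → X.pt → ℂ} (hζ : IsCoord X V ζ) :
    letI := algG h.toIsCov hp hpc
    ∃ (N : ℕ) (gf : Fin N → X.pt → ℂ) (hgf : ∀ j, ∀ x ∈ V, X.Hol (gf j) x)
      (ρ : HG X p →+* O (Cm 2)),
      AlgData (res 3 : O (Cm 4) →+* O (Cm 3)) (res 2 : O (Cm 3) →+* O (Cm 2)) (co 3)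
        (sec 3 (co 2)) ρ (fun j => hmk (gf j) (hgf j p hp)) := by
  let _ := algG h.toIsCov hp hpc
  obtain ⟨σ, hσ, hσ0, hσ1⟩ := exists_section h hp hpc hζ
  have hm : ∀ (f : Cm 4 → ℂ) (hf : AnalyticAt ℂ f 0), algebraMap (O (Cm 4)) (HG X p) (mk f hf) =
      pullX (ctr G c) (ctr_hol h.toIsCov hp) (ctr_zero hpc) (mk f hf) := fun f hf => rfl
  have hc0 : c 0 = 0 := h.c0
  have hc1 : c 1 = 0 := h.c1
  have hxm : ∀ f (hf : X.Hol f p), (co 3 : O (Cm 4)) • hmk f hf =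
      hmk (fun y => G y 0 * f y) (hol_mul (h.holo p hp 0) hf) := by
    intro f hf
    rw [Algebra.smul_def]
    unfold co
    rw [hm, pullX_mk, hmk_mul, hmk_eq_iff]
    refine Eventually.of_forall fun y => ?_
    show (G y 0 - c 0) * f y = _
    rw [hc0, sub_zero]
  have hym : ∀ f (hf : X.Hol f p), (sec 3 (co 2) : O (Cm 4)) • hmk f hf =
      hmk (fun y => G y 1 * f y) (hol_mul (h.holo p hp 1) hf) := by
    intro f hf
    rw [Algebra.smul_def]
    unfold co sec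
    rw [pull_mk, hm, pullX_mk, hmk_mul, hmk_eq_iff]
    refine Eventually.of_forall fun y => ?_
    show (G y 1 - c 1) * f y = _
    rw [hc1, sub_zero]
  -- generators
  let e := Fintype.equivFin (Fin n → Fin d)
  have hmon : ∀ α : Fin n → Fin d, ∀ x ∈ V,
      X.Hol (fun y => ∏ j, (ζ j y - ζ j p) ^ (α j : ℕ)) x := fun α x hx =>
    hol_prod _ fun j _ => hol_pow (hol_sub (hζ.hol j x hx) (hol_const _ _)) _
  refine ⟨Fintype.card (Fin n → Fin d), fun i y => ∏ j, (ζ j y - ζ j p) ^ (e.symm i j : ℕ),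
    fun i => hmon (e.symm i), pullS σ hσ hσ0, ?_⟩
  constructor
  · intro r; exact res_eq_zero_iff 3 r
  · exact ker2_iff
  · intro r hr
    obtain ⟨k, r', h1, h2⟩ := exists_ord 3 hr
    exact ⟨k, r', h1, h2⟩
  · exact ordy_germ
  · intro m
    obtain ⟨ρ, hρ⟩ := exists_rep_coord h.toIsCov hp hpc hu hζ m
    refine ⟨0, fun i => ρ (e.symm i), ?_⟩
    rw [map_zero, zero_add, hρ, ← e.symm.sum_comp]
    refine Finset.sum_congr rfl fun i _ => ?_
    rw [Algebra.smul_def]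
    congr 1
    rw [← hmk_prod (p := p) Finset.univ (fun j y => (ζ j y - ζ j p) ^ (e.symm i j : ℕ))
      (fun j => hol_pow (hol_sub (hζ.hol j p hp) (hol_const _ _)) _)]
    refine Finset.prod_congr rfl fun j _ => ?_
    rw [hmk_pow]
  · intro r
    obtain ⟨f, hf, rfl⟩ := exists_rep r
    rw [hm, pullX_mk, pullS_mk]
    show _ = res 2 (res 3 (mk f hf))
    unfold res
    rw [pull_mk, pull_mk, mk_eq_iff]
    filter_upwards [hσ1] with u hu
    show f (ctr G c (σ u)) = f (inc 3 (inc 2 u))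
    congr 1
    ext i
    show G (σ u) i - c i = _
    rw [hu.2]
    show c i + _ - c i = _
    ring
  · intro m hm0
    obtain ⟨f, hf, rfl⟩ := hexists_rep m
    rw [hxm, hmk_eq_zero_iff] at hm0
    rw [hmk_eq_zero_iff]
    exact cov_nzd h.toIsCov hp hf 0 hm0
  · intro a b hab
    obtain ⟨f, hf, rfl⟩ := hexists_rep a
    obtain ⟨g, hg, rfl⟩ := hexists_rep b
    rw [hxm, hym, hmk_eq_iff] at hab
    obtain ⟨k, hk, hk'⟩ := cov_reg hX hS hS2 h hp hf hg hab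
    exact ⟨hmk k hk, by rw [hxm, hmk_eq_iff]; exact hk'⟩

/-- The basis, as functions. -/
theorem exists_basis_fun (hX : IsNormal 4 X) (hS : IsAn X univ S) (hS2 : DimLe X 2 S)
    (h : IsGood X S V G c r d lam θ) {p : X.pt} (hp : p ∈ V) (hpc : G p = c)
    (hu : ∀ y ∈ V, G y = G p → y = p) {n : ℕ} {ζ : Fin n → X.pt → ℂ} (hζ : IsCoord X V ζ) :
    ∃ (ι : Type) (_ : Fintype ι) (A : ι → X.pt → ℂ) (b₀ : Cm 4 → ℂ),
      (∀ i, ∀ x ∈ V, X.Hol (A i) x) ∧ AnalyticAt ℂ b₀ 0 ∧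
      (¬ ∀ᶠ u : Cm 2 in 𝓝 0, b₀ (inc 3 (inc 2 u)) = 0) ∧
      (∀ f, X.Hol f p → ∃ ρ : ι → Cm 4 → ℂ, (∀ i, AnalyticAt ℂ (ρ i) 0) ∧
        ∀ᶠ y in 𝓝 p, b₀ (ctr G c y) * f y = ∑ i, ρ i (ctr G c y) * A i y) ∧
      (∀ ρ : ι → Cm 4 → ℂ, (∀ i, AnalyticAt ℂ (ρ i) 0) →
        (∀ᶠ y in 𝓝 p, ∑ i, ρ i (ctr G c y) * A i y = 0) → ∀ i, ∀ᶠ z in 𝓝 0, ρ i z = 0) := by
  let _ := algG h.toIsCov hp hpc
  obtain ⟨N, gf, hgf, ρ, hA⟩ := exists_algData hX hS hS2 h hp hpc hu hζ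
  obtain ⟨T, c₀, hc₀, hspan, hind⟩ := exists_basis hA
  obtain ⟨b₀, hb₀, rfl⟩ := exists_rep c₀
  let A : Option T → X.pt → ℂ := fun o => o.elim (fun _ => 1) (fun j => gf j)
  have hAV : ∀ o, ∀ x ∈ V, X.Hol (A o) x := by
    intro o x hx
    rcases o with _ | j
    · exact hol_const 1 x
    · exact hgf j x hx
  have hAf : ∀ o, fam (fun j => hmk (gf j) (hgf j p hp)) T o = hmk (A o) (hAV o p hp) := by
    intro o
    rcases o with _ | j
    · rfl
    · rfl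
  have hlc : ∀ (ρ : Option T → Cm 4 → ℂ) (hρ : ∀ i, AnalyticAt ℂ (ρ i) 0),
      ∃ hh, ∑ o, (mk (ρ o) (hρ o) : O (Cm 4)) • fam (fun j => hmk (gf j) (hgf j p hp)) T o =
        hmk (fun y => ∑ i, ρ i (ctr G c y) * A i y) hh := by
    intro ρ hρ
    have hh : ∀ i, X.Hol (fun y => ρ i (ctr G c y) * A i y) p := fun i =>
      hol_mul (hol_comp (f := fun i y => ctr G c y i) (G := ρ i) (ctr_hol h.toIsCov hp) (by
        have h1 : (fun i => ctr G c p i) = 0 := ctr_zero hpc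
        rw [h1]; exact hρ i)) (hAV i p hp)
    refine ⟨hol_sum _ fun i _ => hh i, ?_⟩
    rw [← hmk_sum Finset.univ _ hh]
    refine Finset.sum_congr rfl fun o _ => ?_
    rw [hAf, Algebra.smul_def]
    rfl
  refine ⟨Option T, inferInstance, A, b₀, hAV, hb₀, ?_, ?_, ?_⟩
  · intro h0
    apply hc₀
    show res 2 (res 3 (mk b₀ hb₀)) = 0
    unfold res
    rw [pull_mk, pull_mk, mk_eq_zero_iff]
    exact h0
  · intro f hf
    obtain ⟨ρ, hρ⟩ := hspan (hmk f hf)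
    choose R hR hR' using fun o => exists_rep (ρ o)
    refine ⟨R, hR, ?_⟩
    obtain ⟨hh, h1⟩ := hlc R hR
    have h2 : ∑ o, ρ o • fam (fun j => hmk (gf j) (hgf j p hp)) T o =
        ∑ o, (mk (R o) (hR o) : O (Cm 4)) • fam (fun j => hmk (gf j) (hgf j p hp)) T o :=
      Finset.sum_congr rfl fun o _ => by rw [hR']
    rw [h2, h1, Algebra.smul_def] at hρ
    exact (hmk_eq_iff _ _).1 hρ
  · intro R hR h0 i
    obtain ⟨hh, h1⟩ := hlc R hR
    have h2 := hind (fun o => mk (R o) (hR o)) (by rw [h1, hmk_eq_zero_iff]; exact h0) i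
    exact (mk_eq_zero_iff _).1 h2

end Vale.Agent.P277.H29
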