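import Vale.Agent.P277.H29.Fac4

/-!
# P277: change of coordinates in the weighted blow-up chart `bet g`
-/

set_option linter.unusedSectionVars false

open scoped Manifold ContDiff Topology
open Vale.Agent.P272.K Vale.Agent.P285.H281.FD Vale.Agent.P267.H175 Set Metric Filter
open Vale.Agent.P277.T3

noncomputable section

namespace Vale.Agent.P277.H29.FC

theorem bet_an {g : ℕ} (w : Cm 4) : AnalyticAt ℂ (bet g) w := by
  refine an_pi fun i => ?_
  fin_cases i
  · exact ((an_coord 0 w).pow g).mul (an_coord 1 w)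
  · exact an_coord 0 w
  · exact an_coord 2 w
  · exact an_coord 3 w

theorem det_bet {g : ℕ} (w : Cm 4) : (fderiv ℂ (bet g) w).det = -(w 0 ^ g) := by
  rw [det_eq_Jm, det4]
  · rw [Jm_apply (bet_an w).differentiableAt, Jm_apply (bet_an w).differentiableAt,
      Jm_apply (bet_an w).differentiableAt, Jm_apply (bet_an w).differentiableAt]
    show pd 0 (fun w : Cm 4 => w 0 ^ g * w 1) w * pd 1 (fun w : Cm 4 => w 0) w -
      pd 1 (fun w : Cm 4 => w 0 ^ g * w 1) w * pd 0 (fun w : Cm 4 => w 0) w = _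
    have h0 := (an_coord 0 w).differentiableAt
    rw [pd_mul (h0.fun_pow _) (an_coord 1 w).differentiableAt,
      pd_mul (h0.fun_pow _) (an_coord 1 w).differentiableAt, pd_pow h0, pd_pow h0, pd_coord,
      pd_coord, pd_coord, pd_coord]
    simp
  · intro j
    rw [Jm_apply (bet_an w).differentiableAt]
    exact pd_coord 2 j w
  · intro j
    rw [Jm_apply (bet_an w).differentiableAt]
    exact pd_coord 3 j w

/-- the set `{w 0 = 0}` is nowhere dense -/
theorem freq_ne {w : Cm 4} {P : Cm 4 → Prop} (h : ∀ᶠ z in 𝓝 w, P z) :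
    ∃ z, P z ∧ z 0 ≠ 0 := by
  by_contra hcon
  push Not at hcon
  have h1 : (1 : ℂ) = 0 := by
    refine eq_of_ne (w := w) (F := fun _ => (1 : ℂ)) (G := fun _ => 0) continuousAt_const
      continuousAt_const ?_
    filter_upwards [h] with z hz hz0
    exact absurd (hcon z hz) hz0
  exact one_ne_zero h1

/-- Lifting a local isomorphism through the weighted blow-up. -/
theorem bet_lift {Λ : Cm 4 → Cm 4} {g : ℕ} (hg : 1 ≤ g) {w₂ : Cm 4} (h0 : w₂ 0 = 0)
    (hΛ : LocIso Λ (bet g w₂)) (hH : ∀ᶠ z in 𝓝 (bet g w₂), Λ z 0 = 0 ↔ z 0 = 0)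
    (hV : ∀ᶠ z in 𝓝 (bet g w₂), z 0 = 0 → z 1 = 0 → Λ z 1 = 0)
    (hne : (if g = 1 then w₂ 1 * pd 0 (fun z => Λ z 1) (bet g w₂) else 0) +
      pd 1 (fun z => Λ z 1) (bet g w₂) ≠ 0) :
    ∃ χ : Cm 4 → Cm 4, LocIso χ w₂ ∧ (∀ᶠ w in 𝓝 w₂, χ w 0 = 0 ↔ w 0 = 0) ∧
      ∀ᶠ w in 𝓝 w₂, Λ (bet g w) = bet g (χ w) := by
  set z₂ := bet g w₂ with hz₂
  have hz0 : z₂ 0 = 0 := by
    show w₂ 0 ^ g * w₂ 1 = 0
    rw [h0, zero_pow (by omega), zero_mul]
  have hz1 : z₂ 1 = 0 := h0
  have hbt : Tendsto (bet g) (𝓝 w₂) (𝓝 z₂) := (bet_an w₂).continuousAt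
  -- `Λ 0 = z 0 * a`
  obtain ⟨a, ha, haΛ⟩ := H19.exists_div (an_comp_coord hΛ.1 0) hz0
    (hH.mono fun z h h' => h.2 h')
  have ha0 : a z₂ ≠ 0 := by
    intro ha0
    apply hΛ.2
    rw [det_eq_Jm]
    have h1 : ∀ j, Jm Λ z₂ 0 j = 0 := by
      intro j
      rw [Jm_apply hΛ.1.differentiableAt, pd_congr haΛ,
        pd_mul (an_coord 0 z₂).differentiableAt ha.differentiableAt, hz0, ha0]
      ring
    exact Matrix.det_eq_zero_of_row_eq_zero 0 h1
  -- `Λ 1 = z 0 * p + z 1 * q`
  set l : Cm 4 → ℂ := fun z => Λ z 1 with hl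
  have hla : AnalyticAt ℂ l z₂ := an_comp_coord hΛ.1 1
  set pr : Cm 4 → Cm 4 := fun z => ![0, z 1, z 2, z 3] with hpr
  have hpra : ∀ w, AnalyticAt ℂ pr w := by
    intro w
    refine an_pi fun i => ?_
    fin_cases i
    · exact analyticAt_const
    · exact an_coord 1 w
    · exact an_coord 2 w
    · exact an_coord 3 w
  have hprz : pr z₂ = z₂ := by
    funext i
    fin_cases i
    · exact hz0.symm
    · rfl
    · rfl
    · rfl
  have hprt : Tendsto pr (𝓝 z₂) (𝓝 z₂) := by
    have := (hpra z₂).continuousAt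
    rwa [ContinuousAt, hprz] at this
  have hlpr : AnalyticAt ℂ (fun z => l (pr z)) z₂ := by
    refine AnalyticAt.comp (g := l) ?_ (hpra z₂)
    rw [hprz]; exact hla
  obtain ⟨p, hp, hpl⟩ := H19.exists_div (f := fun z => l z - l (pr z)) (hla.sub hlpr) hz0
    (Eventually.of_forall fun z hz => by
      have : pr z = z := by
        funext i
        fin_cases i
        · exact hz.symm
        · rfl
        · rfl
        · rfl
      rw [this, sub_self])
  -- division by `z 1` through the swap of coordinates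
  set σ : Equiv.Perm (Fin 4) := Equiv.swap 0 1 with hσ
  have hswa : ∀ z : Cm 4, AnalyticAt ℂ (fun z : Cm 4 => fun k => z (σ k)) z := fun z =>
    an_pi fun k => an_coord (σ k) z
  have hsws : ∀ z : Cm 4, (fun k => (fun k => z (σ k)) (σ k)) = z := fun z => by
    funext k
    show z (σ (σ k)) = z k
    rw [hσ, Equiv.swap_apply_self]
  set z₃ : Cm 4 := fun k => z₂ (σ k) with hz₃
  have hσ0 : σ 0 = 1 := Equiv.swap_apply_left _ _
  have hσ1 : σ 1 = 0 := Equiv.swap_apply_right _ _
  have hz30 : z₃ 0 = 0 := by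
    show z₂ (σ 0) = 0
    rw [hσ0]; exact hz1
  have hlq : AnalyticAt ℂ (fun z : Cm 4 => l (pr fun k => z (σ k))) z₃ := by
    refine AnalyticAt.comp (g := fun z => l (pr z)) ?_ (hswa z₃)
    rw [show (fun k => z₃ (σ k)) = z₂ from hsws z₂]
    exact hlpr
  have hswt : Tendsto (fun z : Cm 4 => fun k => z (σ k)) (𝓝 z₃) (𝓝 z₂) := by
    have := (hswa z₃).continuousAt
    rwa [ContinuousAt, show (fun k => z₃ (σ k)) = z₂ from hsws z₂] at this
  have hswt' : Tendsto (fun z : Cm 4 => fun k => z (σ k)) (𝓝 z₂) (𝓝 z₃) :=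
    (hswa z₂).continuousAt
  obtain ⟨q', hq', hql'⟩ := H19.exists_div hlq hz30 (by
    filter_upwards [(hprt.comp hswt).eventually hV] with z hz hz0'
    refine hz rfl ?_
    show z (σ 1) = 0
    rw [hσ1]; exact hz0')
  set q : Cm 4 → ℂ := fun z => q' fun k => z (σ k) with hqdef
  have hq : AnalyticAt ℂ q z₂ := AnalyticAt.comp (g := q') hq' (hswa z₂)
  have hql : ∀ᶠ z in 𝓝 z₂, l (pr z) = z 1 * q z := by
    filter_upwards [hswt'.eventually hql'] with z hz
    rw [show (fun k => (fun k => z (σ k)) (σ k)) = z from hsws z] at hz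
    rw [hz]
    show z (σ 0) * _ = _
    rw [hσ0]
  have hlpq : ∀ᶠ z in 𝓝 z₂, l z = z 0 * p z + z 1 * q z := by
    filter_upwards [hpl, hql] with z h1 h2
    rw [← h2, ← h1]
    ring
  -- the unit
  set b : Cm 4 → ℂ := fun w => w 0 ^ (g - 1) * w 1 * p (bet g w) + q (bet g w) with hb
  have hba : AnalyticAt ℂ b w₂ :=
    ((((an_coord 0 w₂).pow _).mul (an_coord 1 w₂)).mul (AnalyticAt.comp (g := p) hp (bet_an w₂))).add
      (AnalyticAt.comp (g := q) hq (bet_an w₂))
  have hpd0 : pd 0 l z₂ = p z₂ := by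
    have h0' := (an_coord 0 z₂).differentiableAt
    have h1' := (an_coord 1 z₂).differentiableAt
    rw [pd_congr hlpq, pd_add (h0'.fun_mul hp.differentiableAt) (h1'.fun_mul hq.differentiableAt),
      pd_mul h0' hp.differentiableAt, pd_mul h1' hq.differentiableAt, pd_coord, pd_coord, hz0, hz1]
    simp
  have hpd1 : pd 1 l z₂ = q z₂ := by
    have h0' := (an_coord 0 z₂).differentiableAt
    have h1' := (an_coord 1 z₂).differentiableAt
    rw [pd_congr hlpq, pd_add (h0'.fun_mul hp.differentiableAt) (h1'.fun_mul hq.differentiableAt),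
      pd_mul h0' hp.differentiableAt, pd_mul h1' hq.differentiableAt, pd_coord, pd_coord, hz0, hz1]
    simp
  have hb0 : b w₂ ≠ 0 := by
    rw [hpd0, hpd1] at hne
    show w₂ 0 ^ (g - 1) * w₂ 1 * p z₂ + q z₂ ≠ 0
    by_cases hg1 : g = 1
    · rw [if_pos hg1] at hne
      rw [hg1]
      simpa using hne
    · rw [if_neg hg1] at hne
      rw [h0, zero_pow (by omega)]
      simpa using hne
  -- the lift
  set χ : Cm 4 → Cm 4 := fun w => ![w 0 * b w, w 1 * a (bet g w) / b w ^ g, Λ (bet g w) 2,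
    Λ (bet g w) 3] with hχ
  have hχa : AnalyticAt ℂ χ w₂ := by
    have hΛb : AnalyticAt ℂ (fun w => Λ (bet g w)) w₂ := AnalyticAt.comp (g := Λ) hΛ.1 (bet_an w₂)
    refine an_pi fun i => ?_
    fin_cases i
    · exact (an_coord 0 w₂).mul hba
    · exact (((an_coord 1 w₂).mul (AnalyticAt.comp (g := a) ha (bet_an w₂)))).div (hba.pow g)
        (pow_ne_zero _ hb0)
    · exact an_comp_coord hΛb 2
    · exact an_comp_coord hΛb 3
  have hbne : ∀ᶠ w in 𝓝 w₂, b w ≠ 0 := hba.continuousAt.eventually_ne hb0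
  have hfac : ∀ᶠ w in 𝓝 w₂, Λ (bet g w) = bet g (χ w) := by
    filter_upwards [hbt.eventually haΛ, hbt.eventually hlpq, hbne] with w h1 h2 h3
    funext k
    fin_cases k
    · show Λ (bet g w) 0 = (w 0 * b w) ^ g * (w 1 * a (bet g w) / b w ^ g)
      rw [h1]
      show (w 0 ^ g * w 1) * a (bet g w) = _
      rw [mul_pow]
      field_simp
    · show l (bet g w) = w 0 * b w
      rw [h2]
      show (w 0 ^ g * w 1) * p (bet g w) + w 0 * q (bet g w) = w 0 * b w
      have h4 : w 0 ^ g = w 0 * w 0 ^ (g - 1) := by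
        rw [← pow_succ']
        congr 1
        omega
      rw [h4, hb]
      ring
    · rfl
    · rfl
  refine ⟨χ, ⟨hχa, ?_⟩, ?_, hfac⟩
  · -- the determinant
    have hc1 : ContinuousAt (fun w => (fderiv ℂ χ w).det) w₂ :=
      (ContinuousLinearMap.continuous_det (𝕜 := ℂ) (E := Cm 4)).continuousAt.comp
        hχa.fderiv.continuousAt
    have hc2 : ContinuousAt (fun w => (fderiv ℂ Λ (bet g w)).det) w₂ :=
      ContinuousAt.comp (g := fun z => (fderiv ℂ Λ z).det)
        ((ContinuousLinearMap.continuous_det (𝕜 := ℂ) (E := Cm 4)).continuousAt.comp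
          hΛ.1.fderiv.continuousAt) (bet_an w₂).continuousAt
    have h1 : (fderiv ℂ Λ (bet g w₂)).det = b w₂ ^ g * (fderiv ℂ χ w₂).det := by
      refine eq_of_ne (F := fun w => (fderiv ℂ Λ (bet g w)).det)
        (G := fun w => b w ^ g * (fderiv ℂ χ w).det) hc2
        ((hba.pow g).continuousAt.mul hc1) ?_
      filter_upwards [hfac.eventually_nhds, hbt.eventually hΛ.1.eventually_analyticAt,
        hχa.eventually_analyticAt] with w k1 k2 k3 hw
      have k4 := det_comp' k2.differentiableAt (bet_an (g := g) w).differentiableAt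
      have k5 := det_comp' (φ := bet g) (θ := χ) (w := w) (bet_an (χ w)).differentiableAt
        k3.differentiableAt
      have k6 : (fun w => Λ (bet g w)) =ᶠ[𝓝 w] fun w => bet g (χ w) := k1
      rw [k6.fderiv_eq, k5, det_bet, det_bet] at k4
      have k7 : χ w 0 = w 0 * b w := rfl
      rw [k7, mul_pow] at k4
      refine mul_left_cancel₀ (pow_ne_zero g hw) ?_
      linear_combination k4
    intro hcon
    rw [hcon, mul_zero] at h1
    exact hΛ.2 h1
  · filter_upwards [hbne] with w hw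
    show w 0 * b w = 0 ↔ w 0 = 0
    simp [hw]

end Vale.Agent.P277.H29.FC
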