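import Vale.Agent.P277.H29.Eil
import Vale.Agent.P277.H285.E2
import Vale.Agent.P277.Stmts5

/-!
# P277, M1: closed forms are exact near thin compact sets
-/

set_option linter.unusedSectionVars false

open scoped Manifold ContDiff Topology
open Set Filter
open Vale.Agent.P267.H175 Vale.Agent.P272.K

noncomputable section

namespace Vale.Agent.P277.H29

section gen

variable {E : Type*} [NormedAddCommGroup E] [NormedSpace ℝ E] [FiniteDimensional ℝ E]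
variable {X : Type*} [TopologicalSpace X] [ChartedSpace E X] [IsManifold 𝓘(ℝ, E) ∞ X]

theorem ev_open {K : Set X} {P : X → Prop} (h : ∀ᶠ y in 𝓝ˢ K, P y) :
    ∃ U, IsOpen U ∧ K ⊆ U ∧ ∀ y ∈ U, P y := by
  obtain ⟨U, hU, hK, hP⟩ := mem_nhdsSet_iff_exists.1 h
  exact ⟨U, hU, hK, hP⟩

theorem ev_of_open {K U : Set X} {P : X → Prop} (hU : IsOpen U) (hK : K ⊆ U) (h : ∀ y ∈ U, P y) :
    ∀ᶠ y in 𝓝ˢ K, P y := mem_nhdsSet_iff_exists.2 ⟨U, hU, hK, h⟩

omit [FiniteDimensional ℝ E] [IsManifold 𝓘(ℝ, E) ∞ X] in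
theorem dF_ev_zero {k : ℕ} {γ : X → E [⋀^Fin k]→L[ℝ] ℝ} {x : X} (h : ∀ᶠ y in 𝓝 x, γ y = 0) :
    dF γ x = 0 := by
  have h1 : γ =ᶠ[𝓝 x] fun _ => 0 := h
  rw [dF_congr h1, H285.dF_zero']

variable [T2Space X] [LocallyCompactSpace X] [SigmaCompactSpace X]

theorem exists_cutM {K U : Set X} (hK : IsCompact K) (hU : IsOpen U) (hKU : K ⊆ U) :
    ∃ χ : X → ℝ, ContMDiff 𝓘(ℝ, E) 𝓘(ℝ, ℝ) ∞ χ ∧ (∀ᶠ x in 𝓝ˢ K, χ x = 1) ∧
      (∃ C ⊆ U, IsCompact C ∧ ∀ x ∉ C, χ x = 0) ∧ ∀ x, χ x ∈ Icc (0 : ℝ) 1 := by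
  obtain ⟨C, hC, hKC, hCU⟩ := exists_compact_between hK hU hKU
  obtain ⟨f, h1, h2, h3⟩ := exists_contMDiffMap_one_nhds_of_subset_interior (n := (⊤ : ℕ∞)) 𝓘(ℝ, E)
    hK.isClosed hKC
  exact ⟨f, f.contMDiff, h1, ⟨C, hCU, hC, h2⟩, h3⟩

theorem globalize {K L : Set X} (hK : IsCompact K) (hL : IsClosed L) {k : ℕ}
    {γ : X → E [⋀^Fin k]→L[ℝ] ℝ} (h : ∀ᶠ y in 𝓝ˢ K, SmAt γ y)
    (h0 : ∀ᶠ y in 𝓝ˢ (K ∩ L), γ y = 0) :
    ∃ γ' : X → E [⋀^Fin k]→L[ℝ] ℝ, (∀ y, SmAt γ' y) ∧ (∀ᶠ y in 𝓝ˢ K, γ' y = γ y) ∧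
      (∀ᶠ y in 𝓝ˢ L, γ' y = 0) ∧ ∃ C, IsCompact C ∧ ∀ y ∉ C, γ' y = 0 := by
  obtain ⟨U, hU, hKU, hUs⟩ := ev_open h
  obtain ⟨U₀, hU₀, hKU₀, hU₀s⟩ := ev_open h0
  have hO : IsOpen (U ∩ (Lᶜ ∪ U₀)) := hU.inter (hL.isOpen_compl.union hU₀)
  have hKO : K ⊆ U ∩ (Lᶜ ∪ U₀) := by
    intro x hx
    refine ⟨hKU hx, ?_⟩
    by_cases hxL : x ∈ L
    · exact Or.inr (hKU₀ ⟨hx, hxL⟩)
    · exact Or.inl hxL
  obtain ⟨χ, hχ, hχ1, ⟨C, hCU, hC, hχ0⟩, -⟩ := exists_cutM (E := E) hK hO hKO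
  have hz : ∀ x ∉ C, ∀ᶠ y in 𝓝 x, χ y • γ y = 0 := by
    intro x hx
    filter_upwards [hC.isClosed.isOpen_compl.mem_nhds hx] with y hy
    rw [hχ0 y hy, zero_smul]
  refine ⟨fun x => χ x • γ x, fun x => ?_, ?_, ?_, C, hC, fun y hy => by
    show χ y • γ y = 0
    rw [hχ0 y hy, zero_smul]⟩
  · by_cases hx : x ∈ C
    · exact smAt_fsmul (hχ x) (hUs x (hCU hx).1)
    · exact (smAt_zero x).congr (hz x hx)
  · filter_upwards [hχ1] with y hy
    rw [hy, one_smul]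
  · refine ev_of_open (U := Cᶜ ∪ U₀) (hC.isClosed.isOpen_compl.union hU₀) ?_ ?_
    · intro x hx
      by_cases hxC : x ∈ C
      · rcases (hCU hxC).2 with h | h
        · exact absurd hx h
        · exact Or.inr h
      · exact Or.inl hxC
    · rintro y (hy | hy)
      · show χ y • γ y = 0
        rw [hχ0 y hy, zero_smul]
      · show χ y • γ y = 0
        rw [hU₀s y hy, smul_zero]

omit [FiniteDimensional ℝ E] [IsManifold 𝓘(ℝ, E) ∞ X] [LocallyCompactSpace X] [SigmaCompactSpace X] in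
/-- gluing of two primitives -/
theorem glue2 {K₁ K₂ L : Set X} (hK₁ : IsCompact K₁) (hK₂ : IsCompact K₂) {k : ℕ}
    {a : X → E [⋀^Fin (k + 1)]→L[ℝ] ℝ} {α β η : X → E [⋀^Fin k]→L[ℝ] ℝ}
    (hα : ∀ᶠ y in 𝓝ˢ K₁, SmAt α y ∧ dF α y = a y) (hα0 : ∀ᶠ y in 𝓝ˢ (K₁ ∩ L), α y = 0)
    (hβ : ∀ᶠ y in 𝓝ˢ K₂, SmAt β y ∧ dF β y = a y) (hβ0 : ∀ᶠ y in 𝓝ˢ (K₂ ∩ L), β y = 0)
    (hη : ∀ y, SmAt η y) (hη' : ∀ y, dF η y = 0)
    (hηd : ∀ᶠ y in 𝓝ˢ (K₁ ∩ K₂), η y = α y - β y) (hη0 : ∀ᶠ y in 𝓝ˢ L, η y = 0) :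
    ∃ γ : X → E [⋀^Fin k]→L[ℝ] ℝ, (∀ᶠ y in 𝓝ˢ (K₁ ∪ K₂), SmAt γ y ∧ dF γ y = a y) ∧
      ∀ᶠ y in 𝓝ˢ ((K₁ ∪ K₂) ∩ L), γ y = 0 := by
  classical
  obtain ⟨U₁', hU₁', hK₁', h₁'⟩ := ev_open hα
  obtain ⟨U₂', hU₂', hK₂', h₂'⟩ := ev_open hβ
  obtain ⟨W, hW, hKW, hWs⟩ := ev_open hηd
  obtain ⟨A, B, hA, hB, hKA, hKB, hAB⟩ := SeparatedNhds.of_isCompact_isCompact (hK₁.diff hW) hK₂ (by
    rw [disjoint_left]
    rintro x ⟨hx1, hx2⟩ hx3
    exact hx2 (hKW ⟨hx1, hx3⟩))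
  set U₁ := (A ∪ W) ∩ U₁' with hU₁
  set U₂ := B ∩ U₂' with hU₂
  have hU₁o : IsOpen U₁ := (hA.union hW).inter hU₁'
  have hU₂o : IsOpen U₂ := hB.inter hU₂'
  have hK₁U : K₁ ⊆ U₁ := by
    intro x hx
    refine ⟨?_, hK₁' hx⟩
    by_cases hxW : x ∈ W
    · exact Or.inr hxW
    · exact Or.inl (hKA ⟨hx, hxW⟩)
  have hK₂U : K₂ ⊆ U₂ := fun x hx => ⟨hKB hx, hK₂' hx⟩
  have hUW : ∀ x ∈ U₁, x ∈ U₂ → x ∈ W := by
    rintro x ⟨hx1 | hx1, -⟩ ⟨hx2, -⟩
    · exact absurd hx2 (disjoint_left.1 hAB hx1)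
    · exact hx1
  set γ : X → E [⋀^Fin k]→L[ℝ] ℝ := fun x => if x ∈ U₁ then α x + (-1 : ℝ) • η x else β x with hγ
  have hγ1 : ∀ x ∈ U₁, γ =ᶠ[𝓝 x] α + (-1 : ℝ) • η := by
    intro x hx
    filter_upwards [hU₁o.mem_nhds hx] with y hy
    exact if_pos hy
  have hγ2 : ∀ x ∈ U₂, γ =ᶠ[𝓝 x] β := by
    intro x hx
    filter_upwards [hU₂o.mem_nhds hx] with y hy
    by_cases hy1 : y ∈ U₁
    · have h1 : γ y = α y + (-1 : ℝ) • η y := if_pos hy1
      rw [h1, hWs y (hUW y hy1 hy), H285.neg1]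
      abel
    · exact if_neg hy1
  have hs1 : ∀ x ∈ U₁, SmAt γ x ∧ dF γ x = a x := by
    intro x hx
    have h1 := h₁' x hx.2
    refine ⟨(h1.1.add ((hη x).smul (-1))).congr (hγ1 x hx), ?_⟩
    rw [dF_congr (hγ1 x hx), dF_add h1.1 ((hη x).smul (-1)), dF_smul, hη' x, smul_zero, add_zero,
      h1.2]
  have hs2 : ∀ x ∈ U₂, SmAt γ x ∧ dF γ x = a x := by
    intro x hx
    have h1 := h₂' x hx.2
    exact ⟨h1.1.congr (hγ2 x hx), by rw [dF_congr (hγ2 x hx), h1.2]⟩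
  refine ⟨γ, ?_, ?_⟩
  · refine ev_of_open (hU₁o.union hU₂o) (union_subset_union hK₁U hK₂U) ?_
    rintro y (hy | hy)
    · exact hs1 y hy
    · exact hs2 y hy
  · rw [union_inter_distrib_right, nhdsSet_union, eventually_sup]
    constructor
    · have h3 : ∀ᶠ y in 𝓝ˢ (K₁ ∩ L), η y = 0 := hη0.filter_mono (nhdsSet_mono inter_subset_right)
      have h4 : ∀ᶠ y in 𝓝ˢ (K₁ ∩ L), y ∈ U₁ :=
        ev_of_open hU₁o (inter_subset_left.trans hK₁U) fun y hy => hy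
      filter_upwards [hα0, h3, h4] with y h5 h6 h7
      have h1 : γ y = α y + (-1 : ℝ) • η y := if_pos h7
      rw [h1, h5, h6, smul_zero, add_zero]
    · have h4 : ∀ᶠ y in 𝓝ˢ (K₂ ∩ L), y ∈ U₂ :=
        ev_of_open hU₂o (inter_subset_left.trans hK₂U) fun y hy => hy
      filter_upwards [hβ0, h4] with y h5 h7
      rw [(hγ2 y h7).self_of_nhds, h5]

/-- **Exactness near sets of small inductive dimension.** -/
theorem thin_aux : ∀ (s : ℕ) {K L : Set X}, IsCompact K → Ind s K → IsClosed L → ∀ {k : ℕ},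
    s ≤ k + 1 → ∀ {a : X → E [⋀^Fin (k + 1)]→L[ℝ] ℝ}, (∀ᶠ y in 𝓝ˢ K, SmAt a y ∧ dF a y = 0) →
    (∀ᶠ y in 𝓝ˢ (K ∩ L), a y = 0) → ∃ γ : X → E [⋀^Fin k]→L[ℝ] ℝ, (∀ y, SmAt γ y) ∧
      (∀ᶠ y in 𝓝ˢ K, dF γ y = a y) ∧ (∀ᶠ y in 𝓝ˢ L, γ y = 0) ∧
      ∃ C, IsCompact C ∧ ∀ y ∉ C, γ y = 0
  | 0, K, L, _, h, _, k, _, a, _, _ => by
    have h' : K = ∅ := h
    refine ⟨0, fun y => smAt_zero y, ?_, Eventually.of_forall fun y => rfl, ∅, isCompact_empty,
      fun y _ => rfl⟩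
    rw [h', nhdsSet_empty]
    exact eventually_bot
  | s + 1, K, L, hK, h, hL, k, hsk, a, ha, ha0 => by
    classical
    obtain ⟨U, hU, hKU, hUs⟩ := ev_open ha
    obtain ⟨U₀, hU₀, hKU₀, hU₀s⟩ := ev_open ha0
    -- local primitives
    have key : ∀ x ∈ K, ∃ (V : Set X) (β : X → E [⋀^Fin k]→L[ℝ] ℝ), IsOpen V ∧ x ∈ V ∧
        Ind s (K ∩ frontier V) ∧ (∀ᶠ y in 𝓝ˢ (K ∩ closure V), SmAt β y ∧ dF β y = a y) ∧
        ∀ᶠ y in 𝓝ˢ (K ∩ closure V ∩ L), β y = 0 := by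
      intro x hx
      by_cases hxL : x ∈ L
      · obtain ⟨V, h1, h2, h3, h4⟩ := h x hx U₀ (hU₀.mem_nhds (hKU₀ ⟨hx, hxL⟩))
        refine ⟨V, 0, h1, h2, h4, ?_, Eventually.of_forall fun y => rfl⟩
        refine ev_of_open hU₀ (inter_subset_right.trans h3) fun y hy => ⟨smAt_zero y, ?_⟩
        rw [hU₀s y hy]
        exact dF_ev_zero (Eventually.of_forall fun _ => rfl)
      · -- a chart ball
        have hO : IsOpen (U ∩ Lᶜ) := hU.inter hL.isOpen_compl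
        set e := chartAt E x
        have hxe : x ∈ e.source := mem_chart_source E x
        have h1 : e.target ∩ e.symm ⁻¹' (U ∩ Lᶜ) ∈ 𝓝 (e x) := by
          refine (e.symm.isOpen_inter_preimage hO).mem_nhds ⟨e.map_source hxe, ?_⟩
          rw [mem_preimage, e.left_inv hxe]
          exact ⟨hKU hx, hxL⟩
        obtain ⟨R, hR, hRs⟩ := Metric.mem_nhds_iff.1 h1
        set B := e.symm '' Metric.ball (e x) R
        have hBo : IsOpen B := e.symm.isOpen_image_of_subset_source Metric.isOpen_ball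
          fun z hz => (hRs hz).1
        have hBe : B ⊆ e.source := by
          rintro _ ⟨z, hz, rfl⟩
          exact e.map_target (hRs hz).1
        have hBU : B ⊆ U ∩ Lᶜ := by
          rintro _ ⟨z, hz, rfl⟩
          exact (hRs hz).2
        have hBi : e '' B = Metric.ball (e x) R := by
          ext z
          constructor
          · rintro ⟨_, ⟨w, hw, rfl⟩, rfl⟩
            rwa [e.right_inv (hRs hw).1]
          · intro hz
            exact ⟨e.symm z, ⟨z, hz, rfl⟩, e.right_inv (hRs hz).1⟩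
        have hxB : x ∈ B := ⟨e x, Metric.mem_ball_self hR, e.left_inv hxe⟩
        obtain ⟨β, hβ1, hβ2⟩ := exists_prim (chart_mem_atlas E x) hBo hBe
          (by rw [hBi]; exact convex_ball _ _) (a := a) (fun y hy => (hUs y (hBU hy).1).1)
          (fun y hy => (hUs y (hBU hy).1).2)
        obtain ⟨V, h2, h3, h4, h5⟩ := h x hx B (hBo.mem_nhds hxB)
        refine ⟨V, β, h2, h3, h5, ev_of_open hBo (inter_subset_right.trans h4) fun y hy =>
          ⟨hβ1 y hy, hβ2 y hy⟩, ?_⟩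
        have h6 : K ∩ closure V ∩ L = ∅ := by
          rw [eq_empty_iff_forall_notMem]
          rintro y ⟨⟨-, hy⟩, hyL⟩
          exact (hBU (h4 hy)).2 hyL
        rw [h6, nhdsSet_empty]
        exact eventually_bot
    choose! V β hV1 hV2 hV3 hV4 hV5 using key
    obtain ⟨t, htK, ht⟩ := hK.elim_nhds_subcover V fun x hx => (hV1 x hx).mem_nhds (hV2 x hx)
    -- induction over the cover
    have hind : ∀ t : Finset X, (∀ x ∈ t, x ∈ K) → ∃ γ : X → E [⋀^Fin k]→L[ℝ] ℝ,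
        (∀ᶠ y in 𝓝ˢ (K ∩ ⋃ x ∈ t, closure (V x)), SmAt γ y ∧ dF γ y = a y) ∧
        ∀ᶠ y in 𝓝ˢ ((K ∩ ⋃ x ∈ t, closure (V x)) ∩ L), γ y = 0 := by
      intro t
      induction t using Finset.induction_on with
      | empty =>
        intro _
        refine ⟨0, ?_, Eventually.of_forall fun y => rfl⟩
        simp only [Finset.notMem_empty, iUnion_of_empty, iUnion_empty, inter_empty, nhdsSet_empty]
        exact eventually_bot
      | insert j t hj ih =>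
        intro hjt
        obtain ⟨α, hα, hα0⟩ := ih fun x hx => hjt x (Finset.mem_insert_of_mem hx)
        have hjK : j ∈ K := hjt j (Finset.mem_insert_self _ _)
        have hclT : IsClosed (⋃ x ∈ t, closure (V x)) :=
          t.finite_toSet.isClosed_biUnion fun x _ => isClosed_closure
        have hK₁ : IsCompact ((K ∩ ⋃ x ∈ t, closure (V x)) \ V j) :=
          (hK.inter_right hclT).diff (hV1 j hjK)
        have hK₂ : IsCompact (K ∩ closure (V j)) := hK.inter_right isClosed_closure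
        have hα' : ∀ᶠ y in 𝓝ˢ ((K ∩ ⋃ x ∈ t, closure (V x)) \ V j), SmAt α y ∧ dF α y = a y :=
          hα.filter_mono (nhdsSet_mono sdiff_subset)
        have hα0' : ∀ᶠ y in 𝓝ˢ (((K ∩ ⋃ x ∈ t, closure (V x)) \ V j) ∩ L), α y = 0 :=
          hα0.filter_mono (nhdsSet_mono (inter_subset_inter_left _ sdiff_subset))
        set K₁ := (K ∩ ⋃ x ∈ t, closure (V x)) \ V j with hK₁d
        set K₂ := K ∩ closure (V j) with hK₂d
        have hfr : Ind s (K₁ ∩ K₂) := by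
          refine (hV3 j hjK).mono ?_
          rintro y ⟨⟨⟨hy1, -⟩, hy2⟩, -, hy3⟩
          refine ⟨hy1, ?_⟩
          rw [(hV1 j hjK).frontier_eq]
          exact ⟨hy3, hy2⟩
        -- the correction
        have hη : ∃ η : X → E [⋀^Fin k]→L[ℝ] ℝ, (∀ y, SmAt η y) ∧ (∀ y, dF η y = 0) ∧
            (∀ᶠ y in 𝓝ˢ (K₁ ∩ K₂), η y = α y - β j y) ∧ ∀ᶠ y in 𝓝ˢ L, η y = 0 := by
          rcases k with _ | k
          · have hs0 : s = 0 := by omega
            subst hs0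
            have h7 : K₁ ∩ K₂ = ∅ := hfr
            refine ⟨0, fun y => smAt_zero y, fun y => dF_ev_zero (Eventually.of_forall fun _ => rfl),
              ?_, Eventually.of_forall fun y => rfl⟩
            rw [h7, nhdsSet_empty]
            exact eventually_bot
          · have h8 : ∀ᶠ y in 𝓝ˢ (K₁ ∩ K₂), SmAt α y ∧ dF α y = a y :=
              hα'.filter_mono (nhdsSet_mono inter_subset_left)
            have h9 : ∀ᶠ y in 𝓝ˢ (K₁ ∩ K₂), SmAt (β j) y ∧ dF (β j) y = a y :=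
              (hV4 j hjK).filter_mono (nhdsSet_mono inter_subset_right)
            obtain ⟨ξ, hξ1, hξ2, hξ3, C, hC, hξ4⟩ := thin_aux s (L := L) (hK₁.inter hK₂) hfr hL
              (k := k) (by omega) (a := α + (-1 : ℝ) • β j) (by
                filter_upwards [h8, h9] with y h8 h9
                refine ⟨h8.1.add (h9.1.smul (-1)), ?_⟩
                rw [dF_add h8.1 (h9.1.smul (-1)), dF_smul, h8.2, h9.2, H285.neg1]
                abel) (by
                have h10 : ∀ᶠ y in 𝓝ˢ (K₁ ∩ K₂ ∩ L), α y = 0 :=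
                  hα0'.filter_mono (nhdsSet_mono (inter_subset_inter_left _ inter_subset_left))
                have h11 : ∀ᶠ y in 𝓝ˢ (K₁ ∩ K₂ ∩ L), β j y = 0 :=
                  (hV5 j hjK).filter_mono (nhdsSet_mono (inter_subset_inter_left _
                    inter_subset_right))
                filter_upwards [h10, h11] with y h10 h11
                show α y + (-1 : ℝ) • β j y = 0
                rw [h10, h11, smul_zero, add_zero])
            refine ⟨dF ξ, fun y => smAt_dF isOpen_univ (fun y _ => hξ1 y) (mem_univ y),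
              fun y => dF_dF isOpen_univ (fun y _ => hξ1 y) (mem_univ y), ?_, ?_⟩
            · filter_upwards [hξ2] with y hy
              rw [hy, Pi.add_apply, Pi.smul_apply, H285.neg1]
              abel
            · obtain ⟨N, hN, hLN, hNs⟩ := ev_open hξ3
              refine ev_of_open hN hLN fun y hy => dF_ev_zero ?_
              filter_upwards [hN.mem_nhds hy] with w hw using hNs w hw
        obtain ⟨η, hη1, hη2, hη3, hη4⟩ := hη
        obtain ⟨γ, hγ1, hγ2⟩ := glue2 (a := a) hK₁ hK₂ hα' hα0' (hV4 j hjK) (hV5 j hjK) hη1 hη2 hη3 hη4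
        have hun : K ∩ ⋃ x ∈ insert j t, closure (V x) ⊆ K₁ ∪ K₂ := by
          rintro y ⟨hyK, hy⟩
          simp only [Finset.mem_insert, iUnion_iUnion_eq_or_left, mem_union] at hy
          by_cases hyj : y ∈ closure (V j)
          · exact Or.inr ⟨hyK, hyj⟩
          · refine Or.inl ⟨⟨hyK, hy.resolve_left hyj⟩, fun hyV => hyj (subset_closure hyV)⟩
        exact ⟨γ, hγ1.filter_mono (nhdsSet_mono hun),
          hγ2.filter_mono (nhdsSet_mono (inter_subset_inter_left _ hun))⟩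
    obtain ⟨γ, hγ1, hγ2⟩ := hind t htK
    have hKt : K ∩ ⋃ x ∈ t, closure (V x) = K := by
      refine inter_eq_left.2 (ht.trans (iUnion₂_mono fun x _ => subset_closure))
    rw [hKt] at hγ1 hγ2
    obtain ⟨γ', h1, h2, h3, h4⟩ := globalize hK hL (hγ1.mono fun y hy => hy.1) hγ2
    refine ⟨γ', h1, ?_, h3, h4⟩
    obtain ⟨N, hN, hKN, hNs⟩ := ev_open (h2.and hγ1)
    refine ev_of_open hN hKN fun y hy => ?_
    have h5 : γ' =ᶠ[𝓝 y] γ := by
      filter_upwards [hN.mem_nhds hy] with w hw using (hNs w hw).1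
    rw [dF_congr h5, (hNs y hy).2.2]

end gen

/-- **(M1).** -/
theorem stThinLem : StThinLem := by
  intro M _ _ _ _ _ s k hsk K L hK hL hLK hN a ha ha0
  have : LocallyCompactSpace M := ChartedSpace.locallyCompactSpace (Cm 4) M
  have hInd : Ind s K := by
    refine ind_of_local fun x hx => ?_
    have h1 := hN (chartAt (Cm 4) x) (chart_mem_atlas _ _)
    have h2 := Ind.transport (chartAt (Cm 4) x) (ind_of_hausdorff s h1)
    refine ⟨(chartAt (Cm 4) x).source, (chartAt (Cm 4) x).open_source.mem_nhds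
      (mem_chart_source _ x), h2.mono ?_⟩
    rintro y ⟨hyK, hy⟩
    exact ⟨chartAt (Cm 4) x y, ⟨⟨y, ⟨hyK, hy⟩, rfl⟩, (chartAt (Cm 4) x).map_source hy⟩,
      (chartAt (Cm 4) x).left_inv hy⟩
  obtain ⟨γ, h1, h2, h3, h4⟩ := thin_aux (E := Cm 4) s hK hInd hL hsk ha
    (ha0.filter_mono (nhdsSet_mono inter_subset_right))
  exact ⟨γ, h1, h2, h3, h4⟩

end Vale.Agent.P277.H29
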