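import Vale.Agent.P277.Stmts16

/-!
# P277, T4: the sets `N j` are closed
-/

set_option linter.unusedSectionVars false

open scoped Manifold ContDiff Topology
open Vale.Agent.P272.K Vale.Agent.P285.H281.FD Vale.Agent.P267.H175 Set Metric Filter

noncomputable section

namespace Vale.Agent.P277.T3

variable {Y : Type} [TopologicalSpace Y] [T2Space Y] [CompactSpace Y] [ChartedSpace (Cm 4) Y]
  {χ : Chart 4 Y → Cm 4 → Matrix (Fin 4) (Fin 4) ℂ} {k s : ℕ} {M : Fin (k + s) → Bd Y}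
  {m : Fin (k + s) → ℕ} {ρ : Fin (k + s) → ℝ} {H : Fin s → Type} [∀ i, TopologicalSpace (H i)]
  [∀ i, CompactSpace (H i)] [∀ i, ChartedSpace (Cm 3) (H i)] {ι : ∀ i, H i → Y}
  {sg : ∀ i : Fin s, (M (Fin.natAdd k i)).ι → Y → ℂ} {W : CSp} {X Z : ℕ → CSp} {r : ℕ}
  {v₀ : Y → W.pt} {p : W.pt → (X 0).pt} {P : Bd W.pt} {G : Fin r → Set Y}
  {f : ∀ j, (X j).pt → (Z j).pt} {f' : ∀ j, (X (j + 1)).pt → (Z j).pt}
  {A : ∀ j, Set (Z j).pt} {L : ∀ j, Fin (k + s) → Bd (X j).pt} {c : ℕ → Fin (k + s) → ℕ}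
  {σ : ∀ j, ∀ i : Fin s, (L j (Fin.natAdd k i)).ι → (X j).pt → ℂ}
  {n : Fin (k + s) → Fin r → ℤ} {t : ∀ e, (L 0 e).ι →
    ((((Bd.can 4 Y).pow (m e)).mul (M e)).pow (c 0 e)).ι → Y → ℂ}
  {I : Set (Fin r)} {I' : Set (Fin s)} {N : ∀ j, Set (X j).pt}

/-- the set `bad` is closed -/
theorem isClosed_bad (hG : ∀ l, IsClosed (G l)) (hι : ∀ i, Continuous (ι i)) :
    IsClosed (bad ι G I I') := by
  refine IsClosed.union ?_ ?_
  · exact (toFinite I).isClosed_biUnion fun l _ => hG l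
  · exact (toFinite I').isClosed_biUnion fun i _ => (isCompact_range (hι i)).isClosed

theorem IsPN.isClosed_bad (h : IsPN χ M m ρ ι sg v₀ p P G f f' A L c σ n t I I' N) :
    IsClosed (bad ι G I I') :=
  T3.isClosed_bad h.res.closed fun i => (h.bd i).sub.cont

/-- the sets `N j` are closed -/
theorem IsPN.isClosed (h : IsPN χ M m ρ ι sg v₀ p P G f f' A L c σ n t I I' N) (j : ℕ) :
    IsClosed (N j) := by
  induction j with
  | zero =>
    rw [h.N0]
    have h1 : Continuous fun y => p (v₀ y) :=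
      h.res.cont.comp (continuousOn_univ.1 h.res.emb.cont)
    exact (h.isClosed_bad.isCompact.image h1).isClosed
  | succ j ih =>
    rw [h.Nsucc j]
    exact ((ih.isCompact.image (h.flip j).flip.small.cont).isClosed).preimage
      (h.flip j).flip.small'.cont

end Vale.Agent.P277.T3
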