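import Vale.Agent.P277.H29.Ad1

/-!
# P277, T3: the classification of wedges (A4)
-/

set_option linter.unusedSectionVars false

open scoped Manifold ContDiff Topology
open Vale.Agent.P272.K Vale.Agent.P285.H281.FD Vale.Agent.P267.H175 Set Metric Filter
open Vale.Agent.P277.T3

noncomputable section

namespace Vale.Agent.P277.H29.FC

open Vale.Agent.P277.H615 Vale.Agent.P277.T2

theorem an_detf {f : Cm 4 → Cm 4} {w : Cm 4} (h : AnalyticAt ℂ f w) :
    AnalyticAt ℂ (fun w => (fderiv ℂ f w).det) w := by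
  have h1 : ∀ i j, AnalyticAt ℂ (fun w => fderiv ℂ f w (Pi.single j 1) i) w := by
    intro i j
    have h2 := ((ContinuousLinearMap.apply ℂ (Cm 4) (Pi.single j 1 : Cm 4)).analyticAt _).comp
      h.fderiv
    exact analyticAt_pi_iff.1 h2 i
  have h3 := an_det (M := fun w i j => fderiv ℂ f w (Pi.single j 1) i) h1
  refine h3.congr (Eventually.of_forall fun z => ?_)
  exact (det_eq_Jm f z).symm

variable {Y : Type} [TopologicalSpace Y] [ChartedSpace (Cm 4) Y] {G : Set Y}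
  {ξ : Cm 4 → Y} {c : Cm 4} {r : ℝ}

/-- lifting a map through a local coordinate system -/
theorem par_lift (h : IsPar G ξ c r) {γ : Cm 4 → Y} {w₂ : Cm 4} (hγ : ContinuousAt γ w₂)
    (heq : γ w₂ = ξ c) {e : Chart 4 Y} (he : At e (γ w₂))
    (han : AnalyticAt ℂ (fun w => e (γ w)) w₂) :
    ∃ (δ : Cm 4 → Cm 4) (κ : Cm 4 → ℂ), AnalyticAt ℂ δ w₂ ∧ δ w₂ = c ∧
      (∀ᶠ w in 𝓝 w₂, ξ (δ w) = γ w) ∧ AnalyticAt ℂ κ w₂ ∧ κ w₂ ≠ 0 ∧
      ∀ᶠ w in 𝓝 w₂, (fderiv ℂ δ w).det = κ w * (fderiv ℂ (fun w => e (γ w)) w).det := by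
  have hc : c ∈ ball c r := mem_ball_self h.pos
  have he' : At e (ξ c) := heq ▸ he
  have hφ : LocIso (fun z => e (ξ z)) c := h.an c hc e he'
  obtain ⟨θ, h1, h2, h3, h4⟩ := exists_inv hφ
  have h1a : AnalyticAt ℂ θ (e (γ w₂)) := by
    have := h1.1
    rw [← heq] at this
    exact this
  have hδ : AnalyticAt ℂ (fun w => θ (e (γ w))) w₂ :=
    AnalyticAt.fun_comp (g := θ) (f := fun w => e (γ w)) h1a han
  have ht : Tendsto (fun w => e (γ w)) (𝓝 w₂) (𝓝 (e (ξ c))) := by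
    have := han.continuousAt.tendsto
    rwa [heq] at this
  have hδ0 : θ (e (γ w₂)) = c := by rw [heq]; exact h2
  have hδt : Tendsto (fun w => θ (e (γ w))) (𝓝 w₂) (𝓝 c) := by
    have := hδ.continuousAt.tendsto
    rwa [hδ0] at this
  have hs1 : ∀ᶠ w in 𝓝 w₂, γ w ∈ e.source := hγ.eventually_mem (e.open_source.mem_nhds he.2)
  have hs2 : ∀ᶠ w in 𝓝 w₂, ξ (θ (e (γ w))) ∈ e.source :=
    ((h.cont c hc).tendsto.comp hδt).eventually (e.open_source.mem_nhds he'.2)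
  refine ⟨fun w => θ (e (γ w)), fun w => (fderiv ℂ θ (e (γ w))).det, hδ, hδ0, ?_, ?_, ?_, ?_⟩
  · filter_upwards [hs1, hs2, ht.eventually h4] with w k1 k2 k3
    exact e.injOn k2 k1 k3
  · exact AnalyticAt.fun_comp (g := fun s => (fderiv ℂ θ s).det) (f := fun w => e (γ w))
      (an_detf h1a) han
  · have := h1.2
    show (fderiv ℂ θ (e (γ w₂))).det ≠ 0
    rw [heq]
    exact this
  · have ht' : Tendsto (fun w => e (γ w)) (𝓝 w₂) (𝓝 (e (γ w₂))) := han.continuousAt.tendsto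
    filter_upwards [ht'.eventually h1a.eventually_analyticAt, han.eventually_analyticAt]
      with w k1 k2
    exact det_comp' (φ := θ) (θ := fun w => e (γ w)) k1.differentiableAt k2.differentiableAt

/-- changing a local coordinate system by a local isomorphism preserving the hyperplane -/
theorem par_comp (h : IsPar G ξ c r) {Φ : Cm 4 → Cm 4} {d : Cm 4} (hd : d 0 = 0)
    (hΦ : LocIso Φ d) (hΦd : Φ d ∈ ball c r) (hH : ∀ᶠ z in 𝓝 d, Φ z 0 = 0 ↔ z 0 = 0)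
    {P : Cm 4 → Prop} (hP : ∀ᶠ z in 𝓝 d, P z) :
    ∃ s > 0, IsPar G (fun z => ξ (Φ z)) d s ∧ ∀ z ∈ ball d s, P z := by
  obtain ⟨θ, h1, h2, h3, h4⟩ := exists_inv hΦ
  have ht : Tendsto Φ (𝓝 d) (𝓝 (Φ d)) := hΦ.1.continuousAt
  have hdet : ∀ᶠ z in 𝓝 d, (fderiv ℂ Φ z).det ≠ 0 :=
    (an_detf hΦ.1).continuousAt.eventually_ne hΦ.2
  obtain ⟨s, hs, hall⟩ := Metric.eventually_nhds_iff_ball.1
    (h3.and ((hP.and hH).and ((hΦ.1.eventually_analyticAt.and hdet).and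
      (ht.eventually (isOpen_ball.mem_nhds hΦd)))))
  refine ⟨s, hs, ?_, fun z hz => (hall z hz).2.1.1⟩
  have hcont : ContinuousOn Φ (ball d s) := fun z hz =>
    (hall z hz).2.2.1.1.continuousAt.continuousWithinAt
  refine ⟨hs, hd, ?_, ?_, ?_, ?_, ?_⟩
  · intro z hz z' hz' hzz
    have := h.inj (hall z hz).2.2.2 (hall z' hz').2.2.2 hzz
    rw [← (hall z hz).1, ← (hall z' hz').1]
    exact congrArg θ this
  · intro U hU hUo
    have h5 : IsOpen (Φ '' U) := by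
      rw [isOpen_iff_mem_nhds]
      rintro _ ⟨z, hz, rfl⟩
      have hl : LocIso Φ z := (hall z (hU hz)).2.2.1
      exact locIso_nhds hl (hUo.mem_nhds hz)
    have h6 : Φ '' U ⊆ ball c r := by
      rintro _ ⟨z, hz, rfl⟩
      exact (hall z (hU hz)).2.2.2
    have h7 := h.openMap _ h6 h5
    rwa [image_image] at h7
  · intro z hz
    exact (h.cont _ (hall z hz).2.2.2).comp (f := Φ) (hall z hz).2.2.1.1.continuousAt
  · intro z hz e he
    obtain ⟨k1, k2⟩ := h.an _ (hall z hz).2.2.2 e he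
    have k3 := (hall z hz).2.2.1
    refine ⟨AnalyticAt.fun_comp (g := fun z => e (ξ z)) (f := Φ) k1 k3.1, ?_⟩
    rw [det_comp' (φ := fun z => e (ξ z)) (θ := Φ) k1.differentiableAt k3.1.differentiableAt]
    exact mul_ne_zero k2 k3.2
  · intro z hz
    rw [h.mem _ (hall z hz).2.2.2]
    exact (hall z hz).2.1.2

/-- a local equation in a local coordinate system -/
theorem leq_par [T2Space Y] [IsManifold 𝓘(ℂ, Cm 4) ω Y] (h : IsPar G ξ c r) {ζ : Y → ℂ}
    (hζ : IsLEq G (ξ c) ζ) : ∃ a : Cm 4 → ℂ, AnalyticAt ℂ a c ∧ a c ≠ 0 ∧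
      ∀ᶠ z in 𝓝 c, ζ (ξ z) = z 0 * a z := by
  have hc : c ∈ ball c r := mem_ball_self h.pos
  set e : Chart 4 Y := chartAt (Cm 4) (ξ c) with hedef
  have he : At e (ξ c) := ⟨chart_mem_atlas (Cm 4) _, mem_chart_source (Cm 4) _⟩
  obtain ⟨k1, k2⟩ := h.an c hc e he
  obtain ⟨k3, k4⟩ := hζ.2 e he
  have hsrc : ∀ᶠ z in 𝓝 c, ξ z ∈ e.source := (h.cont c hc).eventually_mem
    (e.open_source.mem_nhds he.2)
  have hco : (fun z => ζ (e.symm (e (ξ z)))) =ᶠ[𝓝 c] fun z => ζ (ξ z) := by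
    filter_upwards [hsrc] with z hz
    rw [e.left_inv hz]
  have han : AnalyticAt ℂ (fun z => ζ (ξ z)) c :=
    (AnalyticAt.fun_comp (g := fun s => ζ (e.symm s)) (f := fun z => e (ξ z)) k3 k1).congr hco
  have hz : ∀ᶠ z in 𝓝 c, z 0 = 0 → ζ (ξ z) = 0 := by
    have h5 := (h.cont c hc).tendsto.eventually hζ.1
    filter_upwards [h5, isOpen_ball.mem_nhds hc] with z g1 g2 g3
    exact g1.2 ((h.mem z g2).2 g3)
  obtain ⟨a, ha, haz⟩ := H19.exists_div han h.zero hz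
  refine ⟨a, ha, fun ha0 => ?_, haz⟩
  have hζ0 : ζ (ξ c) = 0 := hz.self_of_nhds h.zero
  apply k4 hζ0
  -- the derivative of `ζ ∘ ξ` vanishes
  have hd : fderiv ℂ (fun z => ζ (ξ z)) c = 0 := by
    have h6 : HasFDerivAt (fun z : Cm 4 => z 0 * a z)
        (c 0 • fderiv ℂ a c + a c • (ContinuousLinearMap.proj (R := ℂ)
          (φ := fun _ : Fin 4 => ℂ) 0)) c :=
      (ContinuousLinearMap.proj (R := ℂ) (φ := fun _ : Fin 4 => ℂ) 0).hasFDerivAt.mul
        ha.differentiableAt.hasFDerivAt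
    rw [Filter.EventuallyEq.fderiv_eq haz, h6.fderiv, h.zero, ha0]
    refine ContinuousLinearMap.ext fun v => ?_
    show (0 : ℂ) * _ + (0 : ℂ) * _ = 0
    ring
  have hcomp : fderiv ℂ (fun z => ζ (ξ z)) c =
      (fderiv ℂ (fun s => ζ (e.symm s)) (e (ξ c))).comp (fderiv ℂ (fun z => e (ξ z)) c) := by
    rw [← hco.fderiv_eq]
    exact fderiv_comp c (g := fun s => ζ (e.symm s)) (f := fun z => e (ξ z))
      k3.differentiableAt k1.differentiableAt
  rw [hd] at hcomp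
  have hsurj : Function.Surjective (fderiv ℂ (fun z => e (ξ z)) c) :=
    (LinearMap.equivOfDetNeZero (fderiv ℂ (fun z => e (ξ z)) c : Cm 4 →ₗ[ℂ] Cm 4) k2).surjective
  ext v : 1
  obtain ⟨u, hu⟩ := hsurj v
  rw [← hu]
  have := congrArg (fun L : Cm 4 →L[ℂ] ℂ => L u) hcomp
  exact this.symm

theorem _root_.Vale.Agent.P277.H615.stClass : StClass := by
  intro Y _ _ _ _ E O hE hO W hW w₂ hw₂ h0 γ ch hγ hγO J g hg ΦJ Φg ζ hζ hΦJ hΦJ0 hΦg hΦg0 hJ hgq
  have hζ0 : ζ (γ w₂) = 0 := by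
    have := hgq.self_of_nhds
    rw [this, h0, zero_pow (by omega), zero_mul]
  have hE₂ : γ w₂ ∈ E := (hζ.1.self_of_nhds).1 hζ0
  obtain ⟨ξ, c, r, hξ, hξc⟩ := hE _ hE₂
  obtain ⟨δ, κ, d1, d2, d3, d4, d5, d6⟩ := par_lift hξ (hγ w₂ hw₂).1 hξc.symm
    (hγ w₂ hw₂).2.1 (hγ w₂ hw₂).2.2
  obtain ⟨a, ha, ha0, haz⟩ := leq_par hξ (ζ := ζ) (by rw [hξc]; exact hζ)
  have hc : c ∈ ball c r := mem_ball_self hξ.pos
  have hδt : Tendsto δ (𝓝 w₂) (𝓝 c) := by
    have := d1.continuousAt.tendsto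
    rwa [d2] at this
  have haδ : AnalyticAt ℂ (fun w => a (δ w)) w₂ :=
    AnalyticAt.fun_comp (g := a) (f := δ) (by rw [d2]; exact ha) d1
  have haδ0 : a (δ w₂) ≠ 0 := by rw [d2]; exact ha0
  have e1 : ∀ᶠ w in 𝓝 w₂, δ w 0 = w 0 ^ g * (Φg w / a (δ w)) := by
    filter_upwards [hgq, d3, hδt.eventually haz,
      haδ.continuousAt.eventually_ne haδ0] with w k1 k2 k3 k4
    rw [k2] at k3
    rw [← mul_div_assoc, ← k1, k3, mul_div_cancel_right₀ _ k4]
  have e2 : ∀ᶠ w in 𝓝 w₂, (fderiv ℂ δ w).det = w 0 ^ J * (κ w * ΦJ w) := by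
    filter_upwards [hJ, d6] with w k1 k2
    rw [k2, k1]; ring
  obtain ⟨f1, f2, f3⟩ := stFac δ w₂ d1 h0 g J hg (fun w => Φg w / a (δ w))
    (fun w => κ w * ΦJ w) (hΦg.div haδ haδ0) (div_ne_zero hΦg0 haδ0) (d4.mul hΦJ)
    (mul_ne_zero d5 hΦJ0) e1 e2
  refine ⟨f1, fun hJg => ?_, fun hJg => ?_⟩
  · have hmin := f2 hJg
    set F : Cm 4 → Cm 4 := fun w => ![w 0, δ w 1, δ w 2, δ w 3] with hF
    have hFa : AnalyticAt ℂ F w₂ := by
      refine an_pi fun i => ?_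
      fin_cases i
      · exact an_coord 0 w₂
      · exact an_comp_coord d1 1
      · exact an_comp_coord d1 2
      · exact an_comp_coord d1 3
    have hF0 : ∀ j, Jm F w₂ 0 j = if 0 = j then 1 else 0 := fun j => by
      rw [Jm_apply hFa.differentiableAt]
      exact pd_coord 0 j w₂
    have hFi : ∀ (i : Fin 3) (j : Fin 4), Jm F w₂ i.succ j = Jm δ w₂ i.succ j := fun i j => by
      rw [Jm_apply hFa.differentiableAt, Jm_apply d1.differentiableAt]
      fin_cases i <;> rfl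
    have hFd : (Jm F w₂).det ≠ 0 := by
      rw [Matrix.det_succ_row_zero]
      rw [Finset.sum_eq_single 0]
      · rw [hF0, if_pos rfl]
        have e3 : ((Jm F w₂).submatrix Fin.succ (Fin.succAbove 0)) =
            Matrix.of fun i j : Fin 3 => fderiv ℂ δ w₂ (Pi.single j.succ 1) i.succ := by
          ext i j
          rw [Matrix.submatrix_apply, hFi]
          rfl
        rw [e3]
        simpa using hmin
      · intro j _ hj
        rw [hF0, if_neg hj.symm]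
        ring
      · intro h
        exact absurd (Finset.mem_univ _) h
    have hFl : LocIso F w₂ := ⟨hFa, by rw [det_eq_Jm]; exact hFd⟩
    have hFc : F w₂ = c := by
      funext i
      fin_cases i
      · show w₂ 0 = c 0
        rw [h0, hξ.zero]
      · show δ w₂ 1 = c 1
        rw [d2]
      · show δ w₂ 2 = c 2
        rw [d2]
      · show δ w₂ 3 = c 3
        rw [d2]
    have hN : {w | w ∈ W ∧ ξ (δ w) = γ w ∧ δ w 0 = w 0 ^ g * (Φg w / a (δ w))} ∈ 𝓝 w₂ := by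
      filter_upwards [hW.mem_nhds hw₂, d3, e1] with w k1 k2 k3 using ⟨k1, k2, k3⟩
    have h5 := locIso_nhds hFl hN
    rw [hFc] at h5
    obtain ⟨s, hs, hsub⟩ := Metric.mem_nhds_iff.1 (inter_mem h5 (isOpen_ball.mem_nhds hc))
    refine ⟨ξ '' ball c s, hξ.openMap _ (fun z hz => (hsub hz).2) isOpen_ball,
      ⟨ξ c, ⟨c, mem_ball_self hs, rfl⟩, (hξ.mem c hc).2 hξ.zero⟩, ?_⟩
    rintro _ ⟨⟨z, hz, rfl⟩, hzE⟩
    obtain ⟨⟨w, ⟨k1, k2, k3⟩, k4⟩, hzb⟩ := hsub hz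
    have hz0 : z 0 = 0 := (hξ.mem z hzb).1 hzE
    have hw0 : w 0 = 0 := by
      rw [← hz0, ← k4]
      rfl
    have hδz : δ w = z := by
      rw [← k4]
      funext i
      fin_cases i
      · show δ w 0 = w 0
        rw [k3, hw0, zero_pow (by omega), zero_mul]
      · rfl
      · rfl
      · rfl
    exact ⟨w, ⟨k1, hw0⟩, by rw [← k2, hδz]⟩
  · have hWe : ∀ᶠ w in 𝓝 w₂, w ∈ W := hW.mem_nhds hw₂
    obtain ⟨w₃, ⟨hw₃0, ψ, Ψ₀, g1, g2, g3, g4, g5⟩, hw₃W, hd3, hball⟩ :=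
      ((f3 hJg).and_eventually (hWe.and
        (d3.eventually_nhds.and (hδt.eventually (isOpen_ball.mem_nhds hc))))).exists
    have hψ0 : ψ w₃ 0 = 0 := g3.self_of_nhds.2 hw₃0
    set d : Cm 4 := bet g (ψ w₃) with hd
    have hd0 : d 0 = 0 := by
      show ψ w₃ 0 ^ g * ψ w₃ 1 = 0
      rw [hψ0, zero_pow (by omega), zero_mul]
    have hd1 : d 1 = 0 := hψ0
    have hΨd : Ψ₀ d ∈ ball c r := by
      have := g5.self_of_nhds
      rw [← hd] at this
      rw [← this]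
      exact hball
    -- the centre does not meet `O`
    have hP : ∀ᶠ z in 𝓝 d, z 0 = 0 → z 1 = 0 → ξ (Ψ₀ z) ∉ O := by
      obtain ⟨θ, t1, t2, t3, t4⟩ := exists_inv g1
      have hwt : Tendsto (fun z : Cm 4 => (![0, ψ w₃ 1, z 2, z 3] : Cm 4)) (𝓝 d) (𝓝 (ψ w₃)) := by
        have hca : AnalyticAt ℂ (fun z : Cm 4 => (![0, ψ w₃ 1, z 2, z 3] : Cm 4)) d := by
          refine an_pi fun i => ?_
          fin_cases i
          · exact analyticAt_const
          · exact analyticAt_const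
          · exact an_coord 2 d
          · exact an_coord 3 d
        have h6 : (![0, ψ w₃ 1, d 2, d 3] : Cm 4) = ψ w₃ := by
          funext i
          fin_cases i
          · exact hψ0.symm
          · rfl
          · rfl
          · rfl
        have := hca.continuousAt.tendsto
        rwa [h6] at this
      have hθt : Tendsto θ (𝓝 (ψ w₃)) (𝓝 w₃) := by
        have := t1.1.continuousAt.tendsto
        rwa [t2] at this
      have hW₃ : ∀ᶠ w in 𝓝 w₃, w ∈ W := hW.mem_nhds hw₃W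
      filter_upwards [hwt.eventually t4, (hθt.comp hwt).eventually
        ((hW₃.and g3).and (g5.and hd3))] with z k1 k2 k3 k4
      obtain ⟨⟨m1, m2⟩, m3, m4⟩ := k2
      simp only [Function.comp_apply] at m1 m2 m3 m4
      have hz : bet g (![0, ψ w₃ 1, z 2, z 3] : Cm 4) = z := by
        funext i
        fin_cases i
        · show (0 : ℂ) ^ g * ψ w₃ 1 = z 0
          rw [k3, zero_pow (by omega), zero_mul]
        · exact k4.symm
        · rfl
        · rfl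
      rw [k1] at m2 m3
      rw [hz] at m3
      rw [← m3, m4]
      exact hγO _ m1 (m2.1 rfl)
    obtain ⟨s, hs, hpar, hPs⟩ := par_comp hξ hd0 g2 hΨd g4 hP
    refine ⟨w₃, hw₃W, hw₃0, fun z => ξ (Ψ₀ z), d, s, ψ w₃, hpar, hd1, rfl, hψ0,
      ⟨ψ, g1, rfl, ?_⟩, hPs⟩
    filter_upwards [g3, g5, hd3] with z k1 k2 k3
    refine ⟨k1, ?_⟩
    show ξ (Ψ₀ (bet g (ψ z))) = γ z
    rw [← k2, k3]

end Vale.Agent.P277.H29.FC
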