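import Mathlib.MeasureTheory.Measure.Hausdorff
import Mathlib.Topology.OpenPartialHomeomorph.Basic
import Mathlib.Analysis.Normed.Module.FiniteDimension

/-!
# P277, M1: Eilenberg's inequality and the inductive dimension
-/

open Filter Topology Metric Set MeasureTheory
open scoped ENNReal

noncomputable section

namespace Vale.Agent.P277.H29

/-- **Eilenberg.** The slices of an `H^{s+1}`-negligible set by almost all spheres are
`H^s`-negligible. -/
theorem eilenberg {X : Type*} [MetricSpace X] [MeasurableSpace X] [BorelSpace X] (s : ℕ)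
    {A : Set X} (hA : Measure.hausdorffMeasure ((s + 1 : ℕ) : ℝ) A = 0) (x₀ : X) :
    ∀ᵐ r : ℝ, Measure.hausdorffMeasure (s : ℝ) (A ∩ sphere x₀ r) = 0 := by
  -- coverings
  have h1 : ∀ m : ℕ, ∃ t : ℕ → Set X, A ⊆ ⋃ n, t n ∧ (∀ n, ediam (t n) ≤ (2⁻¹ : ℝ≥0∞) ^ m) ∧
      ∑' n, ⨆ _ : (t n).Nonempty, ediam (t n) ^ (((s + 1 : ℕ) : ℝ)) ≤ (2⁻¹ : ℝ≥0∞) ^ m := by
    intro m
    rw [Measure.hausdorffMeasure_apply] at hA
    have hpos : (0 : ℝ≥0∞) < (2⁻¹ : ℝ≥0∞) ^ m := by
      apply ENNReal.pow_pos; simp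
    have h2 := ENNReal.iSup_eq_zero.1 hA ((2⁻¹ : ℝ≥0∞) ^ m)
    have h3 := ENNReal.iSup_eq_zero.1 h2 hpos
    have h4 : ⨅ (t : ℕ → Set X) (_ : A ⊆ ⋃ n, t n) (_ : ∀ n, ediam (t n) ≤ (2⁻¹ : ℝ≥0∞) ^ m),
          ∑' n, ⨆ _ : (t n).Nonempty, ediam (t n) ^ (((s + 1 : ℕ) : ℝ)) < (2⁻¹ : ℝ≥0∞) ^ m := by
      rw [h3]; exact hpos
    simp only [iInf_lt_iff] at h4
    obtain ⟨t, ht1, ht2, ht3⟩ := h4
    exact ⟨t, ht1, ht2, ht3.le⟩
  choose t ht1 ht2 ht3 using h1
  classical
  -- base points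
  let I : ℕ → ℕ → Set ℝ := fun m n => if h : (t m n).Nonempty then
    Icc (dist h.choose x₀ - (ediam (t m n)).toReal) (dist h.choose x₀ + (ediam (t m n)).toReal)
    else ∅
  have hfin : ∀ m n, ediam (t m n) ≠ ∞ := fun m n =>
    ((ht2 m n).trans_lt (by
      refine lt_of_le_of_lt (pow_le_one₀ (by simp) (by simp)) ENNReal.one_lt_top)).ne
  have hI : ∀ m n, ∀ y ∈ t m n, dist y x₀ ∈ I m n := by
    intro m n y hy
    have hne : (t m n).Nonempty := ⟨y, hy⟩
    have h2 : dist y hne.choose ≤ (ediam (t m n)).toReal := by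
      rw [dist_edist]
      exact ENNReal.toReal_mono (hfin m n) (edist_le_ediam_of_mem hy hne.choose_spec)
    have h3 : I m n = Icc (dist hne.choose x₀ - (ediam (t m n)).toReal)
        (dist hne.choose x₀ + (ediam (t m n)).toReal) := dif_pos hne
    rw [h3]
    have h4 := dist_triangle y hne.choose x₀
    have h5 := dist_triangle hne.choose y x₀
    rw [dist_comm hne.choose y] at h5
    exact ⟨by linarith, by linarith⟩
  have hIm : ∀ m n, MeasurableSet (I m n) := by
    intro m n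
    by_cases h : (t m n).Nonempty
    · have h3 : I m n = Icc (dist h.choose x₀ - (ediam (t m n)).toReal)
        (dist h.choose x₀ + (ediam (t m n)).toReal) := dif_pos h
      rw [h3]; exact measurableSet_Icc
    · have h3 : I m n = ∅ := dif_neg h
      rw [h3]; exact MeasurableSet.empty
  have hIv : ∀ m n, ediam (t m n) ^ (s : ℝ) * volume (I m n) ≤
      2 * ⨆ _ : (t m n).Nonempty, ediam (t m n) ^ (((s + 1 : ℕ) : ℝ)) := by
    intro m n
    by_cases h : (t m n).Nonempty
    · have h3 : I m n = Icc (dist h.choose x₀ - (ediam (t m n)).toReal)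
        (dist h.choose x₀ + (ediam (t m n)).toReal) := dif_pos h
      rw [h3, Real.volume_Icc, iSup_pos h]
      have h4 : dist h.choose x₀ + (ediam (t m n)).toReal -
          (dist h.choose x₀ - (ediam (t m n)).toReal) = 2 * (ediam (t m n)).toReal := by ring
      rw [h4, ENNReal.ofReal_mul (by norm_num), ENNReal.ofReal_toReal (hfin m n)]
      have h5 : ediam (t m n) ^ (((s + 1 : ℕ) : ℝ)) = ediam (t m n) ^ (s : ℝ) * ediam (t m n) := by
        rw [ENNReal.rpow_natCast, ENNReal.rpow_natCast, pow_succ]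
      rw [h5]
      simp only [ENNReal.ofReal_ofNat]
      apply le_of_eq
      ring
    · have h3 : I m n = ∅ := dif_neg h
      rw [h3]; simp
  -- the counting function
  let F : ℕ → ℝ → ℝ≥0∞ := fun m r => ∑' n, (I m n).indicator (fun _ => ediam (t m n) ^ (s : ℝ)) r
  have hFm : ∀ m, Measurable (F m) := fun m =>
    Measurable.tsum fun n => measurable_const.indicator (hIm m n)
  have hFi : ∀ m, ∫⁻ r, F m r ≤ 2 * (2⁻¹ : ℝ≥0∞) ^ m := by
    intro m
    rw [lintegral_tsum fun n => (measurable_const.indicator (hIm m n)).aemeasurable]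
    have h5 : ∀ n, ∫⁻ r, (I m n).indicator (fun _ => ediam (t m n) ^ (s : ℝ)) r ≤
        2 * ⨆ _ : (t m n).Nonempty, ediam (t m n) ^ (((s + 1 : ℕ) : ℝ)) := by
      intro n
      rw [lintegral_indicator_const (hIm m n)]
      exact hIv m n
    refine (ENNReal.tsum_le_tsum h5).trans ?_
    rw [ENNReal.tsum_mul_left]
    gcongr
    exact ht3 m
  have hsum : ∫⁻ r, ∑' m, F m r ≠ ∞ := by
    rw [lintegral_tsum fun m => (hFm m).aemeasurable]
    refine ne_top_of_le_ne_top ?_ (ENNReal.tsum_le_tsum hFi)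
    rw [ENNReal.tsum_mul_left, ENNReal.tsum_geometric]
    refine ENNReal.mul_ne_top (by simp) ?_
    rw [ENNReal.inv_ne_top]
    simp
  have hae := ae_lt_top (Measurable.tsum fun m => hFm m) hsum
  filter_upwards [hae] with r hr
  have hlim : Tendsto (fun m => F m r) atTop (𝓝 0) :=
    ENNReal.tendsto_atTop_zero_of_tsum_ne_top hr.ne
  have key := Measure.hausdorffMeasure_le_liminf_tsum (β := ℕ)
    (ι := fun m => {n : ℕ // (t m n ∩ sphere x₀ r).Nonempty}) (s : ℝ)
    (A ∩ sphere x₀ r) (l := atTop) (fun m => (2⁻¹ : ℝ≥0∞) ^ m)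
    (ENNReal.tendsto_pow_atTop_nhds_zero_of_lt_one (by
      rw [ENNReal.inv_lt_one]; exact ENNReal.one_lt_two))
    (fun m n => t m n ∩ sphere x₀ r)
    (Eventually.of_forall fun m n => (ediam_mono inter_subset_left).trans (ht2 m n))
    (Eventually.of_forall fun m => by
      rintro y ⟨hy, hyr⟩
      obtain ⟨n, hn⟩ := mem_iUnion.1 (ht1 m hy)
      exact mem_iUnion.2 ⟨⟨n, y, hn, hyr⟩, hn, hyr⟩)
  refine le_antisymm (key.trans ?_) zero_le
  have h6 : ∀ m, ∑' n : {n : ℕ // (t m n ∩ sphere x₀ r).Nonempty},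
      ediam (t m n ∩ sphere x₀ r) ^ (s : ℝ) ≤ F m r := by
    intro m
    refine (ENNReal.tsum_le_tsum fun n => ?_).trans
      (ENNReal.tsum_comp_le_tsum_of_injective Subtype.val_injective
        (fun n => (I m n).indicator (fun _ => ediam (t m n) ^ (s : ℝ)) r))
    obtain ⟨n, y, hy, hyr⟩ := n
    have h7 : r ∈ I m n := by
      have := hI m n y hy
      rwa [mem_sphere.1 hyr] at this
    show _ ≤ (I m n).indicator (fun _ => ediam (t m n) ^ (s : ℝ)) r
    rw [indicator_of_mem h7]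
    exact ENNReal.rpow_le_rpow (ediam_mono inter_subset_left) (by positivity)
  exact (liminf_le_liminf (Eventually.of_forall h6)).trans hlim.liminf_eq.le

/-- Small inductive dimension `< s`. -/
def Ind {Y : Type*} [TopologicalSpace Y] : ℕ → Set Y → Prop
  | 0, K => K = ∅
  | s + 1, K => ∀ x ∈ K, ∀ U ∈ 𝓝 x, ∃ V, IsOpen V ∧ x ∈ V ∧ closure V ⊆ U ∧ Ind s (K ∩ frontier V)

theorem Ind.mono {Y : Type*} [TopologicalSpace Y] : ∀ {s : ℕ} {K K' : Set Y}, Ind s K → K' ⊆ K →
    Ind s K'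
  | 0, K, K', h, hK => by
    have h' : K = ∅ := h
    show K' = ∅
    rw [h'] at hK
    exact subset_empty_iff.1 hK
  | s + 1, K, K', h, hK => by
    intro x hx U hU
    obtain ⟨V, h1, h2, h3, h4⟩ := h x (hK hx) U hU
    exact ⟨V, h1, h2, h3, Ind.mono h4 (inter_subset_inter_left _ hK)⟩

theorem Ind.succ {Y : Type*} [TopologicalSpace Y] : ∀ {s : ℕ} {K : Set Y}, Ind s K → Ind (s + 1) K
  | 0, K, h => by
    have h' : K = ∅ := h
    intro x hx
    rw [h'] at hx
    exact absurd hx (notMem_empty x)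
  | s + 1, K, h => by
    intro x hx U hU
    obtain ⟨V, h1, h2, h3, h4⟩ := h x hx U hU
    exact ⟨V, h1, h2, h3, Ind.succ h4⟩

theorem Ind.le {Y : Type*} [TopologicalSpace Y] {s s' : ℕ} (hs : s ≤ s') {K : Set Y} (h : Ind s K) :
    Ind s' K := by
  induction hs with
  | refl => exact h
  | step _ ih => exact ih.succ

theorem ind_of_hausdorff {X : Type*} [MetricSpace X] [MeasurableSpace X] [BorelSpace X] :
    ∀ (s : ℕ) {A : Set X}, Measure.hausdorffMeasure (s : ℝ) A = 0 → Ind s A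
  | 0, A, h => by
    show A = ∅
    by_contra hne
    obtain ⟨x, hx⟩ := nonempty_iff_ne_empty.2 hne
    have h1 : Measure.hausdorffMeasure (0 : ℝ) ({x} : Set X) ≤ Measure.hausdorffMeasure (0 : ℝ) A :=
      measure_mono (singleton_subset_iff.2 hx)
    rw [Measure.hausdorffMeasure_zero_singleton] at h1
    simp only [Nat.cast_zero] at h
    rw [h] at h1
    simp at h1
  | s + 1, A, h => by
    intro x _ U hU
    obtain ⟨R, hR, hRU⟩ := Metric.mem_nhds_iff.1 hU
    have h1 := eilenberg s h x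
    have h2 : (volume.restrict (Ioo (0 : ℝ) R)) ≠ 0 := by
      rw [Ne, Measure.restrict_eq_zero, Real.volume_Ioo, sub_zero]
      simpa using hR
    have : (ae (volume.restrict (Ioo (0 : ℝ) R))).NeBot := ae_neBot.2 h2
    obtain ⟨r, hr1, hr2⟩ := ((ae_restrict_of_ae (s := Ioo (0 : ℝ) R) h1).and
      (ae_restrict_mem measurableSet_Ioo)).exists
    refine ⟨ball x r, isOpen_ball, mem_ball_self hr2.1, ?_, ?_⟩
    · refine closure_ball_subset_closedBall.trans ((closedBall_subset_ball hr2.2).trans hRU)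
    · exact Ind.mono (ind_of_hausdorff s hr1)
        (inter_subset_inter_right _ (frontier_ball_subset_sphere))

/-- transport to the manifold -/
theorem Ind.transport {M E : Type*} [TopologicalSpace M] [T2Space M] [MetricSpace E] [ProperSpace E]
    (e : OpenPartialHomeomorph M E) : ∀ {s : ℕ} {A : Set E}, Ind s A → Ind s (e.symm '' (A ∩ e.target))
  | 0, A, h => by
    have h' : A = ∅ := h
    show e.symm '' (A ∩ e.target) = ∅
    rw [h']
    simp
  | s + 1, A, h => by
    rintro _ ⟨a, ⟨haA, hat⟩, rfl⟩ U hU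
    have h1 : e.target ∩ e.symm ⁻¹' U ∈ 𝓝 a :=
      inter_mem (e.open_target.mem_nhds hat) (e.symm.continuousAt hat hU)
    obtain ⟨r, hr, hrU⟩ := Metric.nhds_basis_closedBall.mem_iff.1 h1
    obtain ⟨V, hVo, haV, hVU, hV⟩ := h a haA _ (closedBall_mem_nhds a hr)
    have hcl : IsCompact (closure V) := (isCompact_closedBall a r).of_isClosed_subset
      isClosed_closure hVU
    have hclt : closure V ⊆ e.target := fun z hz => (hrU (hVU hz)).1
    have hcc : IsClosed (e.symm '' closure V) :=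
      (hcl.image_of_continuousOn (e.symm.continuousOn.mono hclt)).isClosed
    have hcV : closure (e.symm '' V) ⊆ e.symm '' closure V :=
      closure_minimal (image_mono subset_closure) hcc
    refine ⟨e.symm '' V, ?_, mem_image_of_mem _ haV, ?_, ?_⟩
    · exact e.symm.isOpen_image_of_subset_source hVo (subset_closure.trans hclt)
    · rintro _ hz
      obtain ⟨z, hz', rfl⟩ := hcV hz
      exact (hrU (hVU hz')).2
    · refine Ind.mono (Ind.transport e hV) ?_
      rintro _ ⟨⟨b, ⟨hbA, hbt⟩, rfl⟩, hb⟩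
      have hVo' : IsOpen (e.symm '' V) :=
        e.symm.isOpen_image_of_subset_source hVo (subset_closure.trans hclt)
      rw [hVo'.frontier_eq] at hb
      obtain ⟨z, hz, hzb⟩ := hcV hb.1
      have hzb' : z = b := e.symm.injOn (hclt hz) hbt hzb
      subst hzb'
      refine ⟨z, ⟨⟨hbA, ?_⟩, hbt⟩, rfl⟩
      rw [hVo.frontier_eq]
      exact ⟨hz, fun h => hb.2 (mem_image_of_mem _ h)⟩

/-- the inductive dimension is local -/
theorem ind_of_local {M : Type*} [TopologicalSpace M] {s : ℕ} {K : Set M}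
    (h : ∀ x ∈ K, ∃ N ∈ 𝓝 x, Ind s (K ∩ N)) : Ind s K := by
  cases s with
  | zero =>
    show K = ∅
    by_contra hne
    obtain ⟨x, hx⟩ := nonempty_iff_ne_empty.2 hne
    obtain ⟨N, hN, h1⟩ := h x hx
    have h2 : K ∩ N = ∅ := h1
    have h3 : x ∈ K ∩ N := ⟨hx, mem_of_mem_nhds hN⟩
    rw [h2] at h3
    exact h3
  | succ s =>
    intro x hx U hU
    obtain ⟨N, hN, h1⟩ := h x hx
    obtain ⟨V, h2, h3, h4, h5⟩ := h1 x ⟨hx, mem_of_mem_nhds hN⟩ (U ∩ N) (inter_mem hU hN)
    refine ⟨V, h2, h3, h4.trans inter_subset_left, h5.mono ?_⟩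
    rintro y ⟨hy, hyV⟩
    exact ⟨⟨hy, (h4 (frontier_subset_closure hyV)).2⟩, hyV⟩

end Vale.Agent.P277.H29
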