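import Vale.Agent.P277.Stmts5
import Vale.Agent.P277.H60.Iface4

/-!
# P277: Theorem R for arbitrary singularities of `X 0` (statements)

The open embedding `v : O → X` with thin complement is replaced by a proper holomorphic map
`v : W → X ∖ τ`, with `τ` thin and closed.
-/

open scoped Manifold ContDiff Topology
open Vale.Agent.P272.K Vale.Agent.P285.H281.FD Vale.Agent.P267.H175 Set

noncomputable section

namespace Vale.Agent.P277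

/-- `v` restricts to a proper surjective holomorphic map of the open set `W ⊆ Y` onto the
complement of the closed set `τ ⊆ X` of dimension `≤ 1`. -/
structure PropMap {Y : Type} [TopologicalSpace Y] [ChartedSpace (Cm 4) Y] (X : CSp) (W : Set Y)
    (v : Y → X.pt) (τ : Set X.pt) : Prop where
  isOpen : IsOpen W
  cont : ContinuousOn v W
  hol : ∀ y ∈ W, ∀ e : Chart 4 Y, At e y → ∀ g : X.pt → ℂ, X.Hol g (v y) →
    AnalyticAt ℂ (fun z => g (v (e.symm z))) (e y)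
  closed : IsClosed τ
  dim : DimLe X 1 τ
  maps : ∀ y ∈ W, v y ∉ τ
  surj : ∀ x, x ∉ τ → ∃ y ∈ W, v y = x
  proper : ∀ C, IsClosed C → Disjoint C τ → IsCompact (W ∩ v ⁻¹' C)

/-- The output of the geometry of a flip: sections `s, s'` of `P` and `σ, σ'` of `Q` over `G`. -/
structure FlipOut2 {Y : Type} [TopologicalSpace Y] [ChartedSpace (Cm 4) Y] (X : CSp) (W : Set Y)
    (v : Y → X.pt) (τ : Set X.pt) (P Q : Bd X.pt) (G : Set X.pt) (s s' : P.ι → X.pt → ℂ)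
    (σ σ' : Q.ι → X.pt → ℂ) (x₀ : X.pt) : Prop where
  isOpen : IsOpen G
  lbP : IsLBx X P
  lbQ : IsLBx X Q
  sec : IsSecx X G P s
  sec' : IsSecx X G P s'
  secσ : IsSecx X G Q σ
  secσ' : IsSecx X G Q σ'
  closed : IsClosed (G ∩ Zs Q σ ∩ Zs Q σ')
  mem : x₀ ∈ G ∩ Zs Q σ ∩ Zs Q σ'
  zero : x₀ ∈ Zs P s ∩ Zs P s'
  nocommon : G ∩ Zs P s ∩ Zs P s' ⊆ τᶜ
  count : (G ∩ Zs Q σ ∩ Zs Q σ' ∩ (Zs P s ∩ Zs P s')).Countable
  jac : ∃ i j, x₀ ∈ P.U i ∧ x₀ ∈ Q.U j ∧ ∀ N : Set X.pt, IsOpen N → x₀ ∈ N →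
    ∃ y ∈ W, v y ∈ N ∩ G ∩ (P.U i ∩ Q.U j) ∧ ∀ e : Chart 4 Y, At e y →
      Jac v ![s i, s' i, σ j, σ' j] e (e y) ≠ 0

/-- (D'') -/
def StD2 : Prop :=
  ∀ (Y : Type) [TopologicalSpace Y] [T2Space Y] [SecondCountableTopology Y]
    [ChartedSpace (Cm 4) Y]
    [IsManifold 𝓘(ℂ, Cm 4) ω Y] (X Z X' : CSp) (f : X.pt → Z.pt) (f' : X'.pt → Z.pt)
    (A : Set Z.pt) (L : Bd X.pt) (L' : Bd X'.pt) (_ : IsFlip X Z X' f f' A L L')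
    (W : Set Y) (v : Y → X.pt) (τ : Set X.pt) (_ : PropMap X W v τ)
    (O : Set Y) (_ : O ⊆ W) (_ : IsOpenEmb X O v) (_ : DimLe X 2 (v '' O)ᶜ)
    (_ : DimLe X' 1 (f' ⁻¹' A)),
    ∃ (P Q : Bd X.pt) (G : Set X.pt) (s s' : P.ι → X.pt → ℂ) (σ σ' : Q.ι → X.pt → ℂ) (x₀ : X.pt),
      FlipOut2 X W v τ P Q G s s' σ σ' x₀ ∧ G ∩ Zs Q σ ∩ Zs Q σ' ⊆ f ⁻¹' A

/-- (F4'') the output of the construction of the tuples of sections. -/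
def StTup2 : Prop :=
  ∀ (Y : Type) [TopologicalSpace Y] [ChartedSpace (Cm 4) Y] (X : CSp)
    (W : Set Y) (v : Y → X.pt) (τ : Set X.pt) (_ : PropMap X W v τ)
    (P Q : Bd X.pt) (G : Set X.pt) (s s' : P.ι → X.pt → ℂ)
    (σ σ' : Q.ι → X.pt → ℂ) (x₀ : X.pt) (_ : FlipOut2 X W v τ P Q G s s' σ σ' x₀),
    ∃ (n : ℕ) (F : Fin (n + 3) → P.ι → Y → ℂ) (C₀ : Set Y),
      Tup v P W F ∧ C₀ ⊆ W ∧ IsCompact C₀ ∧
      (∀ y ∈ W, y ∉ C₀ → ∀ i, v y ∈ P.U i → ∀ m : Fin (n + 3), 2 ≤ m.val → F m i y = 0) ∧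
      ∀ C ⊆ W, IsCompact C → Disjoint (v '' C) (G ∩ Zs Q σ ∩ Zs Q σ') →
        ∃ (n' : ℕ) (F' : Fin (n' + 3) → Q.ι → Y → ℂ) (C' : Set Y),
          Tup v Q (W ∩ v ⁻¹' G) F' ∧ C' ⊆ W ∩ v ⁻¹' G ∧ IsCompact C' ∧ Disjoint C' C ∧
          (∀ y ∈ W ∩ v ⁻¹' G, y ∉ C' → ∀ i, v y ∈ Q.U i → ∀ m : Fin (n' + 3), 2 ≤ m.val →
            F' m i y = 0) ∧
          (∀ y ∈ C₀ ∩ C', ∃ i j c c', v y ∈ P.U i ∧ v y ∈ Q.U j ∧
            Rad (fun m => F m i) (fun y => s i (v y)) (fun y => s' i (v y)) y c ∧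
            Rad (fun m => F' m j) (fun y => σ j (v y)) (fun y => σ' j (v y)) y c') ∧
          ∃ i j c c', x₀ ∈ P.U i ∧ x₀ ∈ Q.U j ∧
            (∀ᶠ x in 𝓝 x₀, ∀ y ∈ W, v y = x →
              Rad (fun m => F m i) (fun y => s i (v y)) (fun y => s' i (v y)) y c ∧
              Rad (fun m => F' m j) (fun y => σ j (v y)) (fun y => σ' j (v y)) y c') ∧
            ∀ N : Set X.pt, IsOpen N → x₀ ∈ N →
              ∃ y ∈ W, v y ∈ N ∩ G ∩ (P.U i ∩ Q.U j) ∧ ∀ e : Chart 4 Y, At e y →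
                Jac v ![s i, s' i, σ j, σ' j] e (e y) ≠ 0

/-- (F'') -/
def StF2 : Prop :=
  ∀ (Y : Type) [TopologicalSpace Y] [T2Space Y] [SecondCountableTopology Y]
    [ChartedSpace (Cm 4) Y]
    [IsManifold 𝓘(ℂ, Cm 4) ω Y] (X : CSp) (W : Set Y) (v : Y → X.pt) (τ : Set X.pt)
    (_ : PropMap X W v τ) (P Q : Bd X.pt) (G : Set X.pt) (s s' : P.ι → X.pt → ℂ)
    (σ σ' : Q.ι → X.pt → ℂ) (x₀ : X.pt) (_ : FlipOut2 X W v τ P Q G s s' σ σ' x₀),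
    ∃ η : Fm 4 Y, CCF W η ∧
      ∀ C ⊆ W, IsCompact C → Disjoint (v '' C) (G ∩ Zs Q σ ∩ Zs Q σ') →
        ∃ θ : Fm 4 Y, CCF W θ ∧ (∀ y ∈ C, θ y = 0) ∧ pr Y θ η ≠ 0

end Vale.Agent.P277
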