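import Vale.Agent.P277.F.F4
import Vale.Agent.P277.H29.PM

/-!
# P277, package F4'': tuples of sections for proper maps
-/

open scoped Manifold ContDiff Topology
open Vale.Agent.P272.K Vale.Agent.P285.H281.FD Set Filter

noncomputable section

namespace Vale.Agent.P277

section
variable {Y : Type} [TopologicalSpace Y] [ChartedSpace (Cm 4) Y] {X : CSp} {W : Set Y}
  {v : Y → X.pt} {τ : Set X.pt}

theorem PropMap.continuousAt (hv : PropMap X W v τ) {y : Y} (hy : y ∈ W) : ContinuousAt v y :=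
  hv.cont.continuousAt (hv.isOpen.mem_nhds hy)

theorem PropMap.holAt (hv : PropMap X W v τ) {y : Y} (hy : y ∈ W) {e : Chart 4 Y} (he : At e y) :
    HolAt X (fun z => v (e.symm z)) (e y) := by
  refine ⟨?_, fun g hg => ?_⟩
  · have h1 : ContinuousAt v (e.symm (e y)) := by rw [e.left_inv he.2]; exact hv.continuousAt hy
    exact h1.comp (f := e.symm) (e.continuousAt_symm (e.map_source he.2))
  · have h1 : v (e.symm (e y)) = v y := by rw [e.left_inv he.2]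
    exact hv.hol y hy e he g (by rw [← h1]; exact hg)

theorem Sm.comp_prop (hv : PropMap X W v τ) {y : Y} (hy : y ∈ W) {e : Chart 4 Y} (he : At e y)
    {f : X.pt → ℂ} (hf : Sm X f (v y)) : ContDiffAt ℝ ∞ (fun z => f (v (e.symm z))) (e y) := by
  refine Sm.comp_holAt (g := fun z => v (e.symm z)) ?_ (hv.holAt hy he)
  have h1 : v (e.symm (e y)) = v y := by rw [e.left_inv he.2]
  rw [h1]
  exact hf

theorem IsSmSec.pullP (hv : PropMap X W v τ) {P : Bd X.pt} {V : Set X.pt}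
    {s : P.ι → X.pt → ℂ} (h : IsSmSec X V P s) :
    SmSec v P (W ∩ v ⁻¹' V) (fun i y => s i (v y)) :=
  ⟨fun i _ hy hi _ he => (h.smooth i _ hy.2 hi).comp_prop hv hy.1 he,
    fun i j y hy hi hj => h.change i j (v y) hy.2 hi hj⟩

end

/-- (F4''). -/
theorem stTup2 : StTup2 := by
  intro Y _ _ X O v B hv P Q G s s' σ σ' x₀ hf
  classical
  have hBc : IsClosed B := hv.closed
  have hB : DimLe X 1 B := hv.dim
  have hVO : IsOpen Bᶜ := hBc.isOpen_compl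
  have hP := hf.lbP
  have hQ := hf.lbQ
  have hs := hf.sec.isSmSec
  have hs' := hf.sec'.isSmSec
  have hσ := hf.secσ.isSmSec
  have hσ' := hf.secσ'.isSmSec
  have eP : G ∩ Zs P s ∩ Zs P s' = Zs2 P G s s' := inter_Zs_eq hf.sec'.change
  have eQ : G ∩ Zs Q σ ∩ Zs Q σ' = Zs2 Q G σ σ' := inter_Zs_eq hf.secσ'.change
  have hKs : IsClosed (Zs2 Q G σ σ') := eQ ▸ hf.closed
  have hno : Zs2 P G s s' ⊆ Bᶜ := eP ▸ hf.nocommon
  have hcount : (Zs2 Q G σ σ' ∩ Zs2 P G s s').Countable := by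
    refine hf.count.mono ?_
    rw [← eQ, ← eP]
    exact fun x hx => ⟨hx.1, hx.2.1.2, hx.2.2⟩
  have hx₀Q : x₀ ∈ Zs2 Q G σ σ' := eQ ▸ hf.mem
  have hx₀P : x₀ ∈ Zs2 P G s s' := by
    rw [← eP]
    exact ⟨⟨hx₀Q.1, hf.zero.1⟩, hf.zero.2⟩
  rw [eQ]
  set Ks := Zs2 Q G σ σ'
  have hKsG : Ks ⊆ G := fun x hx => hx.1
  -- the pair `S, S'`
  obtain ⟨S, S', W₁, hS, hS', hSB, hW₁, hKsW, hW₁G, hSs⟩ := exists_ext hP hB hf.isOpen hs hs' hKs
    hKsG (Set.disjoint_left.2 fun x hx hx' => hno hx hx')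
  have hZc : IsClosed (Zs2 P univ S S') :=
    isClosed_zs2 hP isOpen_univ hS hS' isClosed_univ (subset_univ _) (subset_univ _)
  set KS := Zs2 P univ S S'
  have hKSO : KS ⊆ Bᶜ := fun x hx h => Set.disjoint_left.1 hSB hx h
  -- the countable compact set
  set K := Ks ∩ Zs2 P G s s'
  have hK1 : K = Ks ∩ KS := by
    ext x
    refine and_congr_right fun hx => ?_
    obtain ⟨i, hi⟩ := hP.cover x
    rw [zs2_iff hs.change hs'.change (hKsG hx) hi, zs2_iff hS.change hS'.change (mem_univ x) hi,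
      (hSs x (hKsW hx) i).1, (hSs x (hKsW hx) i).2]
  have hKc : IsClosed K := hK1 ▸ hKs.inter hZc
  have hKO : K ⊆ Bᶜ := fun x hx => hno hx.2
  have hx₀K : x₀ ∈ K := ⟨hx₀Q, hx₀P⟩
  -- frames
  obtain ⟨i₀, j₀, hi₀, hj₀, hjac⟩ := hf.jac
  choose i' hi' using hP.cover
  choose j' hj' using hQ.cover
  set ix : X.pt → P.ι := fun x => if x = x₀ then i₀ else i' x
  set jx : X.pt → Q.ι := fun x => if x = x₀ then j₀ else j' x
  have hix : ∀ x, x ∈ P.U (ix x) := fun x => by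
    by_cases h : x = x₀
    · simp only [ix, if_pos h]; rw [h]; exact hi₀
    · simp only [ix, if_neg h]; exact hi' x
  have hjx : ∀ x, x ∈ Q.U (jx x) := fun x => by
    by_cases h : x = x₀
    · simp only [jx, if_pos h]; rw [h]; exact hj₀
    · simp only [jx, if_neg h]; exact hj' x
  set U : X.pt → Set X.pt := fun x => W₁ ∩ Bᶜ ∩ (P.U (ix x) ∩ Q.U (jx x)) ∩
    (if x = x₀ then univ else {x₀}ᶜ)
  have hU : ∀ x ∈ K, IsOpen (U x) ∧ x ∈ U x := by
    intro x hx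
    refine ⟨((hW₁.inter hVO).inter ((hP.isOpen _).inter (hQ.isOpen _))).inter ?_,
      ⟨⟨hKsW hx.1, hKO hx⟩, hix x, hjx x⟩, ?_⟩
    · split_ifs
      · exact isOpen_univ
      · exact isOpen_compl_singleton
    · split_ifs with h
      · trivial
      · exact h
  obtain ⟨n, c, V, hcK, hVo, hVU, hdis, hKV⟩ := exists_disjoint_cover hKc hcount U hU
  have hVW : ∀ a, V a ⊆ W₁ := fun a x hx => (hVU a hx).1.1.1
  have hVP : ∀ a, V a ⊆ univ ∩ P.U (ix (c a)) := fun a x hx => ⟨trivial, (hVU a hx).1.2.1⟩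
  have hVQ : ∀ a, V a ⊆ G ∩ Q.U (jx (c a)) := fun a x hx => ⟨hW₁G (hVW a hx), (hVU a hx).1.2.2⟩
  have hc0 : ∀ a, x₀ ∈ V a → c a = x₀ := by
    intro a ha
    by_contra h
    have h1 := (hVU a ha).2
    rw [if_neg h] at h1
    exact h1 rfl
  -- cutoffs
  have hKVc : ∀ a, IsClosed (K ∩ V a) := by
    intro a
    have h1 : K ∩ V a = K ∩ (⋃ b : Fin n, ⋃ _ : b ≠ a, V b)ᶜ := by
      ext x
      refine and_congr_right fun hx => ?_
      simp only [mem_compl_iff, mem_iUnion, not_exists]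
      constructor
      · intro h b hb hxb
        exact Set.disjoint_left.1 (hdis b a hb) hxb h
      · intro h
        obtain ⟨b, hb⟩ := mem_iUnion.1 (hKV hx)
        by_cases hba : b = a
        · exact hba ▸ hb
        · exact (h b hba hb).elim
    rw [h1]
    exact hKc.inter (isOpen_iUnion fun b => isOpen_iUnion fun _ => hVo b).isClosed_compl
  choose χ hχ1 hχ2 hχ3 hχ4 using fun a => exists_cutoff (hKVc a) (hVo a) inter_subset_right
  set G₂ : Set X.pt := ⋃ a, interior {x | χ a x = 1}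
  have hG₂o : IsOpen G₂ := isOpen_iUnion fun a => isOpen_interior
  have hχV : ∀ a, {x | χ a x = 1} ⊆ V a := fun a x hx => hχ4 a (subset_tsupport _ (by
    rw [Function.mem_support, show χ a x = 1 from hx]; exact one_ne_zero))
  have hKG₂ : K ⊆ G₂ := by
    intro x hx
    obtain ⟨a, ha⟩ := mem_iUnion.1 (hKV hx)
    refine mem_iUnion.2 ⟨a, ?_⟩
    rw [mem_interior_iff_mem_nhds]
    exact (hχ3 a).filter_mono (nhds_le_nhdsSet (show x ∈ K ∩ V a from ⟨hx, ha⟩))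
  obtain ⟨G₁, hG₁o, hKG₁, hG₁₂⟩ := normal_exists_closure_subset hKc hG₂o hKG₂
  have hG₂V : ∀ x ∈ G₂, ∃ a, x ∈ interior {x | χ a x = 1} ∧ x ∈ V a := by
    intro x hx
    obtain ⟨a, ha⟩ := mem_iUnion.1 hx
    exact ⟨a, ha, hχV a (interior_subset ha)⟩
  have hG₂O : G₂ ⊆ Bᶜ := fun x hx => by
    obtain ⟨a, -, ha⟩ := hG₂V x hx
    exact (hVU a ha).1.1.2
  have hG₂W : G₂ ⊆ W₁ := fun x hx => by
    obtain ⟨a, -, ha⟩ := hG₂V x hx
    exact hVW a ha
  -- the neighbourhood `N`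
  obtain ⟨N, hNc, hKSN, hNW⟩ := exists_closed_nhd hZc (U := Bᶜ ∩ (Ks \ G₁)ᶜ)
    (hVO.inter (hKs.sdiff hG₁o).isOpen_compl) (fun x hx => ⟨hKSO hx, fun h => h.2 (hKG₁ (by
      rw [hK1]; exact ⟨h.1, hx⟩))⟩)
  have hNO : N ⊆ Bᶜ := fun x hx => (hNW hx).1
  have hNK : N ∩ Ks ⊆ G₁ := by
    rintro x ⟨hx, hx'⟩
    by_contra h
    exact (hNW hx).2 ⟨hx', h⟩
  obtain ⟨m, F, cf, hF0, hF1, hFs, hFn, hFN, hcf1, hcf2, hcf3, hcf4, hFr⟩ := exists_tuple hP hS hS'
    (i := fun a => ix (c a)) hVP hdis hχ1 hχ4 hG₁o hG₁₂ isOpen_interior hZc hKSN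
  have eO : O ∩ v ⁻¹' (univ : Set X.pt) = O := by simp
  have hRadP : ∀ a, ∀ y ∈ O, v y ∈ G₁ → v y ∈ interior {x | χ a x = 1} →
      Rad (fun l y => F l (ix (c a)) (v y)) (fun y => s (ix (c a)) (v y))
        (fun y => s' (ix (c a)) (v y)) y cf := by
    intro a y hy hy1 hya
    refine ⟨hcf1, hcf2, hcf3, hcf4, ?_⟩
    have h1 := (hv.continuousAt hy).eventually (hFr a (v y) hy1 hya)
    have h2 : ∀ᶠ z in 𝓝 y, v z ∈ W₁ := (hv.continuousAt hy).eventually_mem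
      (hW₁.mem_nhds (hG₂W (mem_iUnion.2 ⟨a, hya⟩)))
    filter_upwards [h1, h2] with z hz hz'
    have h3 := hSs (v z) hz' (ix (c a))
    refine ⟨by rw [hF0]; exact h3.1, by rw [hF1]; exact h3.2, ?_, fun l hl => hz.2 l hl _⟩
    rw [hz.1, h3.1, h3.2]
  refine ⟨m, fun l i y => F l i (v y), O ∩ v ⁻¹' N, ?_, inter_subset_left,
    hv.proper N hNc (Set.disjoint_left.2 fun x hx hx' => hNO hx hx'), ?_, ?_⟩
  · refine ⟨fun l => ?_, fun y hy i hi => hFn (v y) (mem_univ _) i hi⟩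
    have := (hFs l).pullP hv
    rwa [eO] at this
  · intro y hy hyN i _ l hl
    exact hFN (v y) (fun h => hyN ⟨hy, show v y ∈ N from interior_subset h⟩) l hl i
  -- the second tuple
  intro C hCO hC hCK
  have hvC : IsClosed (v '' C) := (hC.image_of_continuousOn (hv.cont.mono hCO)).isClosed
  obtain ⟨τ, τ', E, hτ, hτ', hτB, hτc, hEc, hED, hτE, hτσ⟩ := exists_mod hQ hB hBc hf.isOpen hσ hσ'
    hKs (D := v '' C ∪ N ∪ closure G₁) ((hvC.union hNc).union isClosed_closure) (by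
      rw [Set.disjoint_left]
      rintro x ((hx | hx) | hx) hxB
      · obtain ⟨y, hy, rfl⟩ := hx
        exact hv.maps y (hCO hy) hxB
      · exact hNO hx hxB
      · exact hG₂O (hG₁₂ hx) hxB)
  set Kτ := Zs2 Q G τ τ'
  have hKτO : Kτ ⊆ Bᶜ := fun x hx h => Set.disjoint_left.1 hτB hx h
  have hKτG : Kτ ⊆ G := fun x hx => hx.1
  have hKτC : Disjoint Kτ (v '' C) := by
    rw [Set.disjoint_left]
    intro x hx hxC
    rcases hτE hx with h | h
    · exact Set.disjoint_left.1 hCK hxC h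
    · exact Set.disjoint_left.1 hED h (Or.inl (Or.inl hxC))
  have hKτN : Kτ ∩ N ⊆ G₁ := by
    rintro x ⟨hx, hxN⟩
    rcases hτE hx with h | h
    · exact hNK ⟨hxN, h⟩
    · exact (Set.disjoint_left.1 hED h (Or.inl (Or.inr hxN))).elim
  obtain ⟨N', hN'c, hKN', hN'W⟩ := exists_closed_nhd hτc
    (U := G ∩ Bᶜ ∩ ((v '' C)ᶜ ∩ (N \ G₁)ᶜ))
    ((hf.isOpen.inter hVO).inter (hvC.isOpen_compl.inter (hNc.sdiff hG₁o).isOpen_compl))
    (fun x hx => ⟨⟨hKτG hx, hKτO hx⟩, fun h => Set.disjoint_left.1 hKτC hx h,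
      fun h => h.2 (hKτN ⟨hx, h.1⟩)⟩)
  obtain ⟨m', F', cf', hF0', hF1', hFs', hFn', hFN', hcf1', hcf2', hcf3', hcf4', hFr'⟩ :=
    exists_tuple hQ hτ hτ' (i := fun a => jx (c a)) hVQ hdis hχ1 hχ4 hG₁o hG₁₂ isOpen_interior
      hτc hKN'
  have hRadQ : ∀ a, ∀ y ∈ O, v y ∈ G₁ → v y ∈ interior {x | χ a x = 1} →
      Rad (fun l y => F' l (jx (c a)) (v y)) (fun y => σ (jx (c a)) (v y))
        (fun y => σ' (jx (c a)) (v y)) y cf' := by
    intro a y hy hy1 hya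
    refine ⟨hcf1', hcf2', hcf3', hcf4', ?_⟩
    have h1 := (hv.continuousAt hy).eventually (hFr' a (v y) hy1 hya)
    have h2 : ∀ᶠ z in 𝓝 y, v z ∈ G₁ := (hv.continuousAt hy).eventually_mem (hG₁o.mem_nhds hy1)
    filter_upwards [h1, h2] with z hz hz'
    have h3 := hτσ (v z) (fun h => Set.disjoint_left.1 hED h (Or.inr (subset_closure hz')))
      (jx (c a))
    refine ⟨by rw [hF0']; exact h3.1, by rw [hF1']; exact h3.2, ?_, fun l hl => hz.2 l hl _⟩
    rw [hz.1, h3.1, h3.2]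
  have hN'O : N' ⊆ Bᶜ := fun x hx => (hN'W hx).1.2
  refine ⟨m', fun l i y => F' l i (v y), O ∩ v ⁻¹' N', ⟨fun l => (hFs' l).pullP hv,
    fun y hy i hi => hFn' (v y) hy.2 i hi⟩, fun y hy => ⟨hy.1, (hN'W hy.2).1.1⟩,
    hv.proper N' hN'c (Set.disjoint_left.2 fun x hx hx' => hN'O hx hx'), ?_, ?_, ?_, ?_⟩
  · rw [Set.disjoint_left]
    intro y hy hyC
    exact (hN'W hy.2).2.1 (mem_image_of_mem v hyC)
  · intro y hy hyN i _ l hl
    exact hFN' (v y) (fun h => hyN ⟨hy.1, show v y ∈ N' from interior_subset h⟩) l hl i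
  · rintro y ⟨hy, hy'⟩
    have hyG₁ : v y ∈ G₁ := by
      by_contra h
      exact (hN'W hy'.2).2.2 ⟨hy.2, h⟩
    obtain ⟨a, ha, haV⟩ := hG₂V (v y) (hG₁₂ (subset_closure hyG₁))
    exact ⟨ix (c a), jx (c a), cf, cf', (hVP a haV).2, (hVQ a haV).2, hRadP a y hy.1 hyG₁ ha,
      hRadQ a y hy.1 hyG₁ ha⟩
  · have hyG₁ : x₀ ∈ G₁ := hKG₁ hx₀K
    obtain ⟨a, ha, haV⟩ := hG₂V x₀ (hG₁₂ (subset_closure hyG₁))
    have hca : c a = x₀ := hc0 a haV
    have e1 : ix (c a) = i₀ := by simp only [ix, if_pos hca]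
    have e2 : jx (c a) = j₀ := by simp only [jx, if_pos hca]
    refine ⟨i₀, j₀, cf, cf', hi₀, hj₀, ?_, hjac⟩
    filter_upwards [hG₁o.mem_nhds hyG₁, isOpen_interior.mem_nhds ha] with x hx1 hx2
    rintro y hy rfl
    have r1 := hRadP a y hy hx1 hx2
    have r2 := hRadQ a y hy hx1 hx2
    rw [e1] at r1
    rw [e2] at r2
    exact ⟨r1, r2⟩

end Vale.Agent.P277
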