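import Vale.Agent.P277.Stmts11
import Vale.Agent.P277.H19.DivL
import Mathlib.Analysis.Calculus.InverseFunctionTheorem.ContDiff
import Mathlib.Analysis.Calculus.FDeriv.Analytic

/-!
# P277, (FAC): the standard case
-/

set_option linter.unusedSectionVars false

open scoped Manifold ContDiff Topology
open Vale.Agent.P272.K Vale.Agent.P285.H281.FD Vale.Agent.P267.H175 Set Metric Filter
open Vale.Agent.P277.T3

noncomputable section

namespace Vale.Agent.P277.H29.FC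

/-- partial derivatives -/
def pd (j : Fin 4) (h : Cm 4 → ℂ) (w : Cm 4) : ℂ := fderiv ℂ h w (Pi.single j 1)

/-- Jacobian matrix -/
def Jm (γ : Cm 4 → Cm 4) (w : Cm 4) : Matrix (Fin 4) (Fin 4) ℂ :=
  Matrix.of fun i j => fderiv ℂ γ w (Pi.single j 1) i

theorem det_eq_Jm (γ : Cm 4 → Cm 4) (w : Cm 4) : (fderiv ℂ γ w).det = (Jm γ w).det := by
  have h : LinearMap.toMatrix' (fderiv ℂ γ w : Cm 4 →ₗ[ℂ] Cm 4) = Jm γ w := by
    ext i j
    rw [LinearMap.toMatrix'_apply]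
    rfl
  rw [← h, LinearMap.det_toMatrix']

theorem Jm_apply {γ : Cm 4 → Cm 4} {w : Cm 4} (h : DifferentiableAt ℂ γ w) (i j : Fin 4) :
    Jm γ w i j = pd j (fun w => γ w i) w := by
  have h1 := (hasFDerivAt_pi'.1 h.hasFDerivAt i).fderiv
  rw [pd, h1]
  rfl

theorem pd_congr {f f' : Cm 4 → ℂ} {w : Cm 4} (h : f =ᶠ[𝓝 w] f') (j : Fin 4) :
    pd j f w = pd j f' w := by
  rw [pd, pd, h.fderiv_eq]

theorem pd_mul {f f' : Cm 4 → ℂ} {w : Cm 4} (h : DifferentiableAt ℂ f w)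
    (h' : DifferentiableAt ℂ f' w) (j : Fin 4) :
    pd j (fun w => f w * f' w) w = f w * pd j f' w + pd j f w * f' w := by
  rw [pd, fderiv_fun_mul h h']
  show f w * fderiv ℂ f' w _ + f' w * fderiv ℂ f w _ = _
  rw [pd, pd]
  ring

theorem pd_add {f f' : Cm 4 → ℂ} {w : Cm 4} (h : DifferentiableAt ℂ f w)
    (h' : DifferentiableAt ℂ f' w) (j : Fin 4) :
    pd j (fun w => f w + f' w) w = pd j f w + pd j f' w := by
  rw [pd, fderiv_fun_add h h']
  rfl

theorem pd_pow {f : Cm 4 → ℂ} {w : Cm 4} (h : DifferentiableAt ℂ f w) (n : ℕ) (j : Fin 4) :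
    pd j (fun w => f w ^ n) w = n * f w ^ (n - 1) * pd j f w := by
  rw [pd, fderiv_fun_pow n h]
  show (n • f w ^ (n - 1)) • fderiv ℂ f w _ = _
  rw [nsmul_eq_mul, smul_eq_mul]
  rfl

theorem pd_coord (i j : Fin 4) (w : Cm 4) :
    pd j (fun w : Cm 4 => w i) w = if i = j then 1 else 0 := by
  have h : HasFDerivAt (fun w : Cm 4 => w i) (ContinuousLinearMap.proj (R := ℂ)
      (φ := fun _ : Fin 4 => ℂ) i) w := (ContinuousLinearMap.proj (R := ℂ)
      (φ := fun _ : Fin 4 => ℂ) i).hasFDerivAt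
  rw [pd, h.fderiv]
  show (Pi.single j (1 : ℂ) : Fin 4 → ℂ) i = _
  rw [Pi.single_apply]

theorem an_coord (i : Fin 4) (w : Cm 4) : AnalyticAt ℂ (fun w : Cm 4 => w i) w :=
  (ContinuousLinearMap.proj (R := ℂ) (φ := fun _ : Fin 4 => ℂ) i).analyticAt w

theorem an_pd {f : Cm 4 → ℂ} {w : Cm 4} (h : AnalyticAt ℂ f w) (j : Fin 4) :
    AnalyticAt ℂ (pd j f) w := by
  have h1 := h.fderiv
  exact ((ContinuousLinearMap.apply ℂ ℂ (Pi.single j 1 : Cm 4)).analyticAt _).comp h1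

theorem an_pi {f : Cm 4 → Cm 4} {w : Cm 4} (h : ∀ i, AnalyticAt ℂ (fun w => f w i) w) :
    AnalyticAt ℂ f w := analyticAt_pi_iff.2 h

theorem an_comp_coord {f : Cm 4 → Cm 4} {w : Cm 4} (h : AnalyticAt ℂ f w) (i : Fin 4) :
    AnalyticAt ℂ (fun w => f w i) w := analyticAt_pi_iff.1 h i

/-- determinant of a matrix whose last rows are trivial -/
theorem det4 {M : Matrix (Fin 4) (Fin 4) ℂ} (h2 : ∀ j, M 2 j = if 2 = j then 1 else 0)
    (h3 : ∀ j, M 3 j = if 3 = j then 1 else 0) : M.det = M 0 0 * M 1 1 - M 0 1 * M 1 0 := by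
  have e : M = !![M 0 0, M 0 1, M 0 2, M 0 3; M 1 0, M 1 1, M 1 2, M 1 3; 0, 0, 1, 0;
      0, 0, 0, 1] := by
    ext i j
    fin_cases i <;> fin_cases j <;> simp [h2, h3]
  rw [e]
  have e3 : (Fin.succAbove (1 : Fin 4) (2 : Fin 3)) = 3 := by decide
  simp [Matrix.det_succ_row_zero, Fin.sum_univ_succ, e3]
  ring

theorem eq_of_ne {F G : Cm 4 → ℂ} {w : Cm 4} (hF : ContinuousAt F w) (hG : ContinuousAt G w)
    (h : ∀ᶠ z in 𝓝 w, z 0 ≠ 0 → F z = G z) : F w = G w := by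
  have ht : Tendsto (fun t : ℂ => w + t • (Pi.single 0 1 : Cm 4)) (𝓝[≠] 0) (𝓝 w) := by
    have : Continuous fun t : ℂ => w + t • (Pi.single 0 1 : Cm 4) := by fun_prop
    have h1 := this.tendsto 0
    rw [zero_smul, add_zero] at h1
    exact h1.mono_left nhdsWithin_le_nhds
  have h1 : ∀ᶠ t in 𝓝[≠] (0 : ℂ), F (w + t • (Pi.single 0 1 : Cm 4)) =
      G (w + t • (Pi.single 0 1 : Cm 4)) := by
    have hz : ∀ᶠ t in 𝓝[≠] (0 : ℂ), (w + t • (Pi.single 0 1 : Cm 4)) 0 ≠ 0 := by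
      have e1 : ∀ t : ℂ, (w + t • (Pi.single 0 1 : Cm 4)) 0 = w 0 + t := fun t => by simp
      simp only [e1]
      by_cases hw : w 0 = 0
      · filter_upwards [self_mem_nhdsWithin] with t ht
        rw [hw, zero_add]
        exact ht
      · have : ∀ᶠ t in 𝓝 (0 : ℂ), w 0 + t ≠ 0 :=
          (continuous_const.add continuous_id).continuousAt.eventually_ne (by simpa using hw)
        exact this.filter_mono nhdsWithin_le_nhds
    filter_upwards [ht.eventually h, hz] with t h1 h2 using h1 h2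
  exact tendsto_nhds_unique_of_eventuallyEq (hF.tendsto.comp ht) (hG.tendsto.comp ht) h1

theorem ev_eq_of_ne {F G : Cm 4 → ℂ} {w : Cm 4} (hF : AnalyticAt ℂ F w) (hG : AnalyticAt ℂ G w)
    (h : ∀ᶠ z in 𝓝 w, z 0 ≠ 0 → F z = G z) : ∀ᶠ z in 𝓝 w, F z = G z := by
  filter_upwards [hF.eventually_analyticAt, hG.eventually_analyticAt, h.eventually_nhds] with
    z h1 h2 h3
  exact eq_of_ne h1.continuousAt h2.continuousAt h3

/-- a function with zero derivative in the direction `1` along `{w 0 = 0}` -/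
theorem const_dir {c : Cm 4 → ℂ} {w₁ : Cm 4} (hc : AnalyticAt ℂ c w₁) (h0 : w₁ 0 = 0)
    (h1 : ∀ᶠ w in 𝓝 w₁, w 0 = 0 → pd 1 c w = 0) :
    ∀ᶠ w in 𝓝 w₁, w 0 = 0 → c w = c ![0, w₁ 1, w 2, w 3] := by
  obtain ⟨r, hr, hb⟩ := Metric.eventually_nhds_iff_ball.1 (hc.eventually_analyticAt.and h1)
  filter_upwards [ball_mem_nhds w₁ hr] with w hw hw0
  have hmem : ∀ s ∈ ball (w₁ 1) r, (![0, s, w 2, w 3] : Cm 4) ∈ ball w₁ r := by
    intro s hs
    rw [mem_ball, dist_pi_lt_iff hr]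
    intro i
    rw [mem_ball, dist_pi_lt_iff hr] at hw
    fin_cases i
    · simpa [h0] using hr
    · exact hs
    · exact hw 2
    · exact hw 3
  have hd : ∀ s ∈ ball (w₁ 1) r, HasDerivAt (fun s : ℂ => c ![0, s, w 2, w 3])
      (pd 1 c ![0, s, w 2, w 3]) s := by
    intro s hs
    have h2 : HasDerivAt (fun s : ℂ => (![0, s, w 2, w 3] : Cm 4)) (Pi.single 1 1) s := by
      rw [hasDerivAt_pi]
      intro i
      fin_cases i
      · exact hasDerivAt_const s (0 : ℂ)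
      · exact hasDerivAt_id s
      · exact hasDerivAt_const s (w 2)
      · exact hasDerivAt_const s (w 3)
    exact (hb _ (hmem s hs)).1.differentiableAt.hasFDerivAt.comp_hasDerivAt s h2
  have h3 : c ![0, w 1, w 2, w 3] = c ![0, w₁ 1, w 2, w 3] := by
    refine isOpen_ball.is_const_of_deriv_eq_zero (convex_ball (w₁ 1) r).isPreconnected
      (fun s hs => (hd s hs).differentiableAt.differentiableWithinAt)
      (fun s hs => ?_) (x := w 1) (y := w₁ 1) ?_ (mem_ball_self hr)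
    · rw [(hd s hs).deriv]
      exact (hb _ (hmem s hs)).2 rfl
    · exact (dist_le_pi_dist w w₁ 1).trans_lt hw
  rw [← h3]
  congr 1
  funext i
  fin_cases i
  · exact hw0
  · rfl
  · rfl
  · rfl

end Vale.Agent.P277.H29.FC
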