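import Vale.Agent.P277.H29.Fac1

/-!
# P277, (FAC): the standard case, continued
-/

set_option linter.unusedSectionVars false

open scoped Manifold ContDiff Topology
open Vale.Agent.P272.K Vale.Agent.P285.H281.FD Vale.Agent.P267.H175 Set Metric Filter
open Vale.Agent.P277.T3

noncomputable section

namespace Vale.Agent.P277.H29.FC

/-- The conclusion of (FAC) at `w₂`. -/
def Nf (γ : Cm 4 → Cm 4) (g : ℕ) (w₂ : Cm 4) : Prop :=
  w₂ 0 = 0 ∧ ∃ ψ Ψ : Cm 4 → Cm 4, LocIso ψ w₂ ∧
        LocIso Ψ (bet g (ψ w₂)) ∧ (∀ᶠ w in 𝓝 w₂, ψ w 0 = 0 ↔ w 0 = 0) ∧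
        (∀ᶠ z in 𝓝 (bet g (ψ w₂)), Ψ z 0 = 0 ↔ z 0 = 0) ∧
        ∀ᶠ w in 𝓝 w₂, γ w = Ψ (bet g (ψ w))

theorem locIso_of {ψ : Cm 4 → Cm 4} {w : Cm 4} (h : AnalyticAt ℂ ψ w) (h' : (Jm ψ w).det ≠ 0) :
    LocIso ψ w := ⟨h, by rwa [det_eq_Jm]⟩

/-- partial derivatives of `w 0 ^ g * u` -/
theorem pd_pow_mul {g : ℕ} {u : Cm 4 → ℂ} {w : Cm 4} (hu : AnalyticAt ℂ u w) (j : Fin 4) :
    pd j (fun w => w 0 ^ (g + 1) * u w) w =
      w 0 ^ g * ((if 0 = j then (g + 1 : ℂ) * u w else 0) + w 0 * pd j u w) := by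
  have h0 := (an_coord 0 w).differentiableAt
  rw [pd_mul (h0.fun_pow _) hu.differentiableAt, pd_pow h0, pd_coord]
  push_cast
  split_ifs <;> simp <;> ring

theorem core2 {γ : Cm 4 → Cm 4} {w₁ : Cm 4} (hγ : AnalyticAt ℂ γ w₁) (h0 : w₁ 0 = 0) {g : ℕ}
    {u u' : Cm 4 → ℂ} (hu : AnalyticAt ℂ u w₁) (hu' : AnalyticAt ℂ u' w₁) (hun : u w₁ ≠ 0)
    (hun' : u' w₁ ≠ 0) (h1 : ∀ᶠ w in 𝓝 w₁, γ w 0 = w 0 ^ (g + 1) * u w)
    (h2 : ∀ᶠ w in 𝓝 w₁, γ w 2 = w 2) (h3 : ∀ᶠ w in 𝓝 w₁, γ w 3 = w 3)
    (hJ : ∀ᶠ w in 𝓝 w₁, (fderiv ℂ γ w).det = w 0 ^ (g + 1) * u' w) :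
    ∃ᶠ w₂ in 𝓝 w₁, Nf γ (g + 1) w₂ := by
  set c : Cm 4 → ℂ := fun w => γ w 1 with hcdef
  have hc : AnalyticAt ℂ c w₁ := an_comp_coord hγ 1
  -- the determinant
  have hdet : ∀ᶠ w in 𝓝 w₁, w 0 * u' w = ((g + 1 : ℂ) * u w + w 0 * pd 0 u w) * pd 1 c w -
      w 0 * pd 1 u w * pd 0 c w := by
    refine ev_eq_of_ne ((an_coord 0 w₁).mul hu') ?_ ?_
    · exact (((analyticAt_const.mul hu).add ((an_coord 0 w₁).mul (an_pd hu 0))).mul
        (an_pd hc 1)).sub (((an_coord 0 w₁).mul (an_pd hu 1)).mul (an_pd hc 0))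
    · filter_upwards [hγ.eventually_analyticAt, hu.eventually_analyticAt, h1.eventually_nhds,
        h2.eventually_nhds, h3.eventually_nhds, hJ] with w e1 e2 e3 e4 e5 e6 hw
      rw [det_eq_Jm, det4] at e6
      · rw [Jm_apply e1.differentiableAt, Jm_apply e1.differentiableAt,
          Jm_apply e1.differentiableAt, Jm_apply e1.differentiableAt, pd_congr e3, pd_congr e3,
          pd_pow_mul e2, pd_pow_mul e2, if_pos rfl, if_neg (by decide), zero_add] at e6
        have hw' : w 0 ^ g ≠ 0 := pow_ne_zero _ hw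
        refine mul_left_cancel₀ hw' ?_
        rw [← hcdef] at e6
        calc w 0 ^ g * (w 0 * u' w) = w 0 ^ (g + 1) * u' w := by ring
          _ = _ := by rw [← e6]; ring
      · intro j
        rw [Jm_apply e1.differentiableAt, pd_congr e4, pd_coord]
      · intro j
        rw [Jm_apply e1.differentiableAt, pd_congr e5, pd_coord]
  -- `c` does not depend on `w 1` on `{w 0 = 0}`
  have hc1 : ∀ᶠ w in 𝓝 w₁, w 0 = 0 → pd 1 c w = 0 := by
    filter_upwards [hdet, hu.continuousAt.eventually_ne hun] with w e1 e2 hw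
    rw [hw, zero_mul, zero_mul, zero_mul, zero_mul, add_zero, sub_zero] at e1
    rcases mul_eq_zero.1 e1.symm with h | h
    · rcases mul_eq_zero.1 h with h | h
      · exact absurd h (Nat.cast_add_one_ne_zero g)
      · exact absurd h e2
    · exact h
  have hcv := const_dir hc h0 hc1
  set pr : Cm 4 → Cm 4 := fun w => ![0, w₁ 1, w 2, w 3] with hpr
  have hprw : pr w₁ = w₁ := by
    funext i
    fin_cases i
    · exact h0.symm
    · rfl
    · rfl
    · rfl
  have hpra : ∀ w, AnalyticAt ℂ pr w := by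
    intro w
    refine an_pi fun i => ?_
    fin_cases i
    · exact analyticAt_const
    · exact analyticAt_const
    · exact an_coord 2 w
    · exact an_coord 3 w
  have hprt : Tendsto pr (𝓝 w₁) (𝓝 w₁) := by
    have := (hpra w₁).continuousAt
    rwa [ContinuousAt, hprw] at this
  set v : Cm 4 → ℂ := fun w => c (pr w) with hv
  have hva : ∀ᶠ w in 𝓝 w₁, AnalyticAt ℂ v w := by
    filter_upwards [hprt.eventually hc.eventually_analyticAt] with w e1
    exact e1.comp (hpra w)
  have hvpd : ∀ j : Fin 4, (j = 0 ∨ j = 1) → ∀ᶠ w in 𝓝 w₁, pd j v w = 0 := by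
    intro j hj
    filter_upwards [hprt.eventually hc.eventually_analyticAt] with w e1
    have e2 : HasFDerivAt v ((fderiv ℂ c (pr w)).comp (fderiv ℂ pr w)) w :=
      e1.differentiableAt.hasFDerivAt.comp w (hpra w).differentiableAt.hasFDerivAt
    rw [pd, e2.fderiv]
    show fderiv ℂ c (pr w) (fderiv ℂ pr w (Pi.single j 1)) = 0
    have e3 : fderiv ℂ pr w (Pi.single j 1) = 0 := by
      funext i
      have e4 : fderiv ℂ pr w (Pi.single j 1) i = pd j (fun w => pr w i) w := by
        rw [← Jm_apply (hpra w).differentiableAt]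
        rfl
      rw [e4]
      fin_cases i
      · show fderiv ℂ (fun w : Cm 4 => (0 : ℂ)) w _ = 0
        rw [fderiv_fun_const]
        rfl
      · show fderiv ℂ (fun w : Cm 4 => w₁ 1) w _ = 0
        rw [fderiv_fun_const]
        rfl
      · show pd j (fun w : Cm 4 => w 2) w = 0
        rw [pd_coord, if_neg]
        rintro rfl
        rcases hj with h | h <;> exact absurd h (by decide)
      · show pd j (fun w : Cm 4 => w 3) w = 0
        rw [pd_coord, if_neg]
        rintro rfl
        rcases hj with h | h <;> exact absurd h (by decide)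
    rw [e3, map_zero]
  obtain ⟨b, hb, hcb⟩ := H19.exists_div (f := fun w => c w - v w) (hc.sub hva.self_of_nhds) h0 (by
    filter_upwards [hcv] with w e1 e2
    rw [e1 e2]
    exact sub_self _)
  have hcb' : ∀ᶠ w in 𝓝 w₁, c w = v w + w 0 * b w := by
    filter_upwards [hcb] with w e1
    rw [← e1]
    ring
  -- the key identity
  have hkey : ∀ᶠ w in 𝓝 w₁, u' w = ((g + 1 : ℂ) * u w + w 0 * pd 0 u w) * pd 1 b w -
      pd 1 u w * (b w + w 0 * pd 0 b w) := by
    refine ev_eq_of_ne hu' ?_ ?_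
    · exact (((analyticAt_const.mul hu).add ((an_coord 0 w₁).mul (an_pd hu 0))).mul
        (an_pd hb 1)).sub ((an_pd hu 1).mul (hb.add ((an_coord 0 w₁).mul (an_pd hb 0))))
    · filter_upwards [hdet, hcb'.eventually_nhds, hva, hb.eventually_analyticAt,
        hvpd 0 (Or.inl rfl), hvpd 1 (Or.inr rfl)] with w e1 e2 e3 e4 e5 e6 hw
      have hw0 := (an_coord 0 w).differentiableAt
      have f1 : pd 1 c w = w 0 * pd 1 b w := by
        rw [pd_congr e2, pd_add e3.differentiableAt (hw0.fun_mul e4.differentiableAt),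
          pd_mul hw0 e4.differentiableAt, e6, pd_coord, if_neg (by decide)]
        ring
      have f0 : pd 0 c w = b w + w 0 * pd 0 b w := by
        rw [pd_congr e2, pd_add e3.differentiableAt (hw0.fun_mul e4.differentiableAt),
          pd_mul hw0 e4.differentiableAt, e5, pd_coord, if_pos rfl]
        ring
      rw [f1, f0] at e1
      refine mul_left_cancel₀ hw ?_
      rw [e1]
      ring
  -- `b` does not vanish on `{w 0 = 0}`
  have hfreq : ∃ᶠ w in 𝓝 w₁, w 0 = 0 ∧ b w ≠ 0 := by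
    intro hcon
    have hz : ∀ᶠ w in 𝓝 w₁, w 0 = 0 → b w = 0 := by
      filter_upwards [hcon] with w e1 e2
      by_contra e3
      exact e1 ⟨e2, e3⟩
    have e1 := hkey.self_of_nhds
    have hb0 : b w₁ = 0 := hz.self_of_nhds h0
    have hb1 : pd 1 b w₁ = 0 := by
      have e2 : HasDerivAt (fun s : ℂ => b (w₁ + s • (Pi.single 1 1 : Cm 4))) (pd 1 b w₁) 0 := by
        have e3 : HasDerivAt (fun s : ℂ => w₁ + s • (Pi.single 1 1 : Cm 4)) (Pi.single 1 1) 0 := by
          have := ((hasDerivAt_id (0 : ℂ)).smul_const (Pi.single 1 1 : Cm 4)).const_add w₁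
          simpa using this
        have e4 : HasFDerivAt b (fderiv ℂ b w₁) (w₁ + (0 : ℂ) • (Pi.single 1 1 : Cm 4)) := by
          rw [zero_smul, add_zero]
          exact hb.differentiableAt.hasFDerivAt
        exact e4.comp_hasDerivAt (0 : ℂ) e3
      have e5 : (fun s : ℂ => b (w₁ + s • (Pi.single 1 1 : Cm 4))) =ᶠ[𝓝 0] fun _ => 0 := by
        have e6 : Tendsto (fun s : ℂ => w₁ + s • (Pi.single 1 1 : Cm 4)) (𝓝 0) (𝓝 w₁) := by
          have : Continuous fun s : ℂ => w₁ + s • (Pi.single 1 1 : Cm 4) := by fun_prop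
          have h := this.tendsto 0
          rwa [zero_smul, add_zero] at h
        filter_upwards [e6.eventually hz] with s hs
        refine hs ?_
        simp [h0]
      exact e2.unique ((hasDerivAt_const (0 : ℂ) (0 : ℂ)).congr_of_eventuallyEq e5)
    rw [hb0, hb1, h0] at e1
    apply hun'
    rw [e1]
    ring
  -- the normal form
  refine (hfreq.and_eventually ((hu.eventually_analyticAt.and hb.eventually_analyticAt).and
    ((hprt.eventually hc.eventually_analyticAt).and ((hkey.and (hu'.continuousAt.eventually_ne hun')).and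
    (hcb'.eventually_nhds.and (h1.eventually_nhds.and (h2.eventually_nhds.and
      h3.eventually_nhds))))))).mono ?_
  rintro w₂ ⟨⟨hw0, hbw⟩, ⟨hua, hba⟩, hca, ⟨hk, hk'⟩, k1, k2, k3, k4⟩
  refine ⟨hw0, fun w => ![w 0 * b w, u w / b w ^ (g + 1), w 2, w 3],
    fun z => ![z 0, z 1 + v z, z 2, z 3], ?_, ?_, ?_, ?_, ?_⟩
  · -- `ψ`
    have hq : AnalyticAt ℂ (fun w => u w / b w ^ (g + 1)) w₂ :=
      hua.div (hba.pow _) (pow_ne_zero _ hbw)
    have hψ : AnalyticAt ℂ (fun w : Cm 4 => (![w 0 * b w, u w / b w ^ (g + 1), w 2, w 3] : Cm 4))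
        w₂ := by
      refine an_pi fun i => ?_
      fin_cases i
      · exact (an_coord 0 w₂).mul hba
      · exact hq
      · exact an_coord 2 w₂
      · exact an_coord 3 w₂
    refine locIso_of hψ ?_
    have hd := hψ.differentiableAt
    rw [det4]
    · rw [Jm_apply hd, Jm_apply hd, Jm_apply hd, Jm_apply hd]
      show pd 0 (fun w : Cm 4 => w 0 * b w) w₂ * pd 1 (fun w => u w / b w ^ (g + 1)) w₂ -
        pd 1 (fun w : Cm 4 => w 0 * b w) w₂ * pd 0 (fun w => u w / b w ^ (g + 1)) w₂ ≠ 0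
      rw [pd_mul (an_coord 0 w₂).differentiableAt hba.differentiableAt,
        pd_mul (an_coord 0 w₂).differentiableAt hba.differentiableAt, pd_coord, pd_coord,
        if_pos rfl, if_neg (by decide), hw0]
      have e1 : pd 1 u w₂ = pd 1 (fun w => u w / b w ^ (g + 1)) w₂ * b w₂ ^ (g + 1) +
          u w₂ / b w₂ ^ (g + 1) * ((g + 1 : ℂ) * b w₂ ^ g * pd 1 b w₂) := by
        have e2 : u =ᶠ[𝓝 w₂] fun w => (u w / b w ^ (g + 1)) * b w ^ (g + 1) := by
          filter_upwards [hba.continuousAt.eventually_ne hbw] with w hw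
          rw [div_mul_cancel₀ _ (pow_ne_zero _ hw)]
        rw [pd_congr e2, pd_mul hq.differentiableAt (hba.differentiableAt.fun_pow _),
          pd_pow hba.differentiableAt]
        rw [Nat.add_sub_cancel]
        push_cast
        ring
      intro hcon
      rw [zero_mul, zero_mul, zero_mul, zero_add, zero_add, zero_mul, sub_zero, one_mul] at hcon
      rcases mul_eq_zero.1 hcon with h | h
      · exact hbw h
      · rw [h, zero_mul, zero_add] at e1
        rw [hw0, zero_mul, zero_mul, add_zero, add_zero, e1] at hk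
        apply hk'
        rw [hk]
        field_simp
        ring
    · intro j
      rw [Jm_apply hd]
      exact pd_coord 2 j w₂
    · intro j
      rw [Jm_apply hd]
      exact pd_coord 3 j w₂
  · -- `Ψ`
    set z₂ := bet (g + 1) (![w₂ 0 * b w₂, u w₂ / b w₂ ^ (g + 1), w₂ 2, w₂ 3] : Cm 4) with hz₂
    have hprz : pr z₂ = pr w₂ := rfl
    have hvz : AnalyticAt ℂ v z₂ := by
      refine AnalyticAt.comp (g := c) ?_ (hpra z₂)
      rw [hprz]
      exact hca
    have hΨ : AnalyticAt ℂ (fun z : Cm 4 => (![z 0, z 1 + v z, z 2, z 3] : Cm 4)) z₂ := by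
      refine an_pi fun i => ?_
      fin_cases i
      · exact an_coord 0 z₂
      · exact (an_coord 1 z₂).add hvz
      · exact an_coord 2 z₂
      · exact an_coord 3 z₂
    refine locIso_of hΨ ?_
    have hd := hΨ.differentiableAt
    rw [det4]
    · rw [Jm_apply hd, Jm_apply hd, Jm_apply hd, Jm_apply hd]
      show pd 0 (fun z : Cm 4 => z 0) z₂ * pd 1 (fun z => z 1 + v z) z₂ -
        pd 1 (fun z : Cm 4 => z 0) z₂ * pd 0 (fun z => z 1 + v z) z₂ ≠ 0
      rw [pd_add (an_coord 1 z₂).differentiableAt hvz.differentiableAt, pd_coord, pd_coord,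
        pd_coord, if_pos rfl, if_pos rfl, if_neg (by decide)]
      have e1 : pd 1 v z₂ = 0 := by
        have e2 : HasFDerivAt v ((fderiv ℂ c (pr z₂)).comp (fderiv ℂ pr z₂)) z₂ := by
          refine HasFDerivAt.comp z₂ (g := c) ?_ (hpra z₂).differentiableAt.hasFDerivAt
          rw [hprz]
          exact hca.differentiableAt.hasFDerivAt
        rw [pd, e2.fderiv]
        show fderiv ℂ c (pr z₂) (fderiv ℂ pr z₂ (Pi.single 1 1)) = 0
        have e3 : fderiv ℂ pr z₂ (Pi.single 1 1) = 0 := by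
          funext i
          have e4 : fderiv ℂ pr z₂ (Pi.single 1 1) i = pd 1 (fun w => pr w i) z₂ := by
            rw [← Jm_apply (hpra z₂).differentiableAt]
            rfl
          rw [e4]
          fin_cases i
          · show fderiv ℂ (fun w : Cm 4 => (0 : ℂ)) z₂ _ = 0
            rw [fderiv_fun_const]
            rfl
          · show fderiv ℂ (fun w : Cm 4 => w₁ 1) z₂ _ = 0
            rw [fderiv_fun_const]
            rfl
          · show pd 1 (fun w : Cm 4 => w 2) z₂ = 0
            rw [pd_coord, if_neg (by decide)]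
          · show pd 1 (fun w : Cm 4 => w 3) z₂ = 0
            rw [pd_coord, if_neg (by decide)]
        rw [e3, map_zero]
      rw [e1]
      simp
    · intro j
      rw [Jm_apply hd]
      exact pd_coord 2 j z₂
    · intro j
      rw [Jm_apply hd]
      exact pd_coord 3 j z₂
  · filter_upwards [hba.continuousAt.eventually_ne hbw] with w hw
    show w 0 * b w = 0 ↔ w 0 = 0
    simp [hw]
  · exact Eventually.of_forall fun z => Iff.rfl
  · filter_upwards [k1, k2, k3, k4, hba.continuousAt.eventually_ne hbw] with w e1 e2 e3 e4 e5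
    funext i
    fin_cases i
    · show γ w 0 = (w 0 * b w) ^ (g + 1) * (u w / b w ^ (g + 1))
      rw [e2, mul_pow]
      field_simp
    · show c w = w 0 * b w + v w
      rw [e1]
      ring
    · exact e3
    · exact e4

end Vale.Agent.P277.H29.FC
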