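import Vale.Agent.P277.H29.Fac2

/-!
# P277, (FAC): the general case
-/

set_option linter.unusedSectionVars false

open scoped Manifold ContDiff Topology
open Vale.Agent.P272.K Vale.Agent.P285.H281.FD Vale.Agent.P267.H175 Set Metric Filter
open Vale.Agent.P277.T3

noncomputable section

namespace Vale.Agent.P277.H29.FC

theorem LocIso.congr {φ φ' : Cm 4 → Cm 4} {w : Cm 4} (h : LocIso φ w) (h' : φ =ᶠ[𝓝 w] φ') :
    LocIso φ' w := ⟨h.1.congr h', by rw [← h'.fderiv_eq]; exact h.2⟩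

theorem LocIso.comp {φ θ : Cm 4 → Cm 4} {w : Cm 4} (h : LocIso φ (θ w)) (h' : LocIso θ w) :
    LocIso (fun w => φ (θ w)) w := by
  refine ⟨h.1.comp h'.1, ?_⟩
  have e : fderiv ℂ (fun w => φ (θ w)) w = (fderiv ℂ φ (θ w)).comp (fderiv ℂ θ w) :=
    (h.1.differentiableAt.hasFDerivAt.comp w h'.1.differentiableAt.hasFDerivAt).fderiv
  rw [e]
  show LinearMap.det (((fderiv ℂ φ (θ w) : Cm 4 →ₗ[ℂ] Cm 4)).comp
    (fderiv ℂ θ w : Cm 4 →ₗ[ℂ] Cm 4)) ≠ 0
  rw [LinearMap.det_comp]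
  exact mul_ne_zero h.2 h'.2

theorem det_comp' {φ θ : Cm 4 → Cm 4} {w : Cm 4} (h : DifferentiableAt ℂ φ (θ w))
    (h' : DifferentiableAt ℂ θ w) : (fderiv ℂ (fun w => φ (θ w)) w).det =
      (fderiv ℂ φ (θ w)).det * (fderiv ℂ θ w).det := by
  have e : fderiv ℂ (fun w => φ (θ w)) w = (fderiv ℂ φ (θ w)).comp (fderiv ℂ θ w) :=
    (h.hasFDerivAt.comp w h'.hasFDerivAt).fderiv
  rw [e]
  show LinearMap.det (((fderiv ℂ φ (θ w) : Cm 4 →ₗ[ℂ] Cm 4)).comp
    (fderiv ℂ θ w : Cm 4 →ₗ[ℂ] Cm 4)) = _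
  rw [LinearMap.det_comp]

theorem det_id : (ContinuousLinearMap.id ℂ (Cm 4)).det = 1 := LinearMap.det_id

/-- local inverse -/
theorem exists_inv {φ : Cm 4 → Cm 4} {w : Cm 4} (h : LocIso φ w) :
    ∃ θ : Cm 4 → Cm 4, LocIso θ (φ w) ∧ θ (φ w) = w ∧ (∀ᶠ y in 𝓝 w, θ (φ y) = y) ∧
      ∀ᶠ s in 𝓝 (φ w), φ (θ s) = s := by
  let L : Cm 4 ≃L[ℂ] Cm 4 :=
    (LinearMap.equivOfDetNeZero (fderiv ℂ φ w : Cm 4 →ₗ[ℂ] Cm 4) h.2).toContinuousLinearEquiv
  have hL : (L : Cm 4 →L[ℂ] Cm 4) = fderiv ℂ φ w := by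
    ext v : 1
    rfl
  have hcd : ContDiffAt ℂ ω φ w := h.1.contDiffAt
  have hA : HasFDerivAt φ (L : Cm 4 →L[ℂ] Cm 4) w := by
    rw [hL]
    exact h.1.differentiableAt.hasFDerivAt
  set e := hcd.toOpenPartialHomeomorph φ hA (by simp) with he
  have heΨ : ∀ y, e y = φ y := fun y => rfl
  have hsrc : w ∈ e.source := hcd.mem_toOpenPartialHomeomorph_source hA (by simp)
  have hinv : AnalyticAt ℂ e.symm (φ w) :=
    (hcd.to_localInverse hA (by simp) : ContDiffAt ℂ ω e.symm (φ w)).analyticAt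
  have hg0 : e.symm (φ w) = w := by rw [← heΨ]; exact e.left_inv hsrc
  have h1 : ∀ᶠ y in 𝓝 w, e.symm (φ y) = y := by
    filter_upwards [e.open_source.mem_nhds hsrc] with y hy
    rw [← heΨ, e.left_inv hy]
  have h2 : ∀ᶠ s in 𝓝 (φ w), φ (e.symm s) = s := by
    filter_upwards [e.open_target.mem_nhds (show φ w ∈ e.target by
      rw [← heΨ]; exact e.map_source hsrc)] with s hs
    rw [← heΨ, e.right_inv hs]
  refine ⟨e.symm, ⟨hinv, ?_⟩, hg0, h1, h2⟩
  intro h3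
  have h4 := det_comp' (φ := φ) (θ := e.symm) (w := φ w) (by rw [hg0]; exact h.1.differentiableAt)
    hinv.differentiableAt
  have h5 : (fun w => φ (e.symm w)) =ᶠ[𝓝 (φ w)] id := h2
  rw [h5.fderiv_eq, fderiv_id, h3, mul_zero, det_id] at h4
  exact one_ne_zero h4

/-- (FAC) if two further coordinates are independent of `w 0`, `w i`. -/
theorem core1 {γ : Cm 4 → Cm 4} {w₁ : Cm 4} (hγ : AnalyticAt ℂ γ w₁) (h0 : w₁ 0 = 0) {g : ℕ}
    {u u' : Cm 4 → ℂ} (hu : AnalyticAt ℂ u w₁) (hu' : AnalyticAt ℂ u' w₁) (hun : u w₁ ≠ 0)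
    (hun' : u' w₁ ≠ 0) (h1 : ∀ᶠ w in 𝓝 w₁, γ w 0 = w 0 ^ (g + 1) * u w)
    (hJ : ∀ᶠ w in 𝓝 w₁, (fderiv ℂ γ w).det = w 0 ^ (g + 1) * u' w) (i : Fin 4)
    (hi : (((Jm γ w₁).updateRow 0 (Pi.single 0 1)).updateRow 1 (Pi.single i 1)).det ≠ 0) :
    ∃ᶠ w₂ in 𝓝 w₁, Nf γ (g + 1) w₂ := by
  set φ : Cm 4 → Cm 4 := fun w => ![w 0, w i, γ w 2, γ w 3] with hφ
  have hφa : ∀ w, AnalyticAt ℂ γ w → AnalyticAt ℂ φ w := by
    intro w hw
    refine an_pi fun k => ?_
    fin_cases k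
    · exact an_coord 0 w
    · exact an_coord i w
    · exact an_comp_coord hw 2
    · exact an_comp_coord hw 3
  have hφJ : Jm φ w₁ = ((Jm γ w₁).updateRow 0 (Pi.single 0 1)).updateRow 1 (Pi.single i 1) := by
    ext k j
    rw [Jm_apply (hφa w₁ hγ).differentiableAt]
    fin_cases k
    · show pd j (fun w : Cm 4 => w 0) w₁ = _
      rw [pd_coord]
      simp [Matrix.updateRow_apply, Pi.single_apply, eq_comm]
    · show pd j (fun w : Cm 4 => w i) w₁ = _
      rw [pd_coord]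
      simp [Matrix.updateRow_apply, Pi.single_apply, eq_comm]
    · show pd j (fun w : Cm 4 => γ w 2) w₁ = _
      rw [← Jm_apply hγ.differentiableAt]
      simp [Matrix.updateRow_apply]
    · show pd j (fun w : Cm 4 => γ w 3) w₁ = _
      rw [← Jm_apply hγ.differentiableAt]
      simp [Matrix.updateRow_apply]
  have hφL : LocIso φ w₁ := locIso_of (hφa w₁ hγ) (by rw [hφJ]; exact hi)
  obtain ⟨θ, hθ, hθw, hθφ, hφθ⟩ := exists_inv hφL
  set s₁ := φ w₁ with hs₁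
  have hs0 : s₁ 0 = 0 := h0
  have hθt : Tendsto θ (𝓝 s₁) (𝓝 w₁) := by
    have := hθ.1.continuousAt
    rwa [ContinuousAt, hθw] at this
  have hθ0 : ∀ᶠ s in 𝓝 s₁, θ s 0 = s 0 := by
    filter_upwards [hφθ] with s hs
    have : φ (θ s) 0 = s 0 := by rw [hs]
    exact this
  have hfr := core2 (γ := fun s => γ (θ s)) (w₁ := s₁) (g := g) (u := fun s => u (θ s))
    (u' := fun s => u' (θ s) * (fderiv ℂ θ s).det)
    (by
      refine AnalyticAt.comp (g := γ) ?_ hθ.1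
      rw [hθw]; exact hγ) hs0
    (by
      refine AnalyticAt.comp (g := u) ?_ hθ.1
      rw [hθw]; exact hu)
    (by
      refine AnalyticAt.mul ?_ ?_
      · refine AnalyticAt.comp (g := u') ?_ hθ.1
        rw [hθw]; exact hu'
      · have e : (fun s => (fderiv ℂ θ s).det) = fun s => (Jm θ s).det :=
          funext fun s => det_eq_Jm θ s
        rw [e]
        have e2 : ∀ s, (Jm θ s).det = ∑ σ : Equiv.Perm (Fin 4), ((Equiv.Perm.sign σ : ℤ) : ℂ) *
            ∏ k, Jm θ s (σ k) k := fun s => by rw [Matrix.det_apply']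
        simp only [e2]
        refine Finset.analyticAt_fun_sum _ fun σ _ => ?_
        refine analyticAt_const.mul (Finset.analyticAt_fun_prod _ fun k _ => ?_)
        have e3 : ∀ᶠ s in 𝓝 s₁, Jm θ s (σ k) k = pd k (fun s => θ s (σ k)) s := by
          filter_upwards [hθ.1.eventually_analyticAt] with s hs
          exact Jm_apply hs.differentiableAt _ _
        exact (an_pd (an_comp_coord hθ.1 (σ k)) k).congr (e3.mono fun _ h => h.symm))
    (by rw [hθw]; exact hun) (by rw [hθw]; exact mul_ne_zero hun' hθ.2)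
    (by
      filter_upwards [hθt.eventually h1, hθ0] with s e1 e2
      rw [e1, e2])
    (by
      filter_upwards [hφθ] with s e1
      have : φ (θ s) 2 = s 2 := by rw [e1]
      exact this)
    (by
      filter_upwards [hφθ] with s e1
      have : φ (θ s) 3 = s 3 := by rw [e1]
      exact this)
    (by
      filter_upwards [hθt.eventually hJ, hθ0, hθt.eventually hγ.eventually_analyticAt,
        hθ.1.eventually_analyticAt] with s e1 e2 e3 e4
      rw [det_comp' e3.differentiableAt e4.differentiableAt, e1, e2]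
      ring)
  have hloc : ∀ᶠ w in 𝓝 w₁, LocIso φ w := by
    have e1 : ContinuousAt (fun w => (fderiv ℂ φ w).det) w₁ := by
      have := hφL.1.fderiv.continuousAt
      exact (ContinuousLinearMap.continuous_det (𝕜 := ℂ) (E := Cm 4)).continuousAt.comp this
    filter_upwards [hφL.1.eventually_analyticAt, e1.eventually_ne hφL.2] with w e2 e3
    exact ⟨e2, e3⟩
  refine hθt.frequently ?_
  refine (hfr.and_eventually ((hθt.eventually hloc).and ((hφθ.eventually_nhds).and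
    ((hθt.eventually hθφ.eventually_nhds).and hθ0)))).mono ?_
  rintro s₂ ⟨⟨k0, ψ, Ψ, k1, k2, k3, k4, k5⟩, k6, k7, k8, k9⟩
  have hφs : φ (θ s₂) = s₂ := k7.self_of_nhds
  have hφt : Tendsto φ (𝓝 (θ s₂)) (𝓝 s₂) := by
    have := k6.1.continuousAt
    rwa [ContinuousAt, hφs] at this
  refine ⟨by rw [k9, k0], fun w => ψ (φ w), Ψ, ?_, ?_, ?_, ?_, ?_⟩
  · refine LocIso.comp ?_ k6
    rw [hφs]
    exact k1
  · show LocIso Ψ (bet (g + 1) (ψ (φ (θ s₂))))
    rw [hφs]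
    exact k2
  · filter_upwards [hφt.eventually k3] with w e1
    exact e1
  · show ∀ᶠ z in 𝓝 (bet (g + 1) (ψ (φ (θ s₂)))), Ψ z 0 = 0 ↔ z 0 = 0
    rw [hφs]
    exact k4
  · filter_upwards [hφt.eventually k5, k8] with w e1 e2
    rw [← e1, e2]

end Vale.Agent.P277.H29.FC
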