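import Vale.Agent.P277.H29.Fac3

/-!
# P277, (FAC): the theorem
-/

set_option linter.unusedSectionVars false

open scoped Manifold ContDiff Topology
open Vale.Agent.P272.K Vale.Agent.P285.H281.FD Vale.Agent.P267.H175 Set Metric Filter
open Vale.Agent.P277.T3

noncomputable section

namespace Vale.Agent.P277.H29.FC

/-- Jacobi: the derivative of the determinant of `F` vanishes if all cofactors of `F 0` vanish. -/
theorem hasDerivAt_det_zero {n : ℕ} {F : ℂ → Fin n → Fin n → ℂ} {F' : Fin n → Fin n → ℂ}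
    (hF : HasDerivAt F F' 0)
    (h0 : ∀ i j, (Matrix.updateRow (Matrix.of (F 0)) j (Pi.single i 1)).det = 0) :
    HasDerivAt (fun t => (Matrix.of (F t)).det) 0 0 := by
  let f : ContinuousMultilinearMap ℂ (fun _ : Fin n => Fin n → ℂ) ℂ :=
    { (Matrix.detRowAlternating (n := Fin n) (R := ℂ)).toMultilinearMap with
      cont := by
        show Continuous fun M : Fin n → Fin n → ℂ => (Matrix.of M).det
        exact Continuous.matrix_det continuous_id }
  have hf : ∀ M : Fin n → Fin n → ℂ, f M = (Matrix.of M).det := fun M => rfl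
  have h1 : HasDerivAt (fun t => f (F t)) (f.linearDeriv (F 0) F') 0 :=
    (f.hasFDerivAt (F 0)).comp_hasDerivAt (0 : ℂ) hF
  have h2 : f.linearDeriv (F 0) F' = 0 := by
    rw [ContinuousMultilinearMap.linearDeriv_apply]
    refine Finset.sum_eq_zero fun j _ => ?_
    have h3 := LinearMap.pi_apply_eq_sum_univ
      ((f.toContinuousLinearMap (F 0) j : (Fin n → ℂ) →L[ℂ] ℂ) : (Fin n → ℂ) →ₗ[ℂ] ℂ) (F' j)
    have h4 : f (Function.update (F 0) j (F' j)) = ∑ i, F' j i •
        f (Function.update (F 0) j (fun k => if i = k then 1 else 0)) := h3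
    rw [h4]
    refine Finset.sum_eq_zero fun i _ => ?_
    have h5 := h0 i j
    have h6 : (fun k => if i = k then (1 : ℂ) else 0) = Pi.single i 1 := by
      funext k
      rw [Pi.single_apply]
      simp [eq_comm]
    rw [h6, hf]
    have h7 : (Matrix.of (Function.update (F 0) j (Pi.single i 1))) =
        Matrix.updateRow (Matrix.of (F 0)) j (Pi.single i 1) := rfl
    rw [h7, h5, smul_zero]
  rw [h2] at h1
  exact h1

/-- a nonzero cofactor in a row `j ≠ 0` -/
theorem exists_cof {M : Matrix (Fin 4) (Fin 4) ℂ} (hM : M.det = 0) {a : ℂ} (ha : a ≠ 0)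
    (h0 : M 0 = Pi.single 0 a) (h : ∃ i j, (M.updateRow j (Pi.single i 1)).det ≠ 0) :
    ∃ i j, j ≠ 0 ∧ (M.updateRow j (Pi.single i 1)).det ≠ 0 := by
  by_contra hcon
  push Not at hcon
  obtain ⟨i, j, hij⟩ := h
  have h1 := congrFun (congrFun (Matrix.adjugate_mul M) i) 0
  rw [hM, zero_smul, Matrix.mul_apply] at h1
  have h2 : ∀ k, k ≠ 0 → M.adjugate i k = 0 := fun k hk => by
    rw [Matrix.adjugate_apply]
    exact hcon i k hk
  rw [Finset.sum_eq_single 0 (fun k _ hk => by rw [h2 k hk, zero_mul]) (by simp)] at h1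
  have h3 : M 0 0 = a := by rw [h0, Pi.single_eq_same]
  rw [h3] at h1
  have h4 : M.adjugate i 0 = 0 := (mul_eq_zero.1 h1).resolve_right ha
  rw [← Matrix.adjugate_apply] at hij
  by_cases hj : j = 0
  · rw [hj] at hij
    exact hij h4
  · exact hij (h2 j hj)

/-- the matrix with the first row divided by `w 0 ^ g` -/
def Mm (γ : Cm 4 → Cm 4) (g : ℕ) (u : Cm 4 → ℂ) (w : Cm 4) : Fin 4 → Fin 4 → ℂ := fun i j =>
  if i = 0 then (if 0 = j then (g + 1 : ℂ) * u w else 0) + w 0 * pd j u w else pd j (fun w => γ w i) w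

theorem an_Mm {γ : Cm 4 → Cm 4} {g : ℕ} {u : Cm 4 → ℂ} {w : Cm 4} (hγ : AnalyticAt ℂ γ w)
    (hu : AnalyticAt ℂ u w) (i j : Fin 4) : AnalyticAt ℂ (fun w => Mm γ g u w i j) w := by
  by_cases hi : i = 0
  · subst hi
    show AnalyticAt ℂ (fun w => (if 0 = j then (g + 1 : ℂ) * u w else 0) + w 0 * pd j u w) w
    refine AnalyticAt.add ?_ ((an_coord 0 w).mul (an_pd hu j))
    by_cases hj : 0 = j
    · simp only [if_pos hj]
      exact analyticAt_const.mul hu
    · simp only [if_neg hj]
      exact analyticAt_const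
  · simp only [Mm, if_neg hi]
    exact an_pd (an_comp_coord hγ i) j

theorem an_det {M : Cm 4 → Fin 4 → Fin 4 → ℂ} {w : Cm 4}
    (h : ∀ i j, AnalyticAt ℂ (fun w => M w i j) w) : AnalyticAt ℂ (fun w => (Matrix.of (M w)).det) w := by
  have e2 : ∀ s, (Matrix.of (M s)).det = ∑ σ : Equiv.Perm (Fin 4), ((Equiv.Perm.sign σ : ℤ) : ℂ) *
      ∏ k, M s (σ k) k := fun s => by rw [Matrix.det_apply']; rfl
  simp only [e2]
  exact Finset.analyticAt_fun_sum _ fun σ _ =>
    analyticAt_const.mul (Finset.analyticAt_fun_prod _ fun k _ => h _ _)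

theorem det_Mm {γ : Cm 4 → Cm 4} {g : ℕ} {u : Cm 4 → ℂ} {w : Cm 4} (hγ : AnalyticAt ℂ γ w)
    (hu : AnalyticAt ℂ u w) (h1 : ∀ᶠ w in 𝓝 w, γ w 0 = w 0 ^ (g + 1) * u w) :
    (fderiv ℂ γ w).det = w 0 ^ g * (Matrix.of (Mm γ g u w)).det := by
  have e : Jm γ w = Matrix.updateRow (Matrix.of (Mm γ g u w)) 0
      (w 0 ^ g • (Matrix.of (Mm γ g u w)) 0) := by
    ext i j
    rw [Jm_apply hγ.differentiableAt, Matrix.updateRow_apply]
    by_cases hi : i = 0
    · subst hi
      rw [if_pos rfl, pd_congr h1, pd_pow_mul hu]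
      rfl
    · rw [if_neg hi]
      show _ = Mm γ g u w i j
      rw [Mm, if_neg hi]
  rw [det_eq_Jm, e, Matrix.det_updateRow_smul, Matrix.updateRow_eq_self]

theorem nf_perm {γ : Cm 4 → Cm 4} {g : ℕ} {w₂ : Cm 4} {σ : Equiv.Perm (Fin 4)} (hσ : σ 0 = 0)
    (h : Nf (fun w k => γ w (σ k)) g w₂) : Nf γ g w₂ := by
  obtain ⟨h0, ψ, Ψ, h1, h2, h3, h4, h5⟩ := h
  have hσ' : σ.symm 0 = 0 := by rw [Equiv.symm_apply_eq, hσ]
  let P : Cm 4 ≃ₗ[ℂ] Cm 4 := LinearEquiv.funCongrLeft ℂ ℂ σ.symm
  have hP : ∀ z k, P z k = z (σ.symm k) := fun z k => rfl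
  have hPL : ∀ z, LocIso (fun z => P z) z := by
    intro z
    let P' : Cm 4 →L[ℂ] Cm 4 := (P : Cm 4 →ₗ[ℂ] Cm 4).toContinuousLinearMap
    have e : (fun z => P z) = P' := rfl
    refine ⟨by rw [e]; exact P'.analyticAt z, ?_⟩
    rw [e, P'.fderiv]
    show LinearMap.det (P : Cm 4 →ₗ[ℂ] Cm 4) ≠ 0
    exact P.isUnit_det'.ne_zero
  refine ⟨h0, ψ, fun z => P (Ψ z), h1, LocIso.comp (hPL _) h2, h3, ?_, ?_⟩
  · filter_upwards [h4] with z hz
    rw [hP, hσ']
    exact hz
  · filter_upwards [h5] with w hw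
    rw [← hw]
    funext k
    rw [hP]
    show γ w k = γ w (σ (σ.symm k))
    rw [Equiv.apply_symm_apply]

end Vale.Agent.P277.H29.FC

open Vale.Agent.P277.H29.FC

/-- (FAC) -/
theorem Vale.Agent.P277.H29.stFac : StFac := by
  intro γ w₁ hγ h0 g J hg u u' hu hun hu' hun' h1 hJ
  obtain ⟨g, rfl⟩ : ∃ g', g = g' + 1 := ⟨g - 1, by omega⟩
  set D : Cm 4 → ℂ := fun w => (Matrix.of (Mm γ g u w)).det with hD
  have hDa : AnalyticAt ℂ D w₁ := an_det fun i j => an_Mm hγ hu i j
  have hDe : ∀ᶠ w in 𝓝 w₁, w 0 ^ J * u' w = w 0 ^ g * D w := by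
    filter_upwards [hγ.eventually_analyticAt, hu.eventually_analyticAt, h1.eventually_nhds, hJ]
      with w e1 e2 e3 e4
    rw [← e4, det_Mm e1 e2 e3]
  have hM0 : Mm γ g u w₁ 0 = Pi.single 0 ((g + 1 : ℂ) * u w₁) := by
    funext j
    rw [Mm, if_pos rfl, h0, zero_mul, add_zero, Pi.single_apply]
    simp [eq_comm]
  have ha : (g + 1 : ℂ) * u w₁ ≠ 0 := mul_ne_zero (Nat.cast_add_one_ne_zero g) hun
  refine ⟨?_, ?_, ?_⟩
  · by_contra hcon
    push Not at hcon
    obtain ⟨k, hk⟩ : ∃ k, g = J + k + 1 := ⟨g - J - 1, by omega⟩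
    have e1 : u' w₁ = w₁ 0 * (w₁ 0 ^ k * D w₁) := by
      refine eq_of_ne (F := u') (G := fun w => w 0 * (w 0 ^ k * D w)) hu'.continuousAt
        ((an_coord 0 w₁).mul (((an_coord 0 w₁).pow k).mul hDa)).continuousAt ?_
      filter_upwards [hDe] with w e1 e2
      refine mul_left_cancel₀ (pow_ne_zero J e2) ?_
      rw [e1, hk]
      ring
    rw [h0, zero_mul] at e1
    exact hun' e1
  · intro hJg
    have hJg' : J = g := by omega
    subst hJg'
    have e1 : u' w₁ = D w₁ := by
      refine eq_of_ne hu'.continuousAt hDa.continuousAt ?_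
      filter_upwards [hDe] with w e1 e2
      exact mul_left_cancel₀ (pow_ne_zero J e2) e1
    have e2 : D w₁ ≠ 0 := by rw [← e1]; exact hun'
    have e3 : D w₁ = ((J + 1 : ℂ) * u w₁) * (Matrix.of fun i j : Fin 3 =>
        fderiv ℂ γ w₁ (Pi.single j.succ 1) i.succ).det := by
      show (Matrix.of (Mm γ J u w₁)).det = _
      rw [Matrix.det_succ_row_zero, Fin.sum_univ_succ]
      have e4 : ∀ j : Fin 3, Matrix.of (Mm γ J u w₁) 0 j.succ = 0 := fun j => by
        show Mm γ J u w₁ 0 j.succ = 0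
        rw [hM0, Pi.single_eq_of_ne (Fin.succ_ne_zero j)]
      simp only [e4]
      have e5 : Matrix.of (Mm γ J u w₁) 0 0 = (J + 1 : ℂ) * u w₁ := by
        show Mm γ J u w₁ 0 0 = _
        rw [hM0, Pi.single_eq_same]
      rw [e5]
      have e6 : (Matrix.of (Mm γ J u w₁)).submatrix Fin.succ (Fin.succAbove 0) =
          Matrix.of fun i j : Fin 3 => fderiv ℂ γ w₁ (Pi.single j.succ 1) i.succ := by
        ext i j
        show Mm γ J u w₁ i.succ (Fin.succAbove 0 j) = _
        rw [Mm, if_neg (Fin.succ_ne_zero i), ← Jm_apply hγ.differentiableAt]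
        rfl
      rw [e6]
      simp
    rw [e3] at e2
    exact right_ne_zero_of_mul e2
  · rintro rfl
    have hDe' : ∀ᶠ w in 𝓝 w₁, w 0 * u' w = D w := by
      refine ev_eq_of_ne ((an_coord 0 w₁).mul hu') hDa ?_
      filter_upwards [hDe] with w e1 e2
      refine mul_left_cancel₀ (pow_ne_zero g e2) ?_
      rw [← e1]
      ring
    have hD0 : D w₁ = 0 := by
      rw [← hDe'.self_of_nhds, h0, zero_mul]
    -- a nonzero cofactor
    have hcof : ∃ i j, ((Matrix.of (Mm γ g u w₁)).updateRow j (Pi.single i 1)).det ≠ 0 := by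
      by_contra hcon
      push Not at hcon
      have hl : HasDerivAt (fun t : ℂ => w₁ + t • (Pi.single 0 1 : Cm 4)) (Pi.single 0 1) 0 := by
        have := ((hasDerivAt_id (0 : ℂ)).smul_const (Pi.single 0 1 : Cm 4)).const_add w₁
        simpa using this
      have hl0 : w₁ + (0 : ℂ) • (Pi.single 0 1 : Cm 4) = w₁ := by rw [zero_smul, add_zero]
      have hlt : Tendsto (fun t : ℂ => w₁ + t • (Pi.single 0 1 : Cm 4)) (𝓝 0) (𝓝 w₁) := by
        have := hl.continuousAt
        rwa [ContinuousAt, hl0] at this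
      have e1 : HasDerivAt (fun t : ℂ => Mm γ g u (w₁ + t • (Pi.single 0 1 : Cm 4)))
          (fun i j => fderiv ℂ (fun w => Mm γ g u w i j) w₁ (Pi.single 0 1)) 0 := by
        rw [hasDerivAt_pi]
        intro i
        rw [hasDerivAt_pi]
        intro j
        have e2 : HasFDerivAt (fun w => Mm γ g u w i j) (fderiv ℂ (fun w => Mm γ g u w i j) w₁)
            (w₁ + (0 : ℂ) • (Pi.single 0 1 : Cm 4)) := by
          rw [hl0]
          exact (an_Mm hγ hu i j).differentiableAt.hasFDerivAt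
        exact e2.comp_hasDerivAt (0 : ℂ) hl
      have e3 := hasDerivAt_det_zero e1 (by
        intro i j
        simp only [hl0]
        exact hcon i j)
      have e4 : HasDerivAt (fun t : ℂ => t * u' (w₁ + t • (Pi.single 0 1 : Cm 4))) (u' w₁) 0 := by
        have e5 : HasFDerivAt u' (fderiv ℂ u' w₁) (w₁ + (0 : ℂ) • (Pi.single 0 1 : Cm 4)) := by
          rw [hl0]
          exact hu'.differentiableAt.hasFDerivAt
        have e6 := (hasDerivAt_id (0 : ℂ)).mul (e5.comp_hasDerivAt (0 : ℂ) hl)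
        have e7 : u' w₁ = 1 * (u' ∘ fun t : ℂ => w₁ + t • (Pi.single 0 1 : Cm 4)) 0 +
            id (0 : ℂ) * fderiv ℂ u' w₁ (Pi.single 0 1) := by
          show _ = 1 * u' (w₁ + (0 : ℂ) • (Pi.single 0 1 : Cm 4)) + (0 : ℂ) * _
          rw [hl0, zero_mul, add_zero, one_mul]
        rw [e7]
        exact e6
      have e5 : (fun t : ℂ => t * u' (w₁ + t • (Pi.single 0 1 : Cm 4))) =ᶠ[𝓝 0]
          fun t => (Matrix.of (Mm γ g u (w₁ + t • (Pi.single 0 1 : Cm 4)))).det := by
        filter_upwards [hlt.eventually hDe'] with t ht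
        have e6 : (w₁ + t • (Pi.single 0 1 : Cm 4)) 0 = t := by simp [h0]
        rw [e6] at ht
        exact ht
      exact hun' (e4.unique (e3.congr_of_eventuallyEq e5))
    obtain ⟨i, j, hj, hij⟩ := exists_cof hD0 ha hM0 hcof
    -- reduction to `j = 1`
    set σ : Equiv.Perm (Fin 4) := Equiv.swap 1 j with hσ
    have hσ0 : σ 0 = 0 := Equiv.swap_apply_of_ne_of_ne (by decide) hj.symm
    set γ' : Cm 4 → Cm 4 := fun w k => γ w (σ k) with hγ'
    have hγ'a : ∀ w, AnalyticAt ℂ γ w → AnalyticAt ℂ γ' w := fun w hw =>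
      an_pi fun k => an_comp_coord hw (σ k)
    have hJσ : ∀ w, AnalyticAt ℂ γ w → Jm γ' w = (Jm γ w).submatrix σ id := by
      intro w hw
      ext k l
      rw [Jm_apply (hγ'a w hw).differentiableAt, Matrix.submatrix_apply,
        Jm_apply hw.differentiableAt]
      rfl
    have hsg : ∀ w, AnalyticAt ℂ γ w → (fderiv ℂ γ' w).det =
        (Equiv.Perm.sign σ : ℤ) * (fderiv ℂ γ w).det := by
      intro w hw
      rw [det_eq_Jm, det_eq_Jm, hJσ w hw, Matrix.det_permute]
    have hsn : ((Equiv.Perm.sign σ : ℤ) : ℂ) ≠ 0 := by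
      rcases Int.units_eq_one_or (Equiv.Perm.sign σ) with h | h <;> rw [h] <;> simp
    have := core1 (γ := γ') (w₁ := w₁) (g := g) (u := u)
      (u' := fun w => (Equiv.Perm.sign σ : ℤ) * u' w) (hγ'a w₁ hγ) h0 hu
      (analyticAt_const.mul hu') hun (mul_ne_zero hsn hun') (by
        filter_upwards [h1] with w hw
        show γ w (σ 0) = _
        rw [hσ0, hw]) (by
        filter_upwards [hJ, hγ.eventually_analyticAt] with w e1 e2
        rw [hsg w e2, e1]
        ring) i ?_
    · exact this.mono fun w hw => nf_perm hσ0 hw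
    · intro hcon
      apply hij
      have e1 : (Matrix.of (Mm γ g u w₁)).updateRow j (Pi.single i 1) =
          ((((Jm γ' w₁).updateRow 0 (Pi.single 0 1)).updateRow 1 (Pi.single i 1)).updateRow 0
            (((g + 1 : ℂ) * u w₁) • (((Jm γ' w₁).updateRow 0 (Pi.single 0 1)).updateRow 1
              (Pi.single i 1)) 0)).submatrix σ id := by
        ext k l
        rw [Matrix.submatrix_apply, Matrix.updateRow_apply]
        by_cases hk : k = j
        · subst hk
          have e2 : σ k = 1 := Equiv.swap_apply_right _ _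
          rw [if_pos rfl, e2, Matrix.updateRow_apply, if_neg (by decide), Matrix.updateRow_apply,
            if_pos rfl]
          rfl
        · rw [if_neg hk]
          by_cases hk0 : k = 0
          · subst hk0
            rw [hσ0, Matrix.updateRow_apply, if_pos rfl]
            show Mm γ g u w₁ 0 l = _
            rw [hM0]
            have e3 : (((Jm γ' w₁).updateRow 0 (Pi.single 0 1)).updateRow 1
                (Pi.single i 1)) 0 = Pi.single 0 1 := by
              funext m
              rw [Matrix.updateRow_apply, if_neg (by decide), Matrix.updateRow_apply, if_pos rfl]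
            rw [e3]
            simp [Pi.single_apply]
          · have e2 : σ k ≠ 0 := fun h => hk0 (by
              rw [← hσ0] at h
              exact σ.injective h)
            have e3 : σ k ≠ 1 := fun h => hk (by
              have : σ j = 1 := Equiv.swap_apply_right _ _
              rw [← this] at h
              exact σ.injective h)
            rw [Matrix.updateRow_apply, if_neg e2, Matrix.updateRow_apply, if_neg e3,
              Matrix.updateRow_apply, if_neg e2, hJσ w₁ hγ, Matrix.submatrix_apply]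
            have e4 : σ (σ k) = k := Equiv.swap_apply_self _ _ _
            rw [e4, Jm_apply hγ.differentiableAt]
            show Mm γ g u w₁ k l = _
            rw [Mm, if_neg hk0]
            rfl
      rw [e1, Matrix.det_permute, Matrix.det_updateRow_smul, Matrix.updateRow_eq_self, hcon]
      simp
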