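import Vale.Agent.P277.H29.HGerm

/-!
# P277, TX-ALG: finite generation of the ring of germs
-/

open Filter Topology Metric Set
open Vale.Agent.P298.H941 Vale.Agent.P272.K

noncomputable section

namespace Vale.Agent.P277.H29

variable {X : CSp} {p : X.pt} {m : ℕ}

/-- the map with components `ζ` and `Φ` -/
def psi {T : Type} (Φ : T → Cm m) : (k : ℕ) → (Fin k → T → ℂ) → T → Cm (m + k)
  | 0, _ => Φ
  | k + 1, ζ => fun y => Fin.cons (ζ 0 y) (psi Φ k (fun j => ζ j.succ) y)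

/-- the last coordinates -/
def lst : (k : ℕ) → Cm (m + k) → Cm m
  | 0, z => z
  | k + 1, z => lst k (tl (m + k) z)

/-- the first coordinates -/
def fst : (k : ℕ) → Cm (m + k) → Cm k
  | 0, _ => 0
  | k + 1, z => Fin.cons (z 0) (fst k (tl (m + k) z))

theorem lst_analytic : ∀ (k : ℕ) (z : Cm (m + k)), AnalyticAt ℂ (lst (m := m) k) z
  | 0, _ => analyticAt_id
  | k + 1, z => (lst_analytic k (tl (m + k) z)).fun_comp (tl_analytic (m + k) z)

theorem fst_analytic : ∀ (k : ℕ) (z : Cm (m + k)), AnalyticAt ℂ (fst (m := m) k) z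
  | 0, _ => analyticAt_const
  | k + 1, z => cons_analytic (proj_analytic 0 z)
      ((fst_analytic k (tl (m + k) z)).fun_comp (tl_analytic (m + k) z))

theorem lst_zero : ∀ k : ℕ, lst (m := m) k 0 = 0
  | 0 => rfl
  | k + 1 => lst_zero k

theorem lst_psi {T : Type} (Φ : T → Cm m) : ∀ (k : ℕ) (ζ : Fin k → T → ℂ) (y : T),
    lst k (psi Φ k ζ y) = Φ y
  | 0, _, _ => rfl
  | k + 1, ζ, y => lst_psi Φ k (fun j => ζ j.succ) y

theorem fst_psi {T : Type} (Φ : T → Cm m) : ∀ (k : ℕ) (ζ : Fin k → T → ℂ) (y : T),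
    fst k (psi Φ k ζ y) = fun j => ζ j y
  | 0, _, _ => by ext i; exact i.elim0
  | k + 1, ζ, y => by
    have h := fst_psi Φ k (fun j => ζ j.succ) y
    show (Fin.cons (ζ 0 y) (fst k (psi Φ k (fun j => ζ j.succ) y)) : Cm (k + 1)) = _
    rw [h]
    ext i
    refine Fin.cases rfl (fun j => rfl) i

theorem psi_hol {Φ : X.pt → Cm m} (hΦ : ∀ i, X.Hol (fun y => Φ y i) p) :
    ∀ (k : ℕ) (ζ : Fin k → X.pt → ℂ) (_ : ∀ j, X.Hol (ζ j) p) (i : Fin (m + k)),
      X.Hol (fun y => psi Φ k ζ y i) p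
  | 0, _, _ => hΦ
  | k + 1, ζ, hζ => by
    intro i
    refine Fin.cases (hζ 0) (fun j => ?_) i
    exact psi_hol hΦ k (fun j => ζ j.succ) (fun j => hζ j.succ) j

theorem psi_zero {Φ : X.pt → Cm m} (h0 : Φ p = 0) :
    ∀ (k : ℕ) (ζ : Fin k → X.pt → ℂ) (_ : ∀ j, ζ j p = 0), psi Φ k ζ p = 0
  | 0, _, _ => h0
  | k + 1, ζ, hζ => by
    have h := psi_zero h0 k (fun j => ζ j.succ) (fun j => hζ j.succ)
    show (Fin.cons (ζ 0 p) (psi Φ k (fun j => ζ j.succ) p) : Cm (m + k + 1)) = 0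
    rw [h, hζ]
    exact inc_zero _

/-- the equation of a function over `Φ` -/
structure Eqn (Φ : X.pt → Cm m) (p : X.pt) (d : ℕ) (z : X.pt → ℂ) : Prop where
  hol : X.Hol z p
  zero : z p = 0
  eqn : ∃ Q : Cm m → Polynomial ℂ, (∀ w, (Q w).natDegree ≤ d) ∧ Q 0 = Polynomial.X ^ d ∧
    (∀ i, AnalyticAt ℂ (fun w => (Q w).coeff i) 0) ∧ ∀ᶠ y in 𝓝 p, (Q (Φ y)).eval (z y) = 0

/-- **Finite generation.** -/
theorem exists_gen {Φ : X.pt → Cm m} (hΦ : ∀ i, X.Hol (fun y => Φ y i) p) (h0 : Φ p = 0) {d : ℕ} :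
    ∀ (k : ℕ) (ζ : Fin k → X.pt → ℂ) (hζ : ∀ j, Eqn Φ p d (ζ j)) (a : O (Cm (m + k))),
      ∃ r : (Fin k → Fin d) → O (Cm m),
        pullX (psi Φ k ζ) (psi_hol hΦ k ζ fun j => (hζ j).hol)
          (psi_zero h0 k ζ fun j => (hζ j).zero) a =
        ∑ α, pullX Φ hΦ h0 (r α) * ∏ j, hmk (ζ j) (hζ j).hol ^ (α j : ℕ)
  | 0, ζ, hζ, a => by
    refine ⟨fun _ => a, ?_⟩
    rw [Fintype.sum_unique]
    simp only [Finset.univ_eq_empty, Finset.prod_empty, mul_one]
    rfl
  | k + 1, ζ, hζ, a => by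
    obtain ⟨Q, hQd, hQ0, hQa, hQe⟩ := (hζ 0).eqn
    -- the polynomial
    set F : Cm (m + k + 1) → ℂ := fun z => (Q (lst (k + 1) z)).eval (z 0) with hFdef
    have hFs : ∀ z, F z = ∑ i ∈ Finset.range (d + 1), (Q (lst (k + 1) z)).coeff i * z 0 ^ i := by
      intro z
      rw [hFdef]
      exact Polynomial.eval_eq_sum_range' (Nat.lt_succ_of_le (hQd _)) _
    have hl : AnalyticAt ℂ (lst (m := m) (k + 1)) 0 := lst_analytic (k + 1) 0
    have hF : AnalyticAt ℂ F 0 := by
      have h1 : F = fun z => ∑ i ∈ Finset.range (d + 1),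
          (Q (lst (k + 1) z)).coeff i * z 0 ^ i := funext hFs
      rw [h1]
      refine Finset.analyticAt_fun_sum _ fun i _ => ?_
      refine AnalyticAt.mul ?_ ((proj_analytic 0 0).pow i)
      exact AnalyticAt.comp_of_eq (hQa i) hl (lst_zero (k + 1))
    have hFu : ∀ᶠ t in 𝓝 (0 : ℂ), F (Fin.cons t 0) = t ^ d * (fun _ => (1 : ℂ)) t := by
      refine Eventually.of_forall fun t => ?_
      have h1 : lst (m := m) (k + 1) (Fin.cons t 0) = 0 := by
        show lst k (tl (m + k) (Fin.cons t 0)) = 0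
        exact lst_zero k
      rw [hFdef]
      show (Q (lst (m := m) (k + 1) (Fin.cons t 0))).eval t = t ^ d * 1
      rw [h1, hQ0]
      simp
    obtain ⟨f, hf, rfl⟩ := exists_rep a
    obtain ⟨v, s, hv, hs, hdiv⟩ := div_cm hF (u := fun _ => 1) analyticAt_const one_ne_zero hFu hf
    have ih := fun i : Fin d => exists_gen hΦ h0 k (fun j => ζ j.succ) (fun j => hζ j.succ)
      (mk (s i) (hs i))
    choose r hr using ih
    refine ⟨fun α => r (α 0) (fun j => α j.succ), ?_⟩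
    -- left-hand side
    have hP := psi_hol hΦ (k + 1) ζ (fun j => (hζ j).hol)
    have hP0 := psi_zero h0 (k + 1) ζ (fun j => (hζ j).zero)
    have hc : Tendsto (psi Φ (k + 1) ζ) (𝓝 p) (𝓝 0) := by
      have : ContinuousAt (psi Φ (k + 1) ζ) p := continuousAt_pi.2 fun i => hol_continuousAt (hP i)
      rwa [ContinuousAt, hP0] at this
    have h1 : pullX (psi Φ (k + 1) ζ) hP hP0 (mk f hf) =
        ∑ i : Fin d, pullX (psi Φ k fun j => ζ j.succ)
          (psi_hol hΦ k _ fun j => (hζ j.succ).hol) (psi_zero h0 k _ fun j => (hζ j.succ).zero)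
          (mk (s i) (hs i)) * hmk (ζ 0) (hζ 0).hol ^ (i : ℕ) := by
      have h2 : ∀ i : Fin d, pullX (psi Φ k fun j => ζ j.succ)
          (psi_hol hΦ k _ fun j => (hζ j.succ).hol) (psi_zero h0 k _ fun j => (hζ j.succ).zero)
          (mk (s i) (hs i)) * hmk (ζ 0) (hζ 0).hol ^ (i : ℕ) =
          hmk (fun y => s i (psi Φ k (fun j => ζ j.succ) y) * ζ 0 y ^ (i : ℕ))
            (hol_mul (hol_comp (f := fun i y => psi Φ k (fun j => ζ j.succ) y i) (G := s i)
              (psi_hol hΦ k _ fun j => (hζ j.succ).hol) (by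
                have h1 : (fun i => psi Φ k (fun j => ζ j.succ) p i) = 0 :=
                  psi_zero h0 k _ fun j => (hζ j.succ).zero
                rw [h1]; exact hs i)) (hol_pow (hζ 0).hol i)) := by
        intro i
        rw [pullX_mk]
        have h3 : ∀ n : ℕ, hmk (ζ 0) (hζ 0).hol ^ n =
            hmk (fun y => ζ 0 y ^ n) (hol_pow (hζ 0).hol n) := by
          intro n
          induction n with
          | zero => rw [pow_zero, hmk_one]; rw [hmk_eq_iff]; exact Eventually.of_forall fun y => by simp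
          | succ n ih =>
            rw [pow_succ, ih, hmk_mul, hmk_eq_iff]
            exact Eventually.of_forall fun y => by simp [pow_succ]
        rw [h3, hmk_mul]
      rw [Finset.sum_congr rfl fun i _ => h2 i, hmk_sum, pullX_mk, hmk_eq_iff]
      filter_upwards [hc.eventually hdiv, hQe] with y hy hy'
      rw [hy]
      have h4 : F (psi Φ (k + 1) ζ y) = 0 := by
        rw [hFdef]
        show (Q (lst (k + 1) (psi Φ (k + 1) ζ y))).eval (psi Φ (k + 1) ζ y 0) = 0
        rw [lst_psi]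
        exact hy'
      rw [h4, mul_zero, zero_add]
      rfl
    rw [h1]
    -- right-hand side
    have h5 : ∀ i : Fin d, pullX (psi Φ k fun j => ζ j.succ)
          (psi_hol hΦ k _ fun j => (hζ j.succ).hol) (psi_zero h0 k _ fun j => (hζ j.succ).zero)
          (mk (s i) (hs i)) * hmk (ζ 0) (hζ 0).hol ^ (i : ℕ) =
        ∑ β : Fin k → Fin d, pullX Φ hΦ h0 (r i β) *
          (hmk (ζ 0) (hζ 0).hol ^ (i : ℕ) * ∏ j, hmk (ζ j.succ) (hζ j.succ).hol ^ (β j : ℕ)) := by
      intro i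
      rw [hr i, Finset.sum_mul]
      exact Finset.sum_congr rfl fun β _ => by ring
    rw [Finset.sum_congr rfl fun i _ => h5 i]
    rw [← (Fin.consEquiv (fun _ : Fin (k + 1) => Fin d)).sum_comp, Fintype.sum_prod_type]
    refine Finset.sum_congr rfl fun i _ => Finset.sum_congr rfl fun β _ => ?_
    rw [Fin.prod_univ_succ]
    rfl

end Vale.Agent.P277.H29
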