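import Vale.Agent.P277.H29.Germ
import Vale.Agent.P277.A.Basic

/-!
# P277, TX-ALG: the ring of germs of holomorphic functions on a complex space
-/

open Filter Topology Metric Set
open Vale.Agent.P298.H941 Vale.Agent.P272.K

noncomputable section

namespace Vale.Agent.P277.H29

/-- functions holomorphic near `p` -/
def HF (X : CSp) (p : X.pt) : Subring (X.pt → ℂ) where
  carrier := {f | X.Hol f p}
  mul_mem' := fun hf hg => hol_mul hf hg
  one_mem' := hol_const 1 p
  add_mem' := fun hf hg => hol_add hf hg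
  zero_mem' := hol_const 0 p
  neg_mem' := fun hf => hol_neg hf

/-- functions vanishing near `p` -/
def hnu (X : CSp) (p : X.pt) : Ideal (HF X p) where
  carrier := {f | (f : X.pt → ℂ) =ᶠ[𝓝 p] 0}
  add_mem' := by
    intro a b ha hb
    show ((a + b : HF X p) : X.pt → ℂ) =ᶠ[𝓝 p] 0
    filter_upwards [ha, hb] with x hx hx'
    show (a : X.pt → ℂ) x + (b : X.pt → ℂ) x = 0
    rw [hx, hx']
    simp
  zero_mem' := Filter.EventuallyEq.rfl
  smul_mem' := by
    intro c a ha
    filter_upwards [ha] with x hx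
    have h : ((c • a : HF X p) : X.pt → ℂ) x = (c : X.pt → ℂ) x * (a : X.pt → ℂ) x := rfl
    rw [h, hx]
    simp

/-- the ring of germs -/
def HG (X : CSp) (p : X.pt) : Type := HF X p ⧸ hnu X p

instance (X : CSp) (p : X.pt) : CommRing (HG X p) := inferInstanceAs (CommRing (HF X p ⧸ hnu X p))

variable {X : CSp} {p : X.pt}

/-- the germ of a function -/
def hmk (f : X.pt → ℂ) (hf : X.Hol f p) : HG X p := Ideal.Quotient.mk (hnu X p) ⟨f, hf⟩

theorem hexists_rep (a : HG X p) : ∃ (f : X.pt → ℂ) (hf : X.Hol f p), hmk f hf = a := by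
  obtain ⟨⟨f, hf⟩, rfl⟩ := Ideal.Quotient.mk_surjective a
  exact ⟨f, hf, rfl⟩

theorem hmk_eq_iff {f g : X.pt → ℂ} (hf : X.Hol f p) (hg : X.Hol g p) :
    hmk f hf = hmk g hg ↔ f =ᶠ[𝓝 p] g := by
  have h0 : hmk f hf = hmk g hg ↔ (⟨f, hf⟩ : HF X p) - ⟨g, hg⟩ ∈ hnu X p := Ideal.Quotient.eq
  rw [h0]
  constructor
  · intro h
    have h1 : (fun x => f x - g x) =ᶠ[𝓝 p] 0 := h
    filter_upwards [h1] with x hx
    exact sub_eq_zero.1 hx
  · intro h
    show (fun x => f x - g x) =ᶠ[𝓝 p] 0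
    filter_upwards [h] with x hx
    rw [hx, sub_self]
    rfl

theorem hmk_eq_zero_iff {f : X.pt → ℂ} (hf : X.Hol f p) :
    hmk f hf = 0 ↔ ∀ᶠ x in 𝓝 p, f x = 0 := by
  have h : (0 : HG X p) = hmk (fun _ => 0) (hol_const 0 p) := rfl
  rw [h, hmk_eq_iff]
  rfl

theorem hmk_add {f g : X.pt → ℂ} (hf : X.Hol f p) (hg : X.Hol g p) :
    hmk f hf + hmk g hg = hmk (fun x => f x + g x) (hol_add hf hg) := rfl

theorem hmk_mul {f g : X.pt → ℂ} (hf : X.Hol f p) (hg : X.Hol g p) :
    hmk f hf * hmk g hg = hmk (fun x => f x * g x) (hol_mul hf hg) := rfl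

theorem hmk_one : (1 : HG X p) = hmk (fun _ => 1) (hol_const 1 p) := rfl

theorem hmk_sum {ι : Type} (s : Finset ι) (f : ι → X.pt → ℂ) (hf : ∀ i, X.Hol (f i) p) :
    ∑ i ∈ s, hmk (f i) (hf i) = hmk (fun x => ∑ i ∈ s, f i x) (hol_sum s fun i _ => hf i) := by
  classical
  induction s using Finset.induction_on with
  | empty => rfl
  | insert a s ha ih =>
    rw [Finset.sum_insert ha, ih, hmk_add]
    refine (hmk_eq_iff _ _).2 (Eventually.of_forall fun x => ?_)
    simp only [Finset.sum_insert ha]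

/-- pull back of germs by a holomorphic map to `ℂ^k` -/
def pullX {k : ℕ} (Φ : X.pt → Cm k) (hΦ : ∀ i, X.Hol (fun y => Φ y i) p) (h0 : Φ p = 0) :
    O (Cm k) →+* HG X p :=
  Ideal.Quotient.lift (nu (Cm k))
    { toFun := fun f => hmk (fun y => (f : Cm k → ℂ) (Φ y))
        (hol_comp (f := fun i y => Φ y i) (G := (f : Cm k → ℂ)) hΦ (by
          have h1 : (fun i => Φ p i) = 0 := h0
          rw [h1]; exact f.2))
      map_one' := rfl
      map_mul' := fun _ _ => rfl
      map_zero' := rfl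
      map_add' := fun _ _ => rfl }
    (by
      intro a ha
      have hc : Tendsto Φ (𝓝 p) (𝓝 0) := by
        have : ContinuousAt Φ p := continuousAt_pi.2 fun i => hol_continuousAt (hΦ i)
        rwa [ContinuousAt, h0] at this
      exact (hmk_eq_zero_iff _).2 (hc.eventually ha))

theorem pullX_mk {k : ℕ} (Φ : X.pt → Cm k) (hΦ : ∀ i, X.Hol (fun y => Φ y i) p) (h0 : Φ p = 0)
    {f : Cm k → ℂ} (hf : AnalyticAt ℂ f 0) : pullX Φ hΦ h0 (mk f hf) =
      hmk (fun y => f (Φ y)) (hol_comp (f := fun i y => Φ y i) (G := f) hΦ (by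
          have h1 : (fun i => Φ p i) = 0 := h0
          rw [h1]; exact hf)) := rfl

/-- pull back by a holomorphic map `ℂ^k → X` -/
def pullS {k : ℕ} (σ : Cm k → X.pt) (hσ : HolAt X σ 0) (h0 : σ 0 = p) : HG X p →+* O (Cm k) :=
  Ideal.Quotient.lift (hnu X p)
    { toFun := fun f => mk (fun u => (f : X.pt → ℂ) (σ u)) (hσ.2 _ (by rw [h0]; exact f.2))
      map_one' := rfl
      map_mul' := fun _ _ => rfl
      map_zero' := rfl
      map_add' := fun _ _ => rfl }
    (by
      intro a ha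
      have hc : Tendsto σ (𝓝 0) (𝓝 p) := by
        have := hσ.1
        rwa [ContinuousAt, h0] at this
      exact (mk_eq_zero_iff _).2 (hc.eventually ha))

theorem pullS_mk {k : ℕ} (σ : Cm k → X.pt) (hσ : HolAt X σ 0) (h0 : σ 0 = p) {f : X.pt → ℂ}
    (hf : X.Hol f p) : pullS σ hσ h0 (hmk f hf) =
      mk (fun u => f (σ u)) (hσ.2 _ (by rw [h0]; exact hf)) := rfl

end Vale.Agent.P277.H29
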