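import Vale.Agent.P267.H68.Cone
import Mathlib.MeasureTheory.Integral.IntegralEqImproper

/-!
# P277, M2: forms with compact support in some directions
-/

set_option linter.unusedSectionVars false

open ContinuousAlternatingMap MeasureTheory Set Filter Topology
open scoped ContDiff
open Vale.Agent.P267.H68

noncomputable section

namespace Vale.Agent.P277.H29

variable {E : Type*} [NormedAddCommGroup E] [NormedSpace ℝ E] [FiniteDimensional ℝ E]

/-- weighted integral along lines -/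
def Kw (w : ℝ → ℝ) (v : E) {k : ℕ} (β : E → E [⋀^Fin (k + 1)]→L[ℝ] ℝ) (x : E) :
    E [⋀^Fin k]→L[ℝ] ℝ :=
  ∫ s : ℝ, w s • iota v (β (x + s • v))

variable {w : ℝ → ℝ} {v : E} {ℓ : E →L[ℝ] ℝ} {k : ℕ} {β : E → E [⋀^Fin (k + 1)]→L[ℝ] ℝ} {R : ℝ}

omit [FiniteDimensional ℝ E] in
theorem line_zero (hv : ℓ v = 1) (hs : ∀ x, R < |ℓ x| → β x = 0) {R' : ℝ} {x : E}
    (hx : |ℓ x| < R') {s : ℝ} (hs' : s ∉ Icc (-(R + R')) (R + R')) : β (x + s • v) = 0 := by
  apply hs
  rw [map_add, map_smul, hv, smul_eq_mul, mul_one]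
  rw [mem_Icc, not_and_or, not_le, not_le] at hs'
  rw [abs_lt] at hx
  rcases hs' with h | h
  · rw [lt_abs]; right; linarith [hx.2]
  · rw [lt_abs]; left; linarith [hx.1]

section abstract

variable {W V : Type*} [NormedAddCommGroup W] [NormedSpace ℝ W] [NormedAddCommGroup V]
  [NormedSpace ℝ V] [CompleteSpace V]

omit [FiniteDimensional ℝ E] [NormedSpace ℝ W] in
theorem line_zero' {f : E → W} (hv : ℓ v = 1) (hs : ∀ x, R < |ℓ x| → f x = 0) {R' : ℝ} {x : E}
    (hx : |ℓ x| < R') {s : ℝ} (hs' : s ∉ Icc (-(R + R')) (R + R')) : f (x + s • v) = 0 := by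
  apply hs
  rw [map_add, map_smul, hv, smul_eq_mul, mul_one]
  rw [mem_Icc, not_and_or, not_le, not_le] at hs'
  rw [abs_lt] at hx
  rcases hs' with h | h
  · rw [lt_abs]; right; linarith [hx.2]
  · rw [lt_abs]; left; linarith [hx.1]

omit [FiniteDimensional ℝ E] in
theorem contDiff_lines (A : W →L[ℝ] V) {f : E → W} (hw : LocallyIntegrable w volume) (hv : ℓ v = 1)
    (hf : ContDiff ℝ ∞ f) (hs : ∀ x, R < |ℓ x| → f x = 0) :
    ContDiff ℝ ∞ fun x => ∫ s : ℝ, w s • A (f (x + s • v)) := by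
  rw [contDiff_iff_contDiffAt]
  intro x₀
  set U : Set E := {x | |ℓ x| < |ℓ x₀| + 1}
  have hU : IsOpen U := isOpen_lt (by fun_prop) (by fun_prop)
  have hx₀ : x₀ ∈ U := show |ℓ x₀| < |ℓ x₀| + 1 from lt_add_one _
  have hg : ContDiffOn ℝ ((⊤ : ℕ∞) : WithTop ℕ∞)
      (fun q : E × ℝ => A (f (q.1 + q.2 • v))) (U ×ˢ univ) := by
    have h1 : ContDiff ℝ ∞ (fun q : E × ℝ => q.1 + q.2 • v) :=
      contDiff_fst.add (contDiff_snd.smul contDiff_const)
    exact (A.contDiff.comp (hf.comp h1)).contDiffOn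
  have h := P231.Fm.contDiffOn_param (μ := (volume : Measure ℝ)) (n := ⊤) hU
    (isCompact_Icc (a := -(R + (|ℓ x₀| + 1))) (b := R + (|ℓ x₀| + 1))) hw hg
    (fun x hx s hs' => by
      show A (f (x + s • v)) = 0
      rw [line_zero' hv hs hx hs', _root_.map_zero])
  exact (h.contDiffAt (hU.mem_nhds hx₀))

theorem hasFDerivAt_lines (A : W →L[ℝ] V) {f : E → W} (hw : LocallyIntegrable w volume)
    (hv : ℓ v = 1) (hf : ContDiff ℝ ∞ f) (hs : ∀ x, R < |ℓ x| → f x = 0) (x : E) :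
    HasFDerivAt (fun x => ∫ s : ℝ, w s • A (f (x + s • v)))
      (∫ s : ℝ, w s • (A ∘L fderiv ℝ f (x + s • v))) x ∧
    Integrable (fun s : ℝ => w s • (A ∘L fderiv ℝ f (x + s • v))) volume := by
  set U : Set E := {y | |ℓ y| < |ℓ x| + 1}
  have hU : IsOpen U := isOpen_lt (by fun_prop) (by fun_prop)
  have hx : x ∈ U := show |ℓ x| < |ℓ x| + 1 from lt_add_one _
  have h1 : ContDiff ℝ ∞ (fun q : E × ℝ => q.1 + q.2 • v) :=
    contDiff_fst.add (contDiff_snd.smul contDiff_const)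
  set g : E × ℝ → V := fun q => A (f (q.1 + q.2 • v)) with hgdef
  have hgc : ContDiff ℝ ∞ g := A.contDiff.comp (hf.comp h1)
  have hg : ContDiffOn ℝ 1 g (U ×ˢ univ) := (hgc.of_le (by exact_mod_cast le_top)).contDiffOn
  have h0 : ∀ y ∈ U, ∀ s ∉ Icc (-(R + (|ℓ x| + 1))) (R + (|ℓ x| + 1)), g (y, s) = 0 := by
    intro y hy s hs'
    show A (f (y + s • v)) = 0
    rw [line_zero' hv hs hy hs', _root_.map_zero]
  have hK := isCompact_Icc (a := -(R + (|ℓ x| + 1))) (b := R + (|ℓ x| + 1))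
  have hd := P231.Fm.hasFDerivAt_param (μ := (volume : Measure ℝ)) hU hK hw hg h0 hx
  have hfd : Differentiable ℝ f := hf.differentiable (by simp)
  have hgd : ∀ s, HasFDerivAt (fun y : E => g (y, s))
      (fderiv ℝ g (x, s) ∘L ContinuousLinearMap.inl ℝ E ℝ) x := fun s =>
    HasFDerivAt.comp (g := g) (f := fun y : E => (y, s)) x
      (hgc.differentiable (by simp) (x, s)).hasFDerivAt (hasFDerivAt_prodMk_left x s)
  have hD : ∀ s : ℝ, fderiv ℝ g (x, s) ∘L ContinuousLinearMap.inl ℝ E ℝ =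
      A ∘L fderiv ℝ f (x + s • v) := by
    intro s
    refine (hgd s).unique ?_
    have e4 : HasFDerivAt (fun y : E => y + s • v) (ContinuousLinearMap.id ℝ E) x :=
      (hasFDerivAt_id x).add_const _
    have e5 : HasFDerivAt (fun y : E => f (y + s • v))
      (fderiv ℝ f (x + s • v) ∘L ContinuousLinearMap.id ℝ E) x :=
        (hfd (x + s • v)).hasFDerivAt.comp x e4
    rw [ContinuousLinearMap.comp_id] at e5
    exact A.hasFDerivAt.comp x e5
  have hcont : Continuous fun s : ℝ => A ∘L fderiv ℝ f (x + s • v) := by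
    have e1 : Continuous (fderiv ℝ f) := hf.continuous_fderiv (by simp)
    have e2 : Continuous fun s : ℝ => fderiv ℝ f (x + s • v) := e1.comp (by fun_prop)
    exact continuous_const.clm_comp e2
  have hsupp : HasCompactSupport fun s : ℝ => A ∘L fderiv ℝ f (x + s • v) := by
    refine HasCompactSupport.intro hK fun s hs' => ?_
    rw [← hD]
    refine (hgd s).unique ?_
    refine (hasFDerivAt_const (0 : V) x).congr_of_eventuallyEq ?_
    filter_upwards [hU.mem_nhds hx] with y hy using h0 y hy s hs'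
  refine ⟨hd.congr_fderiv (integral_congr_ae (Eventually.of_forall fun s => by
      show w s • _ = w s • _
      rw [hD])), hw.integrable_smul_right_of_hasCompactSupport hcont hsupp⟩

end abstract

theorem contDiff_Kw (hw : LocallyIntegrable w volume) (hv : ℓ v = 1) (hβ : ContDiff ℝ ∞ β)
    (hs : ∀ x, R < |ℓ x| → β x = 0) : ContDiff ℝ ∞ (Kw w v β) := by
  have h := contDiff_lines (W := E [⋀^Fin (k + 1)]→L[ℝ] ℝ) (V := E [⋀^Fin k]→L[ℝ] ℝ)
    (iota (E := E) (F := ℝ) (k := k) v) (f := β) hw hv hβ hs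
  exact h

/-- **Cartan's formula**, integrated. -/
theorem extDeriv_Kw (hw : LocallyIntegrable w volume) (hv : ℓ v = 1) (hβ : ContDiff ℝ ∞ β)
    (hs : ∀ x, R < |ℓ x| → β x = 0) {x : E} (hcl : ∀ s : ℝ, extDeriv β (x + s • v) = 0) :
    extDeriv (Kw w v β) x = ∫ s : ℝ, w s • deriv (fun s : ℝ => β (x + s • v)) s := by
  obtain ⟨hd, hint⟩ := hasFDerivAt_lines (W := E [⋀^Fin (k + 1)]→L[ℝ] ℝ)
    (V := E [⋀^Fin k]→L[ℝ] ℝ) (iota (E := E) (F := ℝ) (k := k) v) (f := β) hw hv hβ hs x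
  have hβd : Differentiable ℝ β := hβ.differentiable (by simp)
  have h2 : extDeriv (Kw w v β) x = alternatizeUncurryFinCLM ℝ E ℝ (fderiv ℝ (Kw w v β) x) := rfl
  have hfd : fderiv ℝ (Kw w v β) x = ∫ s : ℝ, w s • (iota v ∘L fderiv ℝ β (x + s • v)) := hd.fderiv
  rw [h2, hfd, ← ContinuousLinearMap.integral_comp_comm _ hint]
  refine integral_congr_ae (Eventually.of_forall fun s => ?_)
  show alternatizeUncurryFinCLM ℝ E ℝ (w s • (iota v ∘L fderiv ℝ β (x + s • v))) =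
    w s • deriv (fun s : ℝ => β (x + s • v)) s
  rw [map_smul]
  congr 1
  have h3 := curryLeft_alternatize (fderiv ℝ β (x + s • v)) v
  have h4 : alternatizeUncurryFin (fderiv ℝ β (x + s • v)) = 0 := hcl s
  rw [h4] at h3
  have h5 : ContinuousAlternatingMap.curryLeft (0 : E [⋀^Fin (k + 1 + 1)]→L[ℝ] ℝ) v = 0 := rfl
  rw [h5] at h3
  have h6 : HasDerivAt (fun s : ℝ => x + s • v) v s := by
    simpa using ((hasDerivAt_id s).smul_const v).const_add x
  have h7 := (hβd (x + s • v)).hasFDerivAt.comp_hasDerivAt s h6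
  have h8 : deriv (fun s : ℝ => β (x + s • v)) s = fderiv ℝ β (x + s • v) v := h7.deriv
  rw [h8]
  exact (sub_eq_zero.1 h3.symm).symm

omit [FiniteDimensional ℝ E] in
theorem line_support (hv : ℓ v = 1) (hs : ∀ x, R < |ℓ x| → β x = 0) (x : E) :
    HasCompactSupport fun s : ℝ => β (x + s • v) :=
  HasCompactSupport.intro (isCompact_Icc (a := -(R + (|ℓ x| + 1))) (b := R + (|ℓ x| + 1)))
    fun _ hs' => line_zero hv hs (lt_add_one _) hs'

omit [FiniteDimensional ℝ E] in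
theorem line_contDiff (hβ : ContDiff ℝ ∞ β) (x v : E) : ContDiff ℝ 1 fun s : ℝ => β (x + s • v) :=
  (hβ.of_le (by exact_mod_cast le_top)).comp (contDiff_const.add (contDiff_id.smul contDiff_const))

/-- integration over the line -/
def Fl (v : E) (β : E → E [⋀^Fin (k + 1)]→L[ℝ] ℝ) : E → E [⋀^Fin k]→L[ℝ] ℝ := Kw (fun _ => 1) v β

/-- integration over the half line -/
def Hl (v : E) (β : E → E [⋀^Fin (k + 1)]→L[ℝ] ℝ) : E → E [⋀^Fin k]→L[ℝ] ℝ :=
  Kw ((Iic (0 : ℝ)).indicator fun _ => 1) v β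

theorem locInt1 : LocallyIntegrable (fun _ : ℝ => (1 : ℝ)) volume := locallyIntegrable_const 1

theorem locInt2 : LocallyIntegrable ((Iic (0 : ℝ)).indicator fun _ => (1 : ℝ)) volume :=
  (locallyIntegrable_const 1).indicator measurableSet_Iic

theorem extDeriv_Fl (hv : ℓ v = 1) (hβ : ContDiff ℝ ∞ β)
    (hs : ∀ x, R < |ℓ x| → β x = 0) {x : E} (hcl : ∀ s : ℝ, extDeriv β (x + s • v) = 0) :
    extDeriv (Fl v β) x = 0 := by
  unfold Fl
  rw [extDeriv_Kw locInt1 hv hβ hs hcl]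
  simp only [one_smul]
  have h := P231.Fm.integral_fderiv_fibre (μ := (volume : Measure ℝ)) (line_contDiff hβ x v)
    (line_support hv hs x) 1
  simpa only [fderiv_apply_one_eq_deriv] using h

theorem extDeriv_Hl (hv : ℓ v = 1) (hβ : ContDiff ℝ ∞ β)
    (hs : ∀ x, R < |ℓ x| → β x = 0) {x : E} (hcl : ∀ s : ℝ, extDeriv β (x + s • v) = 0) :
    extDeriv (Hl v β) x = β x := by
  unfold Hl
  rw [extDeriv_Kw locInt2 hv hβ hs hcl]
  have h1 : ∀ s : ℝ, (Iic (0 : ℝ)).indicator (fun _ => (1 : ℝ)) s •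
      deriv (fun s : ℝ => β (x + s • v)) s =
      (Iic (0 : ℝ)).indicator (fun s => deriv (fun s : ℝ => β (x + s • v)) s) s := by
    intro s
    by_cases h : s ∈ Iic (0 : ℝ)
    · rw [indicator_of_mem h, indicator_of_mem h, one_smul]
    · rw [indicator_of_notMem h, indicator_of_notMem h, zero_smul]
  simp only [h1]
  rw [integral_indicator measurableSet_Iic,
    HasCompactSupport.integral_Iic_deriv_eq (line_contDiff hβ x v) (line_support hv hs x) 0]
  simp

omit [FiniteDimensional ℝ E] in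
theorem Kw_zero {x : E} (h : ∀ s : ℝ, β (x + s • v) = 0) : Kw w v β x = 0 := by
  unfold Kw
  simp only [h, _root_.map_zero, smul_zero, integral_zero]

omit [FiniteDimensional ℝ E] in
/-- to the left of the support -/
theorem Hl_left (hv : ℓ v = 1) (hs : ∀ x, R < |ℓ x| → β x = 0) {x : E} (hx : ℓ x < -R) :
    Hl v β x = 0 := by
  unfold Hl Kw
  have h1 : ∀ s : ℝ, (Iic (0 : ℝ)).indicator (fun _ => (1 : ℝ)) s • iota v (β (x + s • v)) = 0 := by
    intro s
    by_cases h : s ∈ Iic (0 : ℝ)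
    · have h2 : β (x + s • v) = 0 := by
        apply hs
        rw [map_add, map_smul, hv, smul_eq_mul, mul_one, lt_abs]
        right
        have : s ≤ 0 := h
        linarith
      rw [h2, _root_.map_zero, smul_zero]
    · rw [indicator_of_notMem h, zero_smul]
  simp only [h1, integral_zero]

omit [FiniteDimensional ℝ E] in
theorem Hl_right (hv : ℓ v = 1) (hs : ∀ x, R < |ℓ x| → β x = 0) {x : E} (hx : R < ℓ x) :
    Hl v β x = Fl v β x := by
  unfold Hl Fl Kw
  refine integral_congr_ae (Eventually.of_forall fun s => ?_)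
  show (Iic (0 : ℝ)).indicator (fun _ => (1 : ℝ)) s • _ = (1 : ℝ) • _
  by_cases h : s ∈ Iic (0 : ℝ)
  · rw [indicator_of_mem h]
  · have h2 : β (x + s • v) = 0 := by
      apply hs
      rw [map_add, map_smul, hv, smul_eq_mul, mul_one, lt_abs]
      left
      have : 0 < s := not_le.1 h
      linarith
    rw [h2, _root_.map_zero, smul_zero, smul_zero]

/-- a cut-off function -/
structure IsStep (R : ℝ) (ψ : ℝ → ℝ) : Prop where
  sm : ContDiff ℝ ∞ ψ
  left : ∀ t ≤ -R, ψ t = 0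
  right : ∀ t, R ≤ t → ψ t = 1

/-- **One direction.** -/
theorem one_dir {Ω : Set E} (hv : ℓ v = 1) (hinv : ∀ x ∈ Ω, ∀ s : ℝ, x + s • v ∈ Ω)
    (hβ : ContDiff ℝ ∞ β) (hs : ∀ x, R < |ℓ x| → β x = 0) (hcl : ∀ x ∈ Ω, extDeriv β x = 0)
    {ψ : ℝ → ℝ} (hψ : IsStep R ψ) :
    ∃ γ : E → E [⋀^Fin k]→L[ℝ] ℝ, ContDiff ℝ ∞ (Fl v β) ∧ ContDiff ℝ ∞ γ ∧
      (∀ x ∈ Ω, extDeriv (Fl v β) x = 0) ∧
      (∀ x ∈ Ω, β x = extDeriv (fun y => ψ (ℓ y) • Fl v β y) x + extDeriv γ x) ∧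
      (∀ x, R < |ℓ x| → γ x = 0) ∧ ∀ x, (∀ s : ℝ, β (x + s • v) = 0) → Fl v β x = 0 ∧ γ x = 0 := by
  have hF : ContDiff ℝ ∞ (Fl v β) := contDiff_Kw locInt1 hv hβ hs
  have hH : ContDiff ℝ ∞ (Hl v β) := contDiff_Kw locInt2 hv hβ hs
  have hψℓ : ContDiff ℝ ∞ fun y : E => ψ (ℓ y) := hψ.sm.comp ℓ.contDiff
  have hψF : ContDiff ℝ ∞ fun y : E => ψ (ℓ y) • Fl v β y := hψℓ.smul hF
  refine ⟨fun y => Hl v β y - ψ (ℓ y) • Fl v β y, hF, hH.sub hψF,
    fun x hx => extDeriv_Fl hv hβ hs fun s => hcl _ (hinv x hx s), fun x hx => ?_, fun x hx => ?_,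
    fun x hx => ?_⟩
  · have h1 : extDeriv (fun y => Hl v β y - ψ (ℓ y) • Fl v β y) x =
        extDeriv (Hl v β) x - extDeriv (fun y => ψ (ℓ y) • Fl v β y) x := by
      have e1 : DifferentiableAt ℝ (Hl v β) x := hH.differentiable (by simp) x
      have e2 : DifferentiableAt ℝ (fun y => ψ (ℓ y) • Fl v β y) x :=
        hψF.differentiable (by simp) x
      unfold extDeriv
      rw [fderiv_fun_sub e1 e2]
      exact map_sub (alternatizeUncurryFinCLM ℝ E ℝ) _ _
    rw [h1, extDeriv_Hl hv hβ hs fun s => hcl _ (hinv x hx s)]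
    abel
  · show Hl v β x - ψ (ℓ x) • Fl v β x = 0
    rw [lt_abs] at hx
    rcases hx with hx | hx
    · rw [Hl_right hv hs hx, hψ.right _ hx.le, one_smul, sub_self]
    · have hx' : ℓ x < -R := by linarith
      rw [Hl_left hv hs hx', hψ.left _ hx'.le, zero_smul, sub_zero]
  · refine ⟨Kw_zero hx, ?_⟩
    show Hl v β x - ψ (ℓ x) • Fl v β x = 0
    have e1 : Hl v β x = 0 := Kw_zero hx
    have e2 : Fl v β x = 0 := Kw_zero hx
    rw [e1, e2, smul_zero, sub_zero]

end Vale.Agent.P277.H29
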