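import Vale.Agent.P277.H29.M2b
import Vale.Agent.P267.H175.RLoc

/-!
# P277, M2: the model form
-/

set_option linter.unusedSectionVars false

open MeasureTheory Set Filter Topology
open scoped ContDiff
open Vale.Agent.P267.H68 Vale.Agent.P267.H175

noncomputable section

namespace Vale.Agent.P277.H29

variable {E : Type*} [NormedAddCommGroup E] [NormedSpace ℝ E]

theorem ed_add {k : ℕ} {a b : E → E [⋀^Fin k]→L[ℝ] ℝ} (ha : ContDiff ℝ ∞ a) (hb : ContDiff ℝ ∞ b)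
    (x : E) : extDeriv (fun y => a y + b y) x = extDeriv a x + extDeriv b x := by
  unfold extDeriv
  rw [fderiv_fun_add (ha.differentiable (by simp) x) (hb.differentiable (by simp) x)]
  exact map_add (ContinuousAlternatingMap.alternatizeUncurryFinCLM ℝ E ℝ) _ _

theorem ed_sub {k : ℕ} {a b : E → E [⋀^Fin k]→L[ℝ] ℝ} (ha : ContDiff ℝ ∞ a) (hb : ContDiff ℝ ∞ b)
    (x : E) : extDeriv (fun y => a y - b y) x = extDeriv a x - extDeriv b x := by
  unfold extDeriv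
  rw [fderiv_fun_sub (ha.differentiable (by simp) x) (hb.differentiable (by simp) x)]
  exact map_sub (ContinuousAlternatingMap.alternatizeUncurryFinCLM ℝ E ℝ) _ _

theorem ed_smul {k : ℕ} (c : ℝ) {a : E → E [⋀^Fin k]→L[ℝ] ℝ} (ha : ContDiff ℝ ∞ a)
    (x : E) : extDeriv (fun y => c • a y) x = c • extDeriv a x := by
  unfold extDeriv
  rw [fderiv_fun_const_smul (ha.differentiable (by simp) x)]
  exact map_smul (ContinuousAlternatingMap.alternatizeUncurryFinCLM ℝ E ℝ) _ _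

theorem ed_congr {k : ℕ} {a b : E → E [⋀^Fin k]→L[ℝ] ℝ} {x : E} (h : a =ᶠ[𝓝 x] b) :
    extDeriv a x = extDeriv b x := by
  unfold extDeriv
  rw [h.fderiv_eq]

theorem ed_zero {k : ℕ} {a : E → E [⋀^Fin k]→L[ℝ] ℝ} {x : E} (h : ∀ᶠ y in 𝓝 x, a y = 0) :
    extDeriv a x = 0 := by
  have h1 : a =ᶠ[𝓝 x] fun _ => 0 := h
  rw [ed_congr h1]
  unfold extDeriv
  rw [fderiv_fun_const]
  exact map_zero (ContinuousAlternatingMap.alternatizeUncurryFinCLM ℝ E ℝ)

theorem ed_smooth {k : ℕ} {a : E → E [⋀^Fin k]→L[ℝ] ℝ} (ha : ContDiff ℝ ∞ a) :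
    ContDiff ℝ ∞ (extDeriv a) := by
  have h5 : ContDiff ℝ ∞ (fderiv ℝ a) := ha.fderiv_right (by simp)
  exact (ContinuousAlternatingMap.alternatizeUncurryFinCLM ℝ E ℝ).contDiff.comp h5

theorem ed_ed {k : ℕ} {a : E → E [⋀^Fin k]→L[ℝ] ℝ} (ha : ContDiff ℝ ∞ a) (x : E) :
    extDeriv (extDeriv a) x = 0 := extDeriv_extDeriv_apply ha.contDiffAt minS

/-- the model form -/
def kap : (j : ℕ) → (Fin j → ℝ → ℝ) → (Fin j → E →L[ℝ] ℝ) → E → E [⋀^Fin j]→L[ℝ] ℝ
  | 0, _, _ => fun _ => ContinuousAlternatingMap.constOfIsEmpty ℝ E (Fin 0) 1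
  | j + 1, ψ, ℓ => extDeriv fun x => ψ 0 (ℓ 0 x) • kap j (fun i => ψ i.succ) (fun i => ℓ i.succ) x

theorem kap_smooth : ∀ (j : ℕ) (ψ : Fin j → ℝ → ℝ) (ℓ : Fin j → E →L[ℝ] ℝ)
    (_ : ∀ i, ContDiff ℝ ∞ (ψ i)), ContDiff ℝ ∞ (kap j ψ ℓ)
  | 0, _, _, _ => contDiff_const
  | j + 1, ψ, ℓ, hψ => ed_smooth (((hψ 0).comp (ℓ 0).contDiff).smul
      (kap_smooth j _ _ fun i => hψ i.succ))

theorem kap_closed (j : ℕ) (ψ : Fin j → ℝ → ℝ) (ℓ : Fin j → E →L[ℝ] ℝ)
    (hψ : ∀ i, ContDiff ℝ ∞ (ψ i)) (x : E) : extDeriv (kap j ψ ℓ) x = 0 := by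
  cases j with
  | zero =>
    show extDeriv (fun _ => ContinuousAlternatingMap.constOfIsEmpty ℝ E (Fin 0) 1) x = 0
    unfold extDeriv
    rw [fderiv_fun_const]
    exact map_zero (ContinuousAlternatingMap.alternatizeUncurryFinCLM ℝ E ℝ)
  | succ j =>
    exact ed_ed (((hψ 0).comp (ℓ 0).contDiff).smul (kap_smooth j _ _ fun i => hψ i.succ)) x

theorem kap_zero : ∀ (j : ℕ) (ψ : Fin j → ℝ → ℝ) (ℓ : Fin j → E →L[ℝ] ℝ)
    (_ : ∀ i, ContDiff ℝ ∞ (ψ i)) (x : E) (i : Fin j) (c : ℝ)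
    (_ : ∀ᶠ t in 𝓝 (ℓ i x), ψ i t = c), kap j ψ ℓ x = 0
  | 0, _, _, _, _, i, _, _ => i.elim0
  | j + 1, ψ, ℓ, hψ, x, i, c, h => by
    have hc : ContinuousAt (ℓ i) x := (ℓ i).continuous.continuousAt
    have h1 := (hc.eventually h.eventually_nhds)
    have hsm := kap_smooth j (fun i => ψ i.succ) (fun i => ℓ i.succ) fun i => hψ i.succ
    show extDeriv (fun x => ψ 0 (ℓ 0 x) • kap j (fun i => ψ i.succ) (fun i => ℓ i.succ) x) x = 0
    induction i using Fin.cases with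
    | zero =>
      have h2 : (fun x => ψ 0 (ℓ 0 x) • kap j (fun i => ψ i.succ) (fun i => ℓ i.succ) x) =ᶠ[𝓝 x]
          fun x => c • kap j (fun i => ψ i.succ) (fun i => ℓ i.succ) x := by
        filter_upwards [h1] with y hy
        rw [hy.self_of_nhds]
      rw [ed_congr h2, ed_smul c hsm, kap_closed j _ _ (fun i => hψ i.succ), smul_zero]
    | succ i =>
      apply ed_zero
      filter_upwards [h1] with y hy
      rw [kap_zero j (fun i => ψ i.succ) (fun i => ℓ i.succ) (fun i => hψ i.succ) y i c hy,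
        smul_zero]

theorem ed_zero_form {a : E → E [⋀^Fin 0]→L[ℝ] ℝ} {Ω : Set E} (hΩ : IsOpen Ω)
    (hΩp : IsPreconnected Ω) (hΩn : Ω.Nonempty) (ha : ContDiff ℝ ∞ a)
    (h : ∀ x ∈ Ω, extDeriv a x = 0) :
    ∃ c : ℝ, ∀ x ∈ Ω, a x = c • ContinuousAlternatingMap.constOfIsEmpty ℝ E (Fin 0) (1 : ℝ) := by
  obtain ⟨x₀, hx₀⟩ := hΩn
  have h2 : Ω.EqOn (fderiv ℝ a) 0 := by
    intro z hz
    ext v m
    have h4 := congrArg (fun g => g ![v]) (h z hz)
    simp only [extDeriv, ContinuousAlternatingMap.alternatizeUncurryFin_apply,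
      Fin.sum_univ_one] at h4
    have hm : m = (Fin.removeNth 0 ![v]) := Subsingleton.elim _ _
    rw [hm]
    simpa using h4
  refine ⟨a x₀ 0, fun x hx => ?_⟩
  have h3 := hΩ.is_const_of_fderiv_eq_zero hΩp (ha.differentiable (by simp)).differentiableOn h2 hx
    hx₀
  rw [h3]
  ext m
  have hm : m = 0 := Subsingleton.elim _ _
  rw [hm]
  simp

variable [FiniteDimensional ℝ E] {R : ℝ}

/-- **Poincaré lemma with compact support in `j + 1` directions.** -/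
theorem multi_dir {Ω : Set E} (hΩ : IsOpen Ω) (hΩp : IsPreconnected Ω) (hΩn : Ω.Nonempty) :
    ∀ (j : ℕ) (v : Fin (j + 1) → E) (ℓ : Fin (j + 1) → E →L[ℝ] ℝ)
      (_ : ∀ i i', ℓ i (v i') = if i = i' then 1 else 0)
      (_ : ∀ i, ∀ x ∈ Ω, ∀ s : ℝ, x + s • v i ∈ Ω) (ψ : Fin (j + 1) → ℝ → ℝ)
      (_ : ∀ i, IsStep R (ψ i)) (β : E → E [⋀^Fin (j + 1)]→L[ℝ] ℝ) (_ : ContDiff ℝ ∞ β)
      (_ : ∀ i x, R < |ℓ i x| → β x = 0) (_ : ∀ x ∈ Ω, extDeriv β x = 0),
      ∃ (c : ℝ) (γ : E → E [⋀^Fin j]→L[ℝ] ℝ), ContDiff ℝ ∞ γ ∧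
        (∀ x ∈ Ω, β x = c • kap (j + 1) ψ ℓ x + extDeriv γ x) ∧ ∀ i x, R < |ℓ i x| → γ x = 0 := by
  intro j
  induction j with
  | zero =>
    intro v ℓ hd hinv ψ hψ β hβ hs hcl
    obtain ⟨γ, hF, hγ, h1, h2, h3, -⟩ := one_dir (v := v 0) (ℓ := ℓ 0) (by simp [hd]) (hinv 0) hβ
      (hs 0) hcl (hψ 0)
    obtain ⟨c, hc⟩ := ed_zero_form hΩ hΩp hΩn hF h1
    refine ⟨c, γ, hγ, fun x hx => ?_, fun i x hx => ?_⟩
    · rw [h2 x hx]
      congr 1
      have h4 : (fun y => ψ 0 (ℓ 0 y) • Fl (v 0) β y) =ᶠ[𝓝 x] fun y => c • (ψ 0 (ℓ 0 y) •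
          ContinuousAlternatingMap.constOfIsEmpty ℝ E (Fin 0) (1 : ℝ)) := by
        filter_upwards [hΩ.mem_nhds hx] with y hy
        rw [hc y hy, smul_comm]
      rw [ed_congr h4, ed_smul c]
      · rfl
      · exact ((hψ 0).sm.comp (ℓ 0).contDiff).smul contDiff_const
    · have hi : i = 0 := Fin.fin_one_eq_zero i
      subst hi
      exact h3 x hx
  | succ j ih =>
    intro v ℓ hd hinv ψ hψ β hβ hs hcl
    obtain ⟨γ, hF, hγ, h1, h2, h3, h4⟩ := one_dir (v := v 0) (ℓ := ℓ 0) (by simp [hd]) (hinv 0) hβ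
      (hs 0) hcl (hψ 0)
    have hline : ∀ (i : Fin (j + 1)) (x : E), R < |ℓ i.succ x| → ∀ s : ℝ, β (x + s • v 0) = 0 := by
      intro i x hx s
      apply hs i.succ
      have : ℓ i.succ (v 0) = 0 := by rw [hd, if_neg (Fin.succ_ne_zero i)]
      rw [map_add, map_smul, this, smul_zero, add_zero]
      exact hx
    obtain ⟨c, γ', hγ', h5, h6⟩ := ih (fun i => v i.succ) (fun i => ℓ i.succ)
      (fun i i' => by rw [hd]; simp [Fin.succ_inj]) (fun i => hinv i.succ) (fun i => ψ i.succ)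
      (fun i => hψ i.succ) (Fl (v 0) β) hF (fun i x hx => (h4 x (hline i x hx)).1) h1
    set Ψ : E → ℝ := fun x => ψ 0 (ℓ 0 x)
    have hΨ : ContDiff ℝ ∞ Ψ := (hψ 0).sm.comp (ℓ 0).contDiff
    have s1 : ContDiff ℝ ∞ fun x => Ψ x • extDeriv γ' x := hΨ.smul (ed_smooth hγ')
    have s2 : ContDiff ℝ ∞ fun x => Ψ x • γ' x := hΨ.smul hγ'
    have s3 : ContDiff ℝ ∞ (extDeriv fun x => Ψ x • γ' x) := ed_smooth s2
    have s4 := kap_smooth (j + 1) (fun i => ψ i.succ) (fun i => ℓ i.succ) fun i => (hψ i.succ).sm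
    have s5 : ContDiff ℝ ∞ fun x => Ψ x • kap (j + 1) (fun i => ψ i.succ) (fun i => ℓ i.succ) x :=
      hΨ.smul s4
    refine ⟨c, fun x => γ x + (Ψ x • extDeriv γ' x - extDeriv (fun x => Ψ x • γ' x) x),
      hγ.add (s1.sub s3), fun x hx => ?_, fun i x hx => ?_⟩
    · rw [h2 x hx, ed_add hγ (s1.sub s3), ed_sub s1 s3, ed_ed s2, sub_zero, add_comm (extDeriv γ x),
        ← add_assoc]
      congr 1
      have h7 : (fun y => ψ 0 (ℓ 0 y) • Fl (v 0) β y) =ᶠ[𝓝 x] fun y =>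
          c • (Ψ y • kap (j + 1) (fun i => ψ i.succ) (fun i => ℓ i.succ) y) +
            Ψ y • extDeriv γ' y := by
        filter_upwards [hΩ.mem_nhds hx] with y hy
        rw [h5 y hy, smul_add, smul_comm]
      have s6 : ContDiff ℝ ∞ fun x => c • (Ψ x • kap (j + 1) (fun i => ψ i.succ)
          (fun i => ℓ i.succ) x) := s5.const_smul c
      rw [ed_congr h7, ed_add s6 s1, ed_smul c s5]
      rfl
    · show γ x + (Ψ x • extDeriv γ' x - extDeriv (fun x => Ψ x • γ' x) x) = 0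
      induction i using Fin.cases with
      | zero =>
        rw [h3 x hx, zero_add]
        have hcΨ : ∃ c₀, ∀ᶠ y in 𝓝 x, Ψ y = c₀ := by
          have hcont : ContinuousAt (ℓ 0) x := (ℓ 0).continuous.continuousAt
          rw [lt_abs] at hx
          rcases hx with hx | hx
          · refine ⟨1, ?_⟩
            filter_upwards [hcont.eventually_const_lt hx] with y hy
            exact (hψ 0).right _ hy.le
          · refine ⟨0, ?_⟩
            have hx' : ℓ 0 x < -R := by linarith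
            filter_upwards [hcont.eventually_lt_const hx'] with y hy
            exact (hψ 0).left _ hy.le
        obtain ⟨c₀, hc₀⟩ := hcΨ
        have h8 : (fun x => Ψ x • γ' x) =ᶠ[𝓝 x] fun x => c₀ • γ' x := by
          filter_upwards [hc₀] with y hy
          rw [hy]
        rw [ed_congr h8, ed_smul c₀ hγ', hc₀.self_of_nhds, sub_self]
      | succ i =>
        rw [(h4 x (hline i x hx)).2, zero_add]
        have hcont : ContinuousAt (fun y => |ℓ i.succ y|) x := by fun_prop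
        have h8 : ∀ᶠ y in 𝓝 x, γ' y = 0 := by
          filter_upwards [hcont.eventually_const_lt hx] with y hy using h6 i y hy
        have h9 : ∀ᶠ y in 𝓝 x, Ψ y • γ' y = 0 := by
          filter_upwards [h8] with y hy
          rw [hy, smul_zero]
        rw [ed_zero h8, ed_zero h9, smul_zero, sub_zero]

end Vale.Agent.P277.H29
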