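import Vale.Agent.P277.H29.MLoc
import Vale.Agent.P277.H29.M1
import Vale.Agent.P277.H29.M2c

/-!
# P277, M2: transplantation of forms between a chart and the manifold
-/

set_option linter.unusedSectionVars false

open scoped Manifold ContDiff Topology
open Set Filter
open Vale.Agent.P267 Vale.Agent.P267.H175

noncomputable section

namespace Vale.Agent.P277.H29

variable {E : Type*} [NormedAddCommGroup E] [NormedSpace ℝ E] [FiniteDimensional ℝ E]
variable {X : Type*} [TopologicalSpace X] [T2Space X] [ChartedSpace E X] [IsManifold 𝓘(ℝ, E) ∞ X]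

open Classical in
/-- the form on the manifold with given local expression in `φ` and zero outside -/
def toM {k : ℕ} (φ : OpenPartialHomeomorph X E) (η : E → E [⋀^Fin k]→L[ℝ] ℝ) (x : X) :
    E [⋀^Fin k]→L[ℝ] ℝ := if x ∈ φ.source then ML.unloc φ η x else 0

open Classical in
/-- the form on the vector space with given local expression and zero outside -/
def toE {k : ℕ} (φ : OpenPartialHomeomorph X E) (a : X → E [⋀^Fin k]→L[ℝ] ℝ) (z : E) :
    E [⋀^Fin k]→L[ℝ] ℝ := if z ∈ φ.target then loc φ a z else 0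

variable {k : ℕ} {φ : OpenPartialHomeomorph X E}

omit [FiniteDimensional ℝ E] [T2Space X] in
theorem loc_toM (hφ : φ ∈ IsManifold.maximalAtlas 𝓘(ℝ, E) ∞ X) (η : E → E [⋀^Fin k]→L[ℝ] ℝ)
    {z : E} (hz : z ∈ φ.target) : loc φ (toM φ η) z = η z := by
  rw [← ML.loc_unloc hφ η hz]
  unfold loc toM
  rw [if_pos (φ.map_target hz)]

omit [FiniteDimensional ℝ E] [T2Space X] in
theorem loc_toM_ev (hφ : φ ∈ IsManifold.maximalAtlas 𝓘(ℝ, E) ∞ X) (η : E → E [⋀^Fin k]→L[ℝ] ℝ)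
    {z : E} (hz : z ∈ φ.target) : loc φ (toM φ η) =ᶠ[𝓝 z] η := by
  filter_upwards [φ.open_target.mem_nhds hz] with w hw using loc_toM hφ η hw

omit [FiniteDimensional ℝ E] [T2Space X] in
theorem loc_zero_iff (hφ : φ ∈ IsManifold.maximalAtlas 𝓘(ℝ, E) ∞ X)
    {a : X → E [⋀^Fin k]→L[ℝ] ℝ} {x : X} (hx : x ∈ φ.source) : loc φ a (φ x) = 0 ↔ a x = 0 := by
  constructor
  · intro h
    have h1 : loc φ a (φ x) = loc φ (0 : X → E [⋀^Fin k]→L[ℝ] ℝ) (φ x) := by rw [h]; rfl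
    exact ML.loc_inj hφ hx h1
  · intro h
    unfold loc
    rw [φ.left_inv hx, h]
    rfl

omit [FiniteDimensional ℝ E] in
theorem toM_zero (hφ : φ ∈ IsManifold.maximalAtlas 𝓘(ℝ, E) ∞ X) {η : E → E [⋀^Fin k]→L[ℝ] ℝ}
    {C : Set E} (hη : ∀ z ∉ C, η z = 0) {x : X} (hx : x ∉ φ.symm '' (C ∩ φ.target)) :
    toM φ η x = 0 := by
  by_cases hxs : x ∈ φ.source
  · rw [← loc_zero_iff hφ hxs, loc_toM hφ η (φ.map_source hxs)]
    apply hη
    intro h
    exact hx ⟨φ x, ⟨h, φ.map_source hxs⟩, φ.left_inv hxs⟩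
  · exact if_neg hxs

theorem compact_image {C : Set E} (hC : IsCompact C) (hCt : C ⊆ φ.target) :
    IsCompact (φ.symm '' C) := hC.image_of_continuousOn (φ.symm.continuousOn.mono hCt)

theorem toM_smAt (hφ : φ ∈ IsManifold.maximalAtlas 𝓘(ℝ, E) ∞ X) {η : E → E [⋀^Fin k]→L[ℝ] ℝ}
    (hη : ContDiff ℝ ∞ η) {C : Set E} (hC : IsCompact C) (hCt : C ⊆ φ.target)
    (h0 : ∀ z ∉ C, η z = 0) (x : X) : SmAt (toM φ η) x := by
  by_cases hxs : x ∈ φ.source
  · rw [ML.smAt_iff hφ hxs]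
    exact hη.contDiffAt.congr_of_eventuallyEq (loc_toM_ev hφ η (φ.map_source hxs))
  · refine (smAt_zero x).congr ?_
    have h1 : IsClosed (φ.symm '' C) := (compact_image hC hCt).isClosed
    have h2 : x ∉ φ.symm '' C := by
      rintro ⟨z, hz, rfl⟩
      exact hxs (φ.map_target (hCt hz))
    filter_upwards [h1.isOpen_compl.mem_nhds h2] with y hy
    exact toM_zero hφ h0 fun h => hy (image_mono inter_subset_left h)

omit [T2Space X] [FiniteDimensional ℝ E] in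
theorem toE_ev (a : X → E [⋀^Fin k]→L[ℝ] ℝ) {z : E} (hz : z ∈ φ.target) :
    toE φ a =ᶠ[𝓝 z] loc φ a := by
  filter_upwards [φ.open_target.mem_nhds hz] with w hw using if_pos hw

omit [T2Space X] [FiniteDimensional ℝ E] in
theorem toE_zero {a : X → E [⋀^Fin k]→L[ℝ] ℝ} {K : Set X}
    (h0 : ∀ x ∉ K, a x = 0) {z : E} (hz : z ∉ φ '' (K ∩ φ.source)) : toE φ a z = 0 := by
  by_cases hzt : z ∈ φ.target
  · rw [show toE φ a z = loc φ a z from if_pos hzt]
    have h1 : a (φ.symm z) = 0 := by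
      apply h0
      intro h
      exact hz ⟨φ.symm z, ⟨h, φ.map_target hzt⟩, φ.right_inv hzt⟩
    unfold loc
    rw [h1]
    rfl
  · exact if_neg hzt

omit [T2Space X] [FiniteDimensional ℝ E] [ChartedSpace E X] in
theorem compact_image' {K : Set X} (hK : IsCompact K) (hKs : K ⊆ φ.source) :
    IsCompact (φ '' K) := hK.image_of_continuousOn (φ.continuousOn.mono hKs)

omit [T2Space X] in
theorem toE_smooth (hφ : φ ∈ IsManifold.maximalAtlas 𝓘(ℝ, E) ∞ X)
    {a : X → E [⋀^Fin k]→L[ℝ] ℝ} (ha : ∀ x, SmAt a x) {K : Set X} (hK : IsCompact K)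
    (hKs : K ⊆ φ.source) (h0 : ∀ x ∉ K, a x = 0) : ContDiff ℝ ∞ (toE φ a) := by
  rw [contDiff_iff_contDiffAt]
  intro z
  by_cases hzt : z ∈ φ.target
  · have h1 := (ML.smAt_iff hφ (φ.map_target hzt)).1 (ha _)
    rw [φ.right_inv hzt] at h1
    exact h1.congr_of_eventuallyEq (toE_ev a hzt)
  · refine (contDiffAt_const (c := (0 : E [⋀^Fin k]→L[ℝ] ℝ))).congr_of_eventuallyEq ?_
    have h1 : IsClosed (φ '' K) := (compact_image' hK hKs).isClosed
    have h2 : z ∉ φ '' K := by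
      rintro ⟨x, hx, rfl⟩
      exact hzt (φ.map_source (hKs hx))
    filter_upwards [h1.isOpen_compl.mem_nhds h2] with w hw
    exact toE_zero h0 fun h => hw (image_mono inter_subset_left h)

omit [FiniteDimensional ℝ E] [T2Space X] in
theorem toE_closed (hφ : φ ∈ IsManifold.maximalAtlas 𝓘(ℝ, E) ∞ X)
    {a : X → E [⋀^Fin k]→L[ℝ] ℝ} (ha : ∀ x, SmAt a x) {x : X} (hx : x ∈ φ.source)
    (h : ∀ᶠ y in 𝓝 x, dF a y = 0) : ∀ᶠ z in 𝓝 (φ x), extDeriv (toE φ a) z = 0 := by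
  have hc : ContinuousAt φ.symm (φ x) := φ.symm.continuousAt (φ.map_source hx)
  have h1 : Tendsto φ.symm (𝓝 (φ x)) (𝓝 x) := by
    have := hc.tendsto
    rwa [φ.left_inv hx] at this
  filter_upwards [h1.eventually h, φ.open_target.mem_nhds (φ.map_source hx)] with z hz hzt
  rw [(toE_ev a hzt).extDeriv_eq, ← ML.loc_dF hφ hzt (ha _)]
  unfold loc
  rw [hz]
  rfl

/-- the exterior derivative of a transplanted form -/
theorem loc_dF_toM (hφ : φ ∈ IsManifold.maximalAtlas 𝓘(ℝ, E) ∞ X) {η : E → E [⋀^Fin k]→L[ℝ] ℝ}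
    (hη : ContDiff ℝ ∞ η) {z : E} (hz : z ∈ φ.target) :
    loc φ (dF (toM φ η)) z = extDeriv η z := by
  have h1 : SmAt (toM φ η) (φ.symm z) := by
    rw [ML.smAt_iff hφ (φ.map_target hz), φ.right_inv hz]
    exact hη.contDiffAt.congr_of_eventuallyEq (loc_toM_ev hφ η hz)
  rw [ML.loc_dF hφ hz h1, (loc_toM_ev hφ η hz).extDeriv_eq]

end Vale.Agent.P277.H29
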