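import Vale.Agent.P277.H29.M2d
import Vale.Agent.P277.H73.IFT

/-!
# P277, M2: charts which flatten a surface
-/

set_option linter.unusedSectionVars false

open scoped Manifold ContDiff Topology
open Set Filter
open Vale.Agent.P267 Vale.Agent.P267.H175 Vale.Agent.P272.K

noncomputable section

namespace Vale.Agent.P277.H29

section max

variable {E : Type*} [NormedAddCommGroup E] [NormedSpace ℝ E]
variable {X : Type*} [TopologicalSpace X] [ChartedSpace E X]

theorem mem_max {φ : OpenPartialHomeomorph X E}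
    (h1 : ∀ e' ∈ atlas E X, ∀ y ∈ φ.source, y ∈ e'.source →
      ContDiffAt ℝ ∞ (fun z => e' (φ.symm z)) (φ y))
    (h2 : ∀ e' ∈ atlas E X, ∀ y ∈ φ.source, y ∈ e'.source →
      ContDiffAt ℝ ∞ (fun z => φ (e'.symm z)) (e' y)) :
    φ ∈ IsManifold.maximalAtlas 𝓘(ℝ, E) ∞ X := by
  intro e' he'
  have k1 : ContDiffOn ℝ ∞ ((e' : X → E) ∘ (φ.symm : E → X)) (φ.target ∩ φ.symm ⁻¹' e'.source) := by
    rintro z ⟨hz, hz'⟩
    have := h1 e' he' (φ.symm z) (φ.map_target hz) hz'
    rw [φ.right_inv hz] at this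
    exact this.contDiffWithinAt
  have k2 : ContDiffOn ℝ ∞ ((φ : X → E) ∘ (e'.symm : E → X)) (e'.target ∩ e'.symm ⁻¹' φ.source) := by
    rintro z ⟨hz, hz'⟩
    have := h2 e' he' (e'.symm z) hz' (e'.map_target hz)
    rw [e'.right_inv hz] at this
    exact this.contDiffWithinAt
  constructor
  · rw [contDiffGroupoid, mem_groupoid_of_pregroupoid]
    simp only [contDiffPregroupoid]
    constructor
    · simpa using k1
    · simpa [OpenPartialHomeomorph.trans_target] using k2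
  · rw [contDiffGroupoid, mem_groupoid_of_pregroupoid]
    simp only [contDiffPregroupoid]
    constructor
    · simpa using k2
    · simpa [OpenPartialHomeomorph.trans_target] using k1

end max

/-- the real box -/
def Box (r : ℝ) : Set (Cm 4) := {z | ∀ i, |(z i).re| < r ∧ |(z i).im| < r}

theorem isOpen_box (r : ℝ) : IsOpen (Box r) := by
  have h : Box r = ⋂ i, {z : Cm 4 | |(z i).re| < r ∧ |(z i).im| < r} := by
    ext z; simp [Box]
  rw [h]
  refine isOpen_iInter_of_finite fun i => ?_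
  exact (isOpen_lt (Complex.continuous_re.comp (continuous_apply i)).abs continuous_const).inter
    (isOpen_lt (Complex.continuous_im.comp (continuous_apply i)).abs continuous_const)

theorem zero_mem_box {r : ℝ} (hr : 0 < r) : (0 : Cm 4) ∈ Box r := by
  intro i
  simp [hr]

theorem box_subset_ball {r : ℝ} (hr : 0 < r) : Box r ⊆ Metric.ball 0 (2 * r) := by
  intro z hz
  rw [mem_ball_zero_iff, pi_norm_lt_iff (by positivity)]
  intro i
  have h := Complex.norm_le_abs_re_add_abs_im (z i)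
  have := hz i
  linarith [this.1, this.2]

/-- completing two covectors -/
theorem exists_complete (f g : Cm 4 →L[ℂ] ℂ) (h : LinearIndependent ℂ ![f, g]) :
    ∃ a b : Cm 4 →ₗ[ℂ] ℂ, ∀ z : Cm 4, f z = 0 → g z = 0 → a z = 0 → b z = 0 → z = 0 := by
  classical
  let D : Cm 4 →ₗ[ℂ] (Fin 2 → ℂ) := LinearMap.pi ![(f : Cm 4 →ₗ[ℂ] ℂ), (g : Cm 4 →ₗ[ℂ] ℂ)]
  have hD : LinearMap.range D = ⊤ := by
    by_contra hne
    obtain ⟨l, hl, hlD⟩ := Submodule.exists_le_ker_of_lt_top _ (lt_top_iff_ne_top.2 hne)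
    have h1 : ∀ z, l (D z) = 0 := fun z => hlD ⟨z, rfl⟩
    have h2 : ∀ w : Fin 2 → ℂ, l w = w 0 * l (Pi.single 0 1) + w 1 * l (Pi.single 1 1) := by
      intro w
      have h3 : w = w 0 • Pi.single (M := fun _ : Fin 2 => ℂ) 0 (1 : ℂ) +
          w 1 • Pi.single (M := fun _ : Fin 2 => ℂ) 1 (1 : ℂ) := by
        ext i
        fin_cases i <;> simp
      conv_lhs => rw [h3]
      rw [map_add, map_smul, map_smul, smul_eq_mul, smul_eq_mul]
    have h3 : l (Pi.single 0 1) • f + l (Pi.single 1 1) • g = 0 := by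
      ext1 z
      have h4 := h1 z
      rw [h2] at h4
      show l (Pi.single 0 1) * f z + l (Pi.single 1 1) * g z = 0
      have h5 : D z 0 = f z := rfl
      have h6 : D z 1 = g z := rfl
      rw [h5, h6] at h4
      linear_combination h4
    have h4 := LinearIndependent.pair_iff.1 h _ _ h3
    apply hl
    ext1 i
    ext
    fin_cases i
    · simpa using h4.1
    · simpa using h4.2
  have hker : Module.finrank ℂ (LinearMap.ker D) = 2 := by
    have h1 := LinearMap.finrank_range_add_finrank_ker D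
    rw [hD, finrank_top] at h1
    simp only [Module.finrank_fintype_fun_eq_card, Fintype.card_fin] at h1
    omega
  obtain ⟨Q, hQ⟩ := (LinearMap.ker D).exists_isCompl
  let P : Cm 4 →ₗ[ℂ] LinearMap.ker D := Submodule.projectionOnto (LinearMap.ker D) Q hQ
  have eqv : LinearMap.ker D ≃ₗ[ℂ] (Fin 2 → ℂ) := LinearEquiv.ofFinrankEq _ _ (by
    rw [hker]; simp)
  refine ⟨(LinearMap.proj 0) ∘ₗ (eqv : LinearMap.ker D →ₗ[ℂ] (Fin 2 → ℂ)) ∘ₗ P,
    (LinearMap.proj 1) ∘ₗ (eqv : LinearMap.ker D →ₗ[ℂ] (Fin 2 → ℂ)) ∘ₗ P, fun z h1 h2 h3 h4 => ?_⟩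
  have hz : z ∈ LinearMap.ker D := by
    rw [LinearMap.mem_ker]
    ext i
    fin_cases i
    · exact h1
    · exact h2
  have h5 : P z = ⟨z, hz⟩ := Submodule.projectionOnto_apply_left hQ ⟨z, hz⟩
  have h6 : eqv (P z) = 0 := by
    ext i
    fin_cases i
    · exact h3
    · exact h4
  rw [h5] at h6
  have h7 := (LinearEquiv.map_eq_zero_iff eqv).1 h6
  exact congrArg Subtype.val h7

/-- **Flattening charts.** -/
theorem exists_flat {M : Type} [TopologicalSpace M] [ChartedSpace (Cm 4) M]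
    [IsManifold 𝓘(ℂ, Cm 4) ω M] {S : Set M} {x : M} (hxS : x ∈ S) (h : IsSurfAt S x) {N : Set M}
    (hN : N ∈ 𝓝 x) :
    ∃ (φ : OpenPartialHomeomorph M (Cm 4)) (r : ℝ), 0 < r ∧
      φ ∈ IsManifold.maximalAtlas 𝓘(ℝ, Cm 4) ∞ M ∧ x ∈ φ.source ∧ φ.target = Box r ∧
      φ.source ⊆ N ∧ ∀ y ∈ φ.source, y ∈ S ↔ φ y 0 = 0 ∧ φ y 1 = 0 := by
  obtain ⟨e, he, f, g, hf, hg, hlin, hS⟩ := h
  obtain ⟨a, b, hab⟩ := exists_complete _ _ hlin
  let aL : Cm 4 →L[ℂ] ℂ := LinearMap.toContinuousLinearMap a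
  let bL : Cm 4 →L[ℂ] ℂ := LinearMap.toContinuousLinearMap b
  set p := e x with hp
  have hex : e.symm p = x := e.left_inv he.2
  have hpt : p ∈ e.target := e.map_source he.2
  let F : Cm 4 → Cm 4 := fun z => ![f z - f p, g z - g p, aL (z - p), bL (z - p)]
  have hFa : AnalyticAt ℂ F p := by
    rw [analyticAt_pi_iff]
    intro i
    have ha : AnalyticAt ℂ (fun z => aL (z - p)) p :=
      AnalyticAt.comp_of_eq (aL.analyticAt 0) (analyticAt_id.sub analyticAt_const) (sub_self p)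
    have hb : AnalyticAt ℂ (fun z => bL (z - p)) p :=
      AnalyticAt.comp_of_eq (bL.analyticAt 0) (analyticAt_id.sub analyticAt_const) (sub_self p)
    fin_cases i
    · exact hf.sub analyticAt_const
    · exact hg.sub analyticAt_const
    · exact ha
    · exact hb
  have hF' : ∀ v : Cm 4, fderiv ℂ F p v = ![fderiv ℂ f p v, fderiv ℂ g p v, a v, b v] := by
    intro v
    have e1 : ∀ i, HasFDerivAt (fun z => F z i) (ContinuousLinearMap.proj (R := ℂ)
        (φ := fun _ : Fin 4 => ℂ) i ∘L fderiv ℂ F p) p := fun i =>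
      (ContinuousLinearMap.proj (R := ℂ) (φ := fun _ : Fin 4 => ℂ) i).hasFDerivAt.comp p
        hFa.differentiableAt.hasFDerivAt
    have e2 : HasFDerivAt (fun z : Cm 4 => z - p) (ContinuousLinearMap.id ℂ (Cm 4)) p :=
      (hasFDerivAt_id p).sub_const p
    have k0 := (e1 0).unique (hf.differentiableAt.hasFDerivAt.sub_const (f p))
    have k1 := (e1 1).unique (hg.differentiableAt.hasFDerivAt.sub_const (g p))
    have k2 := (e1 2).unique (aL.hasFDerivAt.comp p e2)
    have k3 := (e1 3).unique (bL.hasFDerivAt.comp p e2)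
    ext i
    fin_cases i
    · exact congrArg (fun L => L v) k0
    · exact congrArg (fun L => L v) k1
    · exact congrArg (fun L => L v) k2
    · exact congrArg (fun L => L v) k3
  have hinj : Function.Injective (fderiv ℂ F p) := by
    rw [injective_iff_map_eq_zero]
    intro v hv
    rw [hF'] at hv
    exact hab v (congrFun hv 0) (congrFun hv 1) (congrFun hv 2) (congrFun hv 3)
  obtain ⟨G, hG, hpG, hG1, hG2⟩ := H73.exists_localInv hFa hinj
  have hfg := (hS.self_of_nhds).1 hxS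
  have hGp : G p = 0 := by
    rw [hG]
    ext i
    fin_cases i <;> simp [F]
  have hGs : G.symm 0 = p := by rw [← hGp, G.left_inv hpG]
  -- the big chart
  let φ₀ : OpenPartialHomeomorph M (Cm 4) := e.trans G
  have hφx : φ₀ x = 0 := hGp
  have hx₀ : x ∈ φ₀.source := by
    rw [OpenPartialHomeomorph.trans_source]
    exact ⟨he.2, hpG⟩
  have h0t : (0 : Cm 4) ∈ φ₀.target := by rw [← hφx]; exact φ₀.map_source hx₀
  have hsx : φ₀.symm 0 = x := by rw [← hφx, φ₀.left_inv hx₀]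
  have hN' : {y | y ∈ N ∧ (y ∈ S ↔ f (e y) = 0 ∧ g (e y) = 0)} ∈ 𝓝 x := inter_mem hN hS
  have h1 : φ₀.target ∩ φ₀.symm ⁻¹' {y | y ∈ N ∧ (y ∈ S ↔ f (e y) = 0 ∧ g (e y) = 0)} ∈
      𝓝 (0 : Cm 4) := by
    refine inter_mem (φ₀.open_target.mem_nhds h0t) ((φ₀.symm.continuousAt h0t) ?_)
    rw [hsx]; exact hN'
  obtain ⟨ρ, hρ, hρs⟩ := Metric.mem_nhds_iff.1 h1
  have hbox : Box (ρ / 2) ⊆ φ₀.target ∩ φ₀.symm ⁻¹' {y | y ∈ N ∧
      (y ∈ S ↔ f (e y) = 0 ∧ g (e y) = 0)} := by
    refine (box_subset_ball (by positivity)).trans ?_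
    rw [mul_div_cancel₀ _ (two_ne_zero)]
    exact hρs
  let φ : OpenPartialHomeomorph M (Cm 4) := (φ₀.symm.restrOpen (Box (ρ / 2)) (isOpen_box _)).symm
  have hφt : φ.target = Box (ρ / 2) := by
    show φ₀.symm.source ∩ Box (ρ / 2) = _
    exact inter_eq_right.2 fun z hz => (hbox hz).1
  have hφs : ∀ y ∈ φ.source, y ∈ φ₀.source ∧ φ₀ y ∈ Box (ρ / 2) := by
    intro y hy
    have h2 : φ y ∈ φ.target := φ.map_source hy
    rw [hφt] at h2
    have h3 : φ.symm (φ y) = y := φ.left_inv hy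
    have h4 : φ₀.symm (φ₀ y) = y := h3
    have h5 : φ₀ y ∈ Box (ρ / 2) := h2
    refine ⟨?_, h5⟩
    rw [← h4]
    exact φ₀.map_target (hbox h5).1
  have hreal : ∀ (H : Cm 4 → Cm 4) (z : Cm 4), AnalyticAt ℂ H z → ContDiffAt ℝ ∞ H z :=
    fun H z hH => (hH.contDiffAt (n := ∞)).restrict_scalars ℝ
  refine ⟨φ, ρ / 2, by positivity, mem_max ?_ ?_, ?_, hφt, ?_, ?_⟩
  · intro e' he' y hy hy'
    obtain ⟨hy1, hy2⟩ := hφs y hy
    rw [OpenPartialHomeomorph.trans_source] at hy1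
    have h2 : ContDiffAt ℝ ∞ (fun z => e' (e.symm z)) (e y) :=
      trR he.1 he' (e.map_source hy1.1) (by rw [e.left_inv hy1.1]; exact hy')
    have h3 : ContDiffAt ℝ ∞ G.symm (G (e y)) := hreal _ _ (hG2 _ (G.map_source hy1.2))
    have h4 : ContDiffAt ℝ ∞ ((fun z => e' (e.symm z)) ∘ G.symm) (G (e y)) :=
      ContDiffAt.comp _ (by rw [G.left_inv hy1.2]; exact h2) h3
    exact h4
  · intro e' he' y hy hy'
    obtain ⟨hy1, hy2⟩ := hφs y hy
    rw [OpenPartialHomeomorph.trans_source] at hy1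
    have h2 : ContDiffAt ℝ ∞ (fun z => e (e'.symm z)) (e' y) :=
      trR he' he.1 (e'.map_source hy') (by rw [e'.left_inv hy']; exact hy1.1)
    have h3 : ContDiffAt ℝ ∞ G (e y) := by rw [hG]; exact hreal _ _ (hG1 _ hy1.2)
    have h4 : ContDiffAt ℝ ∞ (G ∘ (fun z => e (e'.symm z))) (e' y) :=
      ContDiffAt.comp _ (by rw [e'.left_inv hy']; exact h3) h2
    exact h4
  · have h2 : φ.symm 0 = x := hsx
    rw [← h2]
    exact φ.map_target (by rw [hφt]; exact zero_mem_box (by positivity))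
  · intro y hy
    obtain ⟨hy1, hy2⟩ := hφs y hy
    have h2 := (hbox hy2).2.1
    rwa [φ₀.left_inv hy1] at h2
  · intro y hy
    obtain ⟨hy1, hy2⟩ := hφs y hy
    have h2 := (hbox hy2).2.2
    rw [φ₀.left_inv hy1] at h2
    rw [h2]
    have h3 : φ y = F (e y) := by
      show G (e y) = F (e y)
      rw [hG]
    rw [h3]
    show _ ↔ f (e y) - f p = 0 ∧ g (e y) - g p = 0
    rw [hfg.1, hfg.2, sub_zero, sub_zero]

end Vale.Agent.P277.H29
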