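import Vale.Agent.P277.H29.M2e

/-!
# P277, M2: the local statement
-/

set_option linter.unusedSectionVars false

open scoped Manifold ContDiff Topology
open Set Filter
open Vale.Agent.P267 Vale.Agent.P267.H175 Vale.Agent.P272.K

noncomputable section

namespace Vale.Agent.P277.H29

/-- the real coordinates along the surface -/
def lS : Fin 4 → (Cm 4 →L[ℝ] ℝ) :=
  ![Complex.reCLM ∘L ContinuousLinearMap.proj (R := ℝ) (φ := fun _ : Fin 4 => ℂ) 2,
    Complex.imCLM ∘L ContinuousLinearMap.proj (R := ℝ) (φ := fun _ : Fin 4 => ℂ) 2,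
    Complex.reCLM ∘L ContinuousLinearMap.proj (R := ℝ) (φ := fun _ : Fin 4 => ℂ) 3,
    Complex.imCLM ∘L ContinuousLinearMap.proj (R := ℝ) (φ := fun _ : Fin 4 => ℂ) 3]

/-- the dual vectors -/
def vS : Fin 4 → Cm 4 :=
  ![Pi.single 2 1, Pi.single 2 Complex.I, Pi.single 3 1, Pi.single 3 Complex.I]

theorem lS0 (z : Cm 4) : lS 0 z = (z 2).re := rfl
theorem lS1 (z : Cm 4) : lS 1 z = (z 2).im := rfl
theorem lS2 (z : Cm 4) : lS 2 z = (z 3).re := rfl
theorem lS3 (z : Cm 4) : lS 3 z = (z 3).im := rfl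

theorem lS_vS (i i' : Fin 4) : lS i (vS i') = if i = i' then 1 else 0 := by
  fin_cases i <;> fin_cases i' <;> simp [lS, vS]

theorem vS_zero (i : Fin 4) : vS i 0 = 0 ∧ vS i 1 = 0 := by
  fin_cases i <;> simp [vS]

theorem vS_norm (i : Fin 4) : ‖vS i‖ ≤ 1 := by
  rw [pi_norm_le_iff_of_nonneg zero_le_one]
  intro j
  fin_cases i <;> fin_cases j <;> simp [vS]

theorem lS_lt {r : ℝ} {z : Cm 4} (hz : z ∈ Box r) (i : Fin 4) : |lS i z| < r := by
  fin_cases i
  · exact (hz 2).1
  · exact (hz 2).2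
  · exact (hz 3).1
  · exact (hz 3).2

theorem exists_chi2 {ρ : ℝ} (hρ : 0 < ρ) : ∃ χ : Cm 4 → ℝ, ContDiff ℝ ∞ χ ∧
    (∀ z : Cm 4, z 0 = 0 → z 1 = 0 → ∀ᶠ w in 𝓝 z, χ w = 1) ∧
    ∀ z : Cm 4, (ρ < ‖z 0‖ ∨ ρ < ‖z 1‖) → χ z = 0 := by
  let b : ContDiffBump (0 : ℂ) := ⟨ρ / 2, ρ, by positivity, by linarith⟩
  have hc : ∀ i : Fin 4, ContDiff ℝ ∞ fun z : Cm 4 => b (z i) := fun i =>
    b.contDiff.comp (ContinuousLinearMap.proj (R := ℝ) (φ := fun _ : Fin 4 => ℂ) i).contDiff
  refine ⟨fun z => b (z 0) * b (z 1), (hc 0).mul (hc 1), fun z h0 h1 => ?_, fun z hz => ?_⟩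
  · have k : ∀ i : Fin 4, z i = 0 → ∀ᶠ w : Cm 4 in 𝓝 z, b (w i) = 1 := by
      intro i hi
      have : ContinuousAt (fun w : Cm 4 => w i) z := (continuous_apply i).continuousAt
      have h2 : ∀ᶠ u : ℂ in 𝓝 (z i), b u = 1 := by
        rw [hi]
        filter_upwards [Metric.closedBall_mem_nhds (0 : ℂ) (half_pos hρ)] with u hu
        exact b.one_of_mem_closedBall hu
      exact this.eventually h2
    filter_upwards [k 0 h0, k 1 h1] with w hw0 hw1
    rw [hw0, hw1, one_mul]
  · rcases hz with h | h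
    · have : b (z 0) = 0 := b.zero_of_le_dist (by rw [dist_zero_right]; exact h.le)
      show b (z 0) * b (z 1) = 0
      rw [this, zero_mul]
    · have : b (z 1) = 0 := b.zero_of_le_dist (by rw [dist_zero_right]; exact h.le)
      show b (z 0) * b (z 1) = 0
      rw [this, mul_zero]

/-- a step function -/
theorem exists_step (a : ℝ) {δ : ℝ} (hδ : 0 < δ) : ∃ ψ : ℝ → ℝ, ContDiff ℝ ∞ ψ ∧
    (∀ t ≤ a - δ / 2, ψ t = 0) ∧ ∀ t, a + δ / 2 ≤ t → ψ t = 1 := by
  refine ⟨fun t => Real.smoothTransition ((t - (a - δ / 2)) / δ), ?_, fun t ht => ?_, fun t ht => ?_⟩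
  · exact Real.smoothTransition.contDiff.comp ((contDiff_id.sub contDiff_const).div_const δ)
  · exact Real.smoothTransition.zero_of_nonpos (div_nonpos_of_nonpos_of_nonneg (by linarith) hδ.le)
  · refine Real.smoothTransition.one_of_one_le ?_
    rw [le_div_iff₀ hδ]
    linarith

section

variable {M : Type} [TopologicalSpace M] [ChartedSpace (Cm 4) M]

/-- the form is exact near `S` (with compact support) -/
def Mv (S : Set M) (a : Fm 4 M) : Prop :=
  ∃ γ : Fm 3 M, (∀ y, SmAt γ y) ∧ (∃ C, IsCompact C ∧ ∀ y ∉ C, γ y = 0) ∧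
    ∀ᶠ y in 𝓝ˢ S, a y = dF γ y

/-- smooth forms, closed near `S`, with compact support in `N` -/
structure NC (S N : Set M) (a : Fm 4 M) : Prop where
  sm : ∀ y, SmAt a y
  cl : ∀ᶠ y in 𝓝ˢ S, dF a y = 0
  cs : ∃ C ⊆ N, IsCompact C ∧ ∀ y ∉ C, a y = 0

/-- `φ` flattens `S` -/
structure IsFlat (S : Set M) (φ : OpenPartialHomeomorph M (Cm 4)) (r : ℝ) : Prop where
  mem : φ ∈ IsManifold.maximalAtlas 𝓘(ℝ, Cm 4) ∞ M
  target : φ.target = Box r
  iff : ∀ y ∈ φ.source, y ∈ S ↔ φ y 0 = 0 ∧ φ y 1 = 0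

variable [T2Space M] [IsManifold 𝓘(ℂ, Cm 4) ω M]

theorem local_line {S : Set M} {φ : OpenPartialHomeomorph M (Cm 4)} {r : ℝ}
    (hφ : IsFlat S φ r) {N : Set M} (hN : IsOpen N) (hNφ : N ⊆ φ.source) {y₀ : M} (hy₀ : y₀ ∈ N)
    (hy₀S : y₀ ∈ S) :
    ∃ κ : Fm 4 M, NC S N κ ∧ ∀ a, NC S φ.source a → ∃ c : ℝ, Mv S (a + (-c) • κ) := by
  have hφm := hφ.mem
  set z₀ := φ y₀ with hz₀
  have hz₀' : z₀ 0 = 0 ∧ z₀ 1 = 0 := (hφ.iff y₀ (hNφ hy₀)).1 hy₀S
  have hNo : IsOpen (φ '' N) := φ.isOpen_image_of_subset_source hN hNφ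
  obtain ⟨δ, hδ, hδN⟩ := Metric.nhds_basis_closedBall.mem_iff.1 (hNo.mem_nhds ⟨y₀, hy₀, rfl⟩)
  have hNt : φ '' N ⊆ φ.target := by
    rintro _ ⟨y, hy, rfl⟩
    exact φ.map_source (hNφ hy)
  have hδr : ∀ i, |lS i z₀| + δ < r := by
    intro i
    have k : ∀ t : ℝ, |t| ≤ δ → |lS i z₀ + t| < r := by
      intro t ht
      have h1 : z₀ + t • vS i ∈ Metric.closedBall z₀ δ := by
        rw [Metric.mem_closedBall, dist_self_add_left, norm_smul, Real.norm_eq_abs]
        calc |t| * ‖vS i‖ ≤ |t| * 1 := by gcongr; exact vS_norm i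
          _ ≤ δ := by rw [mul_one]; exact ht
      have h2 : z₀ + t • vS i ∈ Box r := by
        rw [← hφ.target]; exact hNt (hδN h1)
      have h3 := lS_lt h2 i
      rw [map_add, map_smul, lS_vS, if_pos rfl, smul_eq_mul, mul_one] at h3
      exact h3
    rcases abs_cases (lS i z₀) with h | h
    · have := k δ (by rw [abs_of_pos hδ])
      rw [h.1]
      exact (le_abs_self _).trans_lt this
    · have := k (-δ) (by rw [abs_neg, abs_of_pos hδ])
      rw [h.1]
      have h4 := neg_abs_le (lS i z₀ + -δ)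
      linarith
  -- the step functions
  choose ψ hψ1 hψ2 hψ3 using fun i => exists_step (lS i z₀) hδ
  obtain ⟨χ, hχ1, hχ2, hχ3⟩ := exists_chi2 (half_pos hδ)
  have hκsm : ContDiff ℝ ∞ (kap 4 ψ lS) := kap_smooth 4 ψ lS hψ1
  set κz : Cm 4 → Cm 4 [⋀^Fin 4]→L[ℝ] ℝ := fun z => χ z • kap 4 ψ lS z with hκz
  have hκz1 : ContDiff ℝ ∞ κz := hχ1.smul hκsm
  have hloc : ∀ (i : Fin 4) (z : Cm 4), δ / 2 < |lS i z - lS i z₀| → kap 4 ψ lS z = 0 := by
    intro i z hz
    rw [lt_abs] at hz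
    rcases hz with h | h
    · refine kap_zero 4 ψ lS hψ1 z i 1 ?_
      filter_upwards [lt_mem_nhds (show lS i z₀ + δ / 2 < lS i z by linarith)] with t ht
      exact hψ3 i t ht.le
    · refine kap_zero 4 ψ lS hψ1 z i 0 ?_
      filter_upwards [gt_mem_nhds (show lS i z < lS i z₀ - δ / 2 by linarith)] with t ht
      exact hψ2 i t ht.le
  have hκz0 : ∀ z ∉ Metric.closedBall z₀ δ, κz z = 0 := by
    intro z hz
    rw [Metric.mem_closedBall, dist_pi_le_iff hδ.le] at hz
    push Not at hz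
    obtain ⟨i, hi⟩ := hz
    have key : ∀ w : ℂ, δ < ‖w‖ → δ / 2 < |w.re| ∨ δ / 2 < |w.im| := by
      intro w hw
      by_contra hcon
      push Not at hcon
      have := Complex.norm_le_abs_re_add_abs_im w
      linarith [hcon.1, hcon.2]
    rw [dist_eq_norm] at hi
    show χ z • kap 4 ψ lS z = 0
    fin_cases i
    · have h1 : δ / 2 < ‖z 0‖ := by
        have h2 : ‖z 0 - z₀ 0‖ = ‖z 0‖ := by rw [hz₀'.1, sub_zero]
        have h3 : δ < ‖z 0 - z₀ 0‖ := hi
        rw [h2] at h3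
        linarith
      rw [hχ3 z (Or.inl h1), zero_smul]
    · have h1 : δ / 2 < ‖z 1‖ := by
        have h2 : ‖z 1 - z₀ 1‖ = ‖z 1‖ := by rw [hz₀'.2, sub_zero]
        have h3 : δ < ‖z 1 - z₀ 1‖ := hi
        rw [h2] at h3
        linarith
      rw [hχ3 z (Or.inr h1), zero_smul]
    · rcases key _ hi with h | h
      · rw [hloc 0 z (by simpa [lS0] using h), smul_zero]
      · rw [hloc 1 z (by simpa [lS1] using h), smul_zero]
    · rcases key _ hi with h | h
      · rw [hloc 2 z (by simpa [lS2] using h), smul_zero]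
      · rw [hloc 3 z (by simpa [lS3] using h), smul_zero]
  have hC : IsCompact (Metric.closedBall z₀ δ) := isCompact_closedBall z₀ δ
  have hCt : Metric.closedBall z₀ δ ⊆ φ.target := hδN.trans hNt
  have hSz : ∀ {y : M}, y ∈ φ.source → y ∈ S → φ y 0 = 0 ∧ φ y 1 = 0 := fun hy hyS =>
    (hφ.iff _ hy).1 hyS
  have hκev : ∀ z : Cm 4, z 0 = 0 → z 1 = 0 → κz =ᶠ[𝓝 z] kap 4 ψ lS := by
    intro z h0 h1
    filter_upwards [hχ2 z h0 h1] with w hw
    show χ w • kap 4 ψ lS w = kap 4 ψ lS w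
    rw [hw, one_smul]
  -- transport of eventual statements
  have htr : ∀ {y : M}, y ∈ φ.source → ∀ {P : Cm 4 → Prop}, (∀ᶠ z in 𝓝 (φ y), P z) →
      ∀ᶠ y' in 𝓝 y, y' ∈ φ.source ∧ P (φ y') := by
    intro y hy P hP
    exact (φ.open_source.eventually_mem hy).and ((φ.continuousAt hy).eventually hP)
  refine ⟨toM φ κz, ⟨toM_smAt hφm hκz1 hC hCt hκz0, ?_, ?_⟩, ?_⟩
  · -- closed near `S`
    rw [eventually_nhdsSet_iff_forall]
    intro y hyS
    by_cases hy : y ∈ φ.source
    · obtain ⟨h0, h1⟩ := hSz hy hyS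
      have h2 : ∀ᶠ z in 𝓝 (φ y), extDeriv κz z = 0 := by
        filter_upwards [(hκev (φ y) h0 h1).eventually_nhds] with z hz
        have hz' : κz =ᶠ[𝓝 z] kap 4 ψ lS := hz
        rw [ed_congr hz', kap_closed 4 ψ lS hψ1]
      filter_upwards [htr hy h2] with y' hy'
      rw [← loc_zero_iff hφm hy'.1, loc_dF_toM hφm hκz1 (φ.map_source hy'.1), hy'.2]
    · have h1 : IsClosed (φ.symm '' Metric.closedBall z₀ δ) := (compact_image hC hCt).isClosed
      have h2 : y ∉ φ.symm '' Metric.closedBall z₀ δ := by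
        rintro ⟨z, hz, rfl⟩
        exact hy (φ.map_target (hCt hz))
      filter_upwards [(h1.isOpen_compl.eventually_mem h2)] with y' hy'
      apply dF_ev_zero
      filter_upwards [h1.isOpen_compl.mem_nhds hy'] with y'' hy''
      exact toM_zero hφm hκz0 fun h => hy'' (image_mono inter_subset_left h)
  · refine ⟨φ.symm '' Metric.closedBall z₀ δ, ?_, compact_image hC hCt, fun y hy =>
      toM_zero hφm hκz0 fun h => hy (image_mono inter_subset_left h)⟩
    rintro _ ⟨z, hz, rfl⟩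
    obtain ⟨y, hy, rfl⟩ := hδN hz
    rwa [φ.left_inv (hNφ hy)]
  · -- the dimension is at most one
    intro a ha
    obtain ⟨K, hKs, hK, ha0⟩ := ha.cs
    set β := toE φ a with hβdef
    have hβ : ContDiff ℝ ∞ β := toE_smooth hφm ha.sm hK hKs ha0
    have hCβ : IsCompact (φ '' K) := compact_image' hK hKs
    have hβ0 : ∀ z ∉ φ '' K, β z = 0 := fun z hz =>
      toE_zero ha0 fun h => hz (image_mono inter_subset_left h)
    have hCβt : φ '' K ⊆ Box r := by
      rw [← hφ.target]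
      rintro _ ⟨y, hy, rfl⟩
      exact φ.map_source (hKs hy)
    -- a smaller box
    obtain ⟨R₁, hR₁r, hR₁⟩ : ∃ R₁ < r, φ '' K ⊆ Box R₁ := by
      have hcov : φ '' K ⊆ ⋃ n : ℕ, Box (r - 1 / ((n : ℝ) + 1)) := by
        intro z hz
        have hz' := hCβt hz
        have h1 : Tendsto (fun n : ℕ => r - 1 / ((n : ℝ) + 1)) atTop (𝓝 r) := by
          have := (tendsto_one_div_add_atTop_nhds_zero_nat (𝕜 := ℝ)).const_sub r
          rwa [sub_zero] at this
        have h2 : ∀ᶠ n : ℕ in atTop, ∀ i, |(z i).re| < r - 1 / ((n : ℝ) + 1) ∧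
            |(z i).im| < r - 1 / ((n : ℝ) + 1) := by
          rw [eventually_all]
          intro i
          exact (h1.eventually_const_lt (hz' i).1).and (h1.eventually_const_lt (hz' i).2)
        obtain ⟨n, hn⟩ := h2.exists
        exact mem_iUnion.2 ⟨n, hn⟩
      obtain ⟨n, hn⟩ := hCβ.elim_directed_cover _ (fun n : ℕ => isOpen_box _) hcov (by
        refine Monotone.directed_le ?_
        intro m n hmn z hz i
        have h1 : 1 / ((n : ℝ) + 1) ≤ 1 / ((m : ℝ) + 1) := by
          apply one_div_le_one_div_of_le (by positivity)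
          have : (m : ℝ) ≤ n := by exact_mod_cast hmn
          linarith
        exact ⟨(hz i).1.trans_le (by linarith), (hz i).2.trans_le (by linarith)⟩)
      exact ⟨_, by have : 0 < 1 / ((n : ℝ) + 1) := by positivity
                   linarith, hn⟩
    set R := max R₁ (r - δ / 2) with hRdef
    have hRr : R < r := max_lt hR₁r (by linarith)
    have hR0 : 0 < R := by
      have h1 := hδr 0
      have h2 := abs_nonneg (lS 0 z₀)
      exact lt_of_lt_of_le (by linarith) (le_max_right _ _)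
    have hstep : ∀ i, IsStep R (ψ i) := by
      intro i
      have h1 := hδr i
      have h2 := abs_le.1 (le_refl |lS i z₀|)
      have h3 : r - δ / 2 ≤ R := le_max_right _ _
      exact ⟨hψ1 i, fun t ht => hψ2 i t (by linarith [h2.1]), fun t ht => hψ3 i t (by linarith [h2.2])⟩
    have hβs : ∀ i z, R < |lS i z| → β z = 0 := by
      intro i z hz
      apply hβ0
      intro h
      have h1 := lS_lt (hR₁ h) i
      have h2 : R₁ ≤ R := le_max_left _ _
      linarith
    -- the region where `β` is closed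
    set Z : Set (Cm 4) := {z | ∀ᶠ w in 𝓝 z, extDeriv β w = 0} with hZ
    have hZo : IsOpen Z := by
      rw [isOpen_iff_mem_nhds]
      intro z hz
      have hz' : ∀ᶠ w in 𝓝 z, extDeriv β w = 0 := hz
      exact hz'.eventually_nhds
    have hout : ∀ z ∉ φ '' K, z ∈ Z := by
      intro z hz
      show ∀ᶠ w in 𝓝 z, extDeriv β w = 0
      filter_upwards [hCβ.isClosed.isOpen_compl.mem_nhds hz] with w hw
      apply ed_zero
      filter_upwards [hCβ.isClosed.isOpen_compl.mem_nhds hw] with w' hw' using hβ0 w' hw'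
    have hin : ∀ z : Cm 4, z 0 = 0 → z 1 = 0 → z ∈ Z := by
      intro z h0 h1
      by_cases hz : z ∈ φ.target
      · have hy : φ.symm z ∈ φ.source := φ.map_target hz
        have hyS : φ.symm z ∈ S := by
          rw [hφ.iff _ hy, φ.right_inv hz]
          exact ⟨h0, h1⟩
        have h2 := toE_closed hφm ha.sm hy ((eventually_nhdsSet_iff_forall.1 ha.cl) _ hyS)
        rw [φ.right_inv hz] at h2
        exact h2
      · apply hout
        intro h
        rw [hφ.target] at hz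
        exact hz (hCβt h)
    have hZc : IsCompact Zᶜ := hCβ.of_isClosed_subset hZo.isClosed_compl fun z hz => by
      by_contra h
      exact hz (hout z h)
    obtain ⟨ε, hε, hεZ⟩ := hZc.exists_forall_le' (f := fun z : Cm 4 => max ‖z 0‖ ‖z 1‖) (a := 0)
      (by fun_prop) (by
        intro z hz
        by_contra hcon
        push Not at hcon
        have h0 : ‖z 0‖ ≤ 0 := (le_max_left _ _).trans hcon
        have h1 : ‖z 1‖ ≤ 0 := (le_max_right _ _).trans hcon
        exact hz (hin z (norm_le_zero_iff.1 h0) (norm_le_zero_iff.1 h1)))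
    set Ω : Set (Cm 4) := {z | ‖z 0‖ < ε ∧ ‖z 1‖ < ε} with hΩdef
    have hΩo : IsOpen Ω := (isOpen_lt (continuous_apply (0 : Fin 4)).norm continuous_const).inter
      (isOpen_lt (continuous_apply (1 : Fin 4)).norm continuous_const)
    have hΩc : Convex ℝ Ω := by
      have e0 : Convex ℝ {z : Cm 4 | ‖z 0‖ < ε} := by
        have := (convex_ball (0 : ℂ) ε).linear_preimage
          (LinearMap.proj (R := ℝ) (φ := fun _ : Fin 4 => ℂ) 0)
        have h2 : {z : Cm 4 | ‖z 0‖ < ε} = (LinearMap.proj (R := ℝ) (φ := fun _ : Fin 4 => ℂ) 0) ⁻¹'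
            Metric.ball (0 : ℂ) ε := by ext z; simp
        rw [h2]; exact this
      have e1 : Convex ℝ {z : Cm 4 | ‖z 1‖ < ε} := by
        have := (convex_ball (0 : ℂ) ε).linear_preimage
          (LinearMap.proj (R := ℝ) (φ := fun _ : Fin 4 => ℂ) 1)
        have h2 : {z : Cm 4 | ‖z 1‖ < ε} = (LinearMap.proj (R := ℝ) (φ := fun _ : Fin 4 => ℂ) 1) ⁻¹'
            Metric.ball (0 : ℂ) ε := by ext z; simp
        rw [h2]; exact this
      exact e0.inter e1
    have hΩn : Ω.Nonempty := ⟨0, by simp [hΩdef, hε]⟩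
    have hΩi : ∀ i, ∀ z ∈ Ω, ∀ s : ℝ, z + s • vS i ∈ Ω := by
      intro i z hz s
      have h1 := vS_zero i
      constructor
      · show ‖z 0 + s • vS i 0‖ < ε
        rw [h1.1, smul_zero, add_zero]; exact hz.1
      · show ‖z 1 + s • vS i 1‖ < ε
        rw [h1.2, smul_zero, add_zero]; exact hz.2
    have hΩcl : ∀ z ∈ Ω, extDeriv β z = 0 := by
      intro z hz
      have h1 : z ∈ Z := by
        by_contra hcon
        have h2 := hεZ z hcon
        have h3 : max ‖z 0‖ ‖z 1‖ < ε := max_lt hz.1 hz.2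
        linarith
      have h4 : ∀ᶠ w in 𝓝 z, extDeriv β w = 0 := h1
      have h5 := h4.self_of_nhds
      exact h5
    obtain ⟨c, γ, hγ, hγe, hγs⟩ := multi_dir hΩo hΩc.isPreconnected hΩn 3 vS lS lS_vS hΩi ψ hstep β
      hβ hβs hΩcl
    obtain ⟨χ', hχ1', hχ2', hχ3'⟩ := exists_chi2 hR0
    set γz : Cm 4 → Cm 4 [⋀^Fin 3]→L[ℝ] ℝ := fun z => χ' z • γ z with hγz
    have hγz1 : ContDiff ℝ ∞ γz := hχ1'.smul hγ
    set C' : Set (Cm 4) := {z | ‖z 0‖ ≤ R ∧ ‖z 1‖ ≤ R ∧ ∀ i, |lS i z| ≤ R} with hC'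
    have hC'c : IsCompact C' := by
      have hcl : IsClosed C' := by
        have h1 : C' = {z : Cm 4 | ‖z 0‖ ≤ R} ∩ ({z : Cm 4 | ‖z 1‖ ≤ R} ∩ ⋂ i, {z | |lS i z| ≤ R}) := by
          ext z; simp [hC']
        rw [h1]
        refine (isClosed_le (by fun_prop) continuous_const).inter
          ((isClosed_le (by fun_prop) continuous_const).inter (isClosed_iInter fun i =>
            isClosed_le (lS i).continuous.abs continuous_const))
      refine (isCompact_closedBall (0 : Cm 4) (2 * R)).of_isClosed_subset hcl ?_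
      rintro z ⟨h0, h1, h2⟩
      rw [mem_closedBall_zero_iff, pi_norm_le_iff_of_nonneg (by positivity)]
      intro i
      fin_cases i
      · show ‖z 0‖ ≤ 2 * R; linarith
      · show ‖z 1‖ ≤ 2 * R; linarith
      · have h3 := h2 0
        have h4 := h2 1
        rw [lS0] at h3
        rw [lS1] at h4
        have h5 := Complex.norm_le_abs_re_add_abs_im (z 2)
        show ‖z 2‖ ≤ 2 * R; linarith
      · have h3 := h2 2
        have h4 := h2 3
        rw [lS2] at h3
        rw [lS3] at h4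
        have h5 := Complex.norm_le_abs_re_add_abs_im (z 3)
        show ‖z 3‖ ≤ 2 * R; linarith
    have hC't : C' ⊆ φ.target := by
      rw [hφ.target]
      rintro z ⟨h0, h1, h2⟩ i
      fin_cases i
      · exact ⟨((Complex.abs_re_le_norm _).trans h0).trans_lt hRr,
          ((Complex.abs_im_le_norm _).trans h0).trans_lt hRr⟩
      · exact ⟨((Complex.abs_re_le_norm _).trans h1).trans_lt hRr,
          ((Complex.abs_im_le_norm _).trans h1).trans_lt hRr⟩
      · exact ⟨(h2 0).trans_lt hRr, (h2 1).trans_lt hRr⟩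
      · exact ⟨(h2 2).trans_lt hRr, (h2 3).trans_lt hRr⟩
    have hγz0 : ∀ z ∉ C', γz z = 0 := by
      intro z hz
      show χ' z • γ z = 0
      by_cases h0 : R < ‖z 0‖ ∨ R < ‖z 1‖
      · rw [hχ3' z h0, zero_smul]
      · push Not at h0
        have h1 : ∃ i, R < |lS i z| := by
          by_contra hcon
          push Not at hcon
          exact hz ⟨h0.1, h0.2, hcon⟩
        obtain ⟨i, hi⟩ := h1
        rw [hγs i z hi, smul_zero]
    refine ⟨c, toM φ γz, toM_smAt hφm hγz1 hC'c hC't hγz0, ⟨φ.symm '' C', compact_image hC'c hC't,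
      fun y hy => toM_zero hφm hγz0 fun h => hy (image_mono inter_subset_left h)⟩, ?_⟩
    rw [eventually_nhdsSet_iff_forall]
    intro y hyS
    by_cases hy : y ∈ φ.source
    · obtain ⟨h0, h1⟩ := hSz hy hyS
      have h2 : ∀ᶠ z in 𝓝 (φ y), z ∈ Ω ∧ κz z = kap 4 ψ lS z ∧ γz =ᶠ[𝓝 z] γ := by
        have e1 : ∀ᶠ z in 𝓝 (φ y), z ∈ Ω := hΩo.mem_nhds (by
          show ‖φ y 0‖ < ε ∧ ‖φ y 1‖ < ε
          rw [h0, h1, norm_zero]
          exact ⟨hε, hε⟩)
        have e2 : ∀ᶠ z in 𝓝 (φ y), γz z = γ z := by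
          filter_upwards [hχ2' (φ y) h0 h1] with w hw
          show χ' w • γ w = γ w
          rw [hw, one_smul]
        filter_upwards [e1, hκev (φ y) h0 h1, e2.eventually_nhds] with z w1 w2 w3
          using ⟨w1, w2, w3⟩
      filter_upwards [htr hy h2] with y' hy'
      obtain ⟨hy's, k1, k2, k3⟩ := hy'
      have hy't := φ.map_source hy's
      refine ML.loc_inj hφm hy's ?_
      rw [loc_dF_toM hφm hγz1 hy't, ed_congr k3]
      have e3 : loc φ (a + (-c) • toM φ κz) (φ y') = loc φ a (φ y') + (-c) • loc φ (toM φ κz) (φ y') :=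
        rfl
      have e4 : loc φ a (φ y') = β (φ y') := (if_pos hy't).symm
      rw [e3, loc_toM hφm κz hy't, e4, hγe _ k1, k2]
      ext v
      simp only [ContinuousAlternatingMap.add_apply, ContinuousAlternatingMap.smul_apply,
        smul_eq_mul]
      show c * kap 4 ψ lS (φ y') v + extDeriv γ (φ y') v + -c * kap 4 ψ lS (φ y') v =
        extDeriv γ (φ y') v
      ring
    · have h1 : ∀ {C : Set (Cm 4)}, IsCompact C → C ⊆ φ.target → ∀ᶠ y' in 𝓝 y, y' ∉ φ.symm '' C := by
        intro C hC hCt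
        have h1 : IsClosed (φ.symm '' C) := (compact_image hC hCt).isClosed
        have h2 : y ∉ φ.symm '' C := by
          rintro ⟨z, hz, rfl⟩
          exact hy (φ.map_target (hCt hz))
        exact h1.isOpen_compl.mem_nhds h2
      have h2 : ∀ᶠ y' in 𝓝 y, y' ∉ K := hK.isClosed.isOpen_compl.mem_nhds fun h => hy (hKs h)
      filter_upwards [(h1 hC'c hC't).eventually_nhds, h1 hC hCt, h2] with y' w1 w2 w3
      have e1 : dF (toM φ γz) y' = 0 := by
        apply dF_ev_zero
        filter_upwards [w1] with y'' hy''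
        exact toM_zero hφm hγz0 fun h => hy'' (image_mono inter_subset_left h)
      rw [e1]
      show a y' + (-c) • toM φ κz y' = 0
      rw [ha0 y' w3, toM_zero hφm hκz0 fun h => w2 (image_mono inter_subset_left h), smul_zero,
        add_zero]

end

end Vale.Agent.P277.H29
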