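import Vale.Agent.P277.H29.M2f

/-!
# P277, M2: localisation and proof of `StMove`
-/

set_option linter.unusedSectionVars false

open scoped Manifold ContDiff Topology
open Set Filter
open Vale.Agent.P267 Vale.Agent.P267.H175 Vale.Agent.P272.K

noncomputable section

namespace Vale.Agent.P277.H29

section gen

variable {E : Type*} [NormedAddCommGroup E] [NormedSpace ℝ E] [FiniteDimensional ℝ E]
variable {X : Type*} [TopologicalSpace X] [ChartedSpace E X] [IsManifold 𝓘(ℝ, E) ∞ X]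
variable [T2Space X] [LocallyCompactSpace X] [SigmaCompactSpace X]

/-- thin lemma with compact supports -/
theorem thin_cpt {s : ℕ} {F L : Set X} (hF : IsClosed F) (hI : Ind s F) (hL : IsClosed L) {k : ℕ}
    (hs : s ≤ k + 1) {a : X → E [⋀^Fin (k + 1)]→L[ℝ] ℝ} (ha : ∀ y, SmAt a y)
    (hcl : ∀ᶠ y in 𝓝ˢ F, dF a y = 0) {C : Set X} (hC : IsCompact C) (ha0 : ∀ y ∉ C, a y = 0)
    (haL : ∀ᶠ y in 𝓝ˢ (F ∩ L), a y = 0) :
    ∃ γ : X → E [⋀^Fin k]→L[ℝ] ℝ, (∀ y, SmAt γ y) ∧ (∀ᶠ y in 𝓝ˢ F, dF γ y = a y) ∧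
      (∀ᶠ y in 𝓝ˢ L, γ y = 0) ∧ ∃ C, IsCompact C ∧ ∀ y ∉ C, γ y = 0 := by
  obtain ⟨C', hC', hCC'⟩ := exists_compact_superset hC
  have hL' : IsClosed (L ∪ (interior C')ᶜ) := hL.union isOpen_interior.isClosed_compl
  obtain ⟨γ, h1, h2, h3, h4⟩ := thin_aux s (K := F ∩ C') (L := L ∪ (interior C')ᶜ)
    (hC'.inter_left hF) (hI.mono inter_subset_left) hL' hs (a := a)
    ((hcl.filter_mono (nhdsSet_mono inter_subset_left)).mono fun y hy => ⟨ha y, hy⟩) (by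
      have e1 : ∀ᶠ y in 𝓝ˢ ((interior C')ᶜ), a y = 0 :=
        ev_of_open hC.isClosed.isOpen_compl (compl_subset_compl.2 hCC') ha0
      have e2 : ∀ᶠ y in 𝓝ˢ ((F ∩ L) ∪ (interior C')ᶜ), a y = 0 := by
        rw [nhdsSet_union, eventually_sup]; exact ⟨haL, e1⟩
      refine e2.filter_mono (nhdsSet_mono ?_)
      rintro y ⟨hy, hy' | hy'⟩
      · exact Or.inl ⟨hy.1, hy'⟩
      · exact Or.inr hy')
  refine ⟨γ, h1, ?_, h3.filter_mono (nhdsSet_mono subset_union_left), h4⟩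
  have e3 : ∀ᶠ y in 𝓝ˢ ((interior C')ᶜ), dF γ y = a y := by
    have e4 : ∀ᶠ y in 𝓝ˢ ((interior C')ᶜ), γ y = 0 :=
      h3.filter_mono (nhdsSet_mono subset_union_right)
    obtain ⟨N, hN, hNs, hN0⟩ := ev_open e4
    refine ev_of_open (hN.inter hC.isClosed.isOpen_compl)
      (subset_inter hNs (compl_subset_compl.2 hCC')) fun y hy => ?_
    rw [ha0 y hy.2]
    apply dF_ev_zero
    filter_upwards [hN.mem_nhds hy.1] with w hw using hN0 w hw
  have e5 : ∀ᶠ y in 𝓝ˢ ((F ∩ C') ∪ (interior C')ᶜ), dF γ y = a y := by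
    rw [nhdsSet_union, eventually_sup]; exact ⟨h2, e3⟩
  refine e5.filter_mono (nhdsSet_mono fun y hy => ?_)
  by_cases hy' : y ∈ interior C'
  · exact Or.inl ⟨hy, interior_subset hy'⟩
  · exact Or.inr hy'

theorem ev_ev {K : Set X} {k : ℕ} {a : X → E [⋀^Fin k]→L[ℝ] ℝ} (h : ∀ᶠ y in 𝓝ˢ K, a y = 0) :
    ∀ᶠ y in 𝓝ˢ K, dF a y = 0 := by
  obtain ⟨N, hN, hNs, hN0⟩ := ev_open h
  refine ev_of_open hN hNs fun y hy => dF_ev_zero ?_
  filter_upwards [hN.mem_nhds hy] with w hw using hN0 w hw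

theorem ev_ev' {K : Set X} {k : ℕ} {a b : X → E [⋀^Fin k]→L[ℝ] ℝ}
    (h : ∀ᶠ y in 𝓝ˢ K, a y = b y) : ∀ᶠ y in 𝓝ˢ K, dF a y = dF b y := by
  obtain ⟨N, hN, hNs, hN0⟩ := ev_open h
  refine ev_of_open hN hNs fun y hy => ?_
  have h1 : a =ᶠ[𝓝 y] b := by
    filter_upwards [hN.mem_nhds hy] with w hw using hN0 w hw
  exact dF_congr h1

theorem dF_sub' {k : ℕ} {a b : X → E [⋀^Fin k]→L[ℝ] ℝ} {y : X} (ha : SmAt a y) (hb : SmAt b y) :
    dF (a + (-1 : ℝ) • b) y = dF a y + (-1 : ℝ) • dF b y := by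
  rw [dF_add ha (hb.smul _), dF_smul]

end gen

variable {M : Type} [TopologicalSpace M] [T2Space M] [SecondCountableTopology M]
  [ChartedSpace (Cm 4) M] [IsManifold 𝓘(ℂ, Cm 4) ω M]

/-- **Peeling.** -/
theorem peel {S : Set M} (hS : IsClosed S) (hI : Ind 5 S) {a : Fm 4 M} (ha : NC S univ a)
    {K U L : Set M} (hK : IsCompact K) (hU : IsOpen U) (hKU : K ⊆ U) (hL : IsClosed L)
    (haL : ∀ᶠ y in 𝓝ˢ (S ∩ L), a y = 0) :
    ∃ a₁ a₂ : Fm 4 M, NC S U a₁ ∧ NC S univ a₂ ∧ (∀ y, a y = a₁ y + a₂ y) ∧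
      ∀ᶠ y in 𝓝ˢ (S ∩ (K ∪ L)), a₂ y = 0 := by
  have : LocallyCompactSpace M := ChartedSpace.locallyCompactSpace (Cm 4) M
  obtain ⟨χ, hχ, hχ1, ⟨C, hCU, hC, hχ0⟩, -⟩ := exists_cutM (E := Cm 4) hK hU hKU
  obtain ⟨Ca, -, hCa, ha0⟩ := ha.cs
  set b : Fm 4 M := fun y => χ y • a y with hb
  have hbs : ∀ y, SmAt b y := fun y => smAt_fsmul (hχ y) (ha.sm y)
  have hb0 : ∀ y ∉ C ∩ Ca, b y = 0 := by
    intro y hy
    show χ y • a y = 0
    by_cases h : y ∈ C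
    · rw [ha0 y fun h' => hy ⟨h, h'⟩, smul_zero]
    · rw [hχ0 y h, zero_smul]
  have hdb : ∀ y, SmAt (dF b) y := fun y => smAt_dF isOpen_univ (fun y _ => hbs y) (mem_univ y)
  have hddb : ∀ y, dF (dF b) y = 0 := fun y => dF_dF isOpen_univ (fun y _ => hbs y) (mem_univ y)
  have hCc : IsCompact (C ∩ Ca) := hC.inter hCa
  have hdb0 : ∀ y ∉ C ∩ Ca, dF b y = 0 := by
    intro y hy
    apply dF_ev_zero
    filter_upwards [hCc.isClosed.isOpen_compl.mem_nhds hy] with w hw using hb0 w hw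
  -- vanishing of `dF b`
  have hUc : ∀ᶠ y in 𝓝ˢ Uᶜ, b y = 0 :=
    ev_of_open hC.isClosed.isOpen_compl (compl_subset_compl.2 hCU) fun y hy => by
      show χ y • a y = 0
      rw [hχ0 y hy, zero_smul]
  have hKb : ∀ᶠ y in 𝓝ˢ K, b y = a y := hχ1.mono fun y hy => by
    show χ y • a y = a y
    rw [hy, one_smul]
  have hLb : ∀ᶠ y in 𝓝ˢ (S ∩ L), b y = 0 := haL.mono fun y hy => by
    show χ y • a y = 0
    rw [hy, smul_zero]
  have hdL : ∀ᶠ y in 𝓝ˢ (S ∩ (K ∪ (Uᶜ ∪ L))), dF b y = 0 := by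
    have e1 : ∀ᶠ y in 𝓝ˢ (S ∩ K), dF b y = 0 := by
      filter_upwards [(ev_ev' hKb).filter_mono (nhdsSet_mono (inter_subset_right (s := S))),
        ha.cl.filter_mono (nhdsSet_mono (inter_subset_left (t := K)))] with y h1 h2
      rw [h1, h2]
    have e2 := ev_ev hUc
    have e3 := ev_ev hLb
    have e4 : ∀ᶠ y in 𝓝ˢ ((S ∩ K) ∪ (Uᶜ ∪ (S ∩ L))), dF b y = 0 := by
      rw [nhdsSet_union, nhdsSet_union, eventually_sup, eventually_sup]; exact ⟨e1, e2, e3⟩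
    refine e4.filter_mono (nhdsSet_mono ?_)
    rintro y ⟨hy, hy' | hy' | hy'⟩
    · exact Or.inl ⟨hy, hy'⟩
    · exact Or.inr (Or.inl hy')
    · exact Or.inr (Or.inr ⟨hy, hy'⟩)
  have hLc : IsClosed (K ∪ (Uᶜ ∪ L)) := hK.isClosed.union (hU.isClosed_compl.union hL)
  obtain ⟨γ, hγ1, hγ2, hγ3, Cγ, hCγ, hγ0⟩ := thin_cpt (E := Cm 4) hS hI hLc (k := 4) (by norm_num)
    (a := dF b) hdb (Eventually.of_forall hddb) hCc hdb0 hdL
  have hγU : ∀ᶠ y in 𝓝ˢ Uᶜ, γ y = 0 :=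
    hγ3.filter_mono (nhdsSet_mono (subset_union_left.trans subset_union_right))
  obtain ⟨O, hO, hUO, hO0⟩ := ev_open hγU
  set a₁ : Fm 4 M := b + (-1 : ℝ) • γ with ha₁
  set a₂ : Fm 4 M := a + (-1 : ℝ) • a₁ with ha₂
  have ha₁s : ∀ y, SmAt a₁ y := fun y => (hbs y).add ((hγ1 y).smul _)
  have ha₁c : ∀ᶠ y in 𝓝ˢ S, dF a₁ y = 0 := by
    filter_upwards [hγ2] with y hy
    rw [ha₁, dF_sub' (hbs y) (hγ1 y), hy, H285.neg1]
    abel
  refine ⟨a₁, a₂, ⟨ha₁s, ha₁c, ?_⟩, ⟨fun y => (ha.sm y).add ((ha₁s y).smul _), ?_, ?_⟩, ?_, ?_⟩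
  · refine ⟨C ∪ (Cγ \ O), union_subset hCU ?_, hC.union (hCγ.diff hO), ?_⟩
    · rintro y ⟨-, hy⟩
      by_contra h
      exact hy (hUO h)
    · intro y hy
      rw [mem_union, not_or] at hy
      have e1 : b y = 0 := by
        show χ y • a y = 0
        rw [hχ0 y hy.1, zero_smul]
      have e2 : γ y = 0 := by
        by_cases h : y ∈ Cγ
        · have h2 : y ∈ O := by
            by_contra h2
            exact hy.2 ⟨h, h2⟩
          exact hO0 y h2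
        · exact hγ0 y h
      show b y + (-1 : ℝ) • γ y = 0
      rw [e1, e2, smul_zero, add_zero]
  · filter_upwards [ha₁c, ha.cl] with y h1 h2
    rw [ha₂, dF_sub' (ha.sm y) (ha₁s y), h1, h2, smul_zero, add_zero]
  · refine ⟨Ca ∪ Cγ, subset_univ _, hCa.union hCγ, fun y hy => ?_⟩
    rw [mem_union, not_or] at hy
    have e1 : b y = 0 := hb0 y fun h => hy.1 h.2
    show a y + (-1 : ℝ) • (b y + (-1 : ℝ) • γ y) = 0
    rw [e1, ha0 y hy.1, hγ0 y hy.2, smul_zero, add_zero, smul_zero, add_zero]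
  · intro y
    show a y = a₁ y + (a y + (-1 : ℝ) • a₁ y)
    rw [H285.neg1]
    abel
  · have e1 : ∀ᶠ y in 𝓝ˢ (S ∩ K), a₂ y = 0 := by
      filter_upwards [hKb.filter_mono (nhdsSet_mono (inter_subset_right (s := S))),
        hγ3.filter_mono (nhdsSet_mono (inter_subset_right.trans subset_union_left :
          S ∩ K ⊆ K ∪ (Uᶜ ∪ L)))] with y h1 h2
      show a y + (-1 : ℝ) • (b y + (-1 : ℝ) • γ y) = 0
      rw [h1, h2, smul_zero, add_zero, H285.neg1]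
      abel
    have e2 : ∀ᶠ y in 𝓝ˢ (S ∩ L), a₂ y = 0 := by
      filter_upwards [haL, hLb, hγ3.filter_mono (nhdsSet_mono (inter_subset_right.trans
        (subset_union_right.trans subset_union_right) : S ∩ L ⊆ K ∪ (Uᶜ ∪ L)))] with y h1 h2 h3
      show a y + (-1 : ℝ) • (b y + (-1 : ℝ) • γ y) = 0
      rw [h1, h2, h3, smul_zero, add_zero, smul_zero, add_zero]
    rw [inter_union_distrib_left, nhdsSet_union, eventually_sup]
    exact ⟨e1, e2⟩

/-- the decomposition -/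
theorem decomp {S : Set M} (hS : IsClosed S) (hI : Ind 5 S) {ι : Type} (K U : ι → Set M)
    (hK : ∀ j, IsCompact (K j)) (hU : ∀ j, IsOpen (U j)) (hKU : ∀ j, K j ⊆ U j) :
    ∀ (t : Finset ι) (a : Fm 4 M), NC S univ a → ∀ L : Set M, IsClosed L →
      (∀ᶠ y in 𝓝ˢ (S ∩ L), a y = 0) → (∀ y, y ∉ L → ∃ j ∈ t, y ∈ K j) →
      ∃ f : ι → Fm 4 M, (∀ j ∈ t, NC S (U j) (f j)) ∧ ∀ᶠ y in 𝓝ˢ S, a y = ∑ j ∈ t, f j y := by
  classical
  intro t
  induction t using Finset.induction_on with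
  | empty =>
    intro a ha L hL haL hcov
    have hLu : L = univ := by
      rw [eq_univ_iff_forall]
      intro y
      by_contra hy
      obtain ⟨j, hj, -⟩ := hcov y hy
      simp at hj
    refine ⟨fun _ => 0, fun j hj => by simp at hj, ?_⟩
    rw [hLu, inter_univ] at haL
    filter_upwards [haL] with y hy
    rw [hy, Finset.sum_empty]
  | insert j t hj ih =>
    intro a ha L hL haL hcov
    obtain ⟨a₁, a₂, h1, h2, h3, h4⟩ := peel hS hI ha (hK j) (hU j) (hKU j) hL haL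
    obtain ⟨f, hf1, hf2⟩ := ih a₂ h2 (K j ∪ L) ((hK j).isClosed.union hL) h4 (by
      intro y hy
      rw [mem_union, not_or] at hy
      obtain ⟨i, hi, hyi⟩ := hcov y hy.2
      rcases Finset.mem_insert.1 hi with rfl | hi
      · exact absurd hyi hy.1
      · exact ⟨i, hi, hyi⟩)
    refine ⟨Function.update f j a₁, fun i hi => ?_, ?_⟩
    · rcases Finset.mem_insert.1 hi with rfl | hi
      · rw [Function.update_self]; exact h1
      · rw [Function.update_of_ne (show i ≠ j from fun h => hj (h ▸ hi))]; exact hf1 i hi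
    · filter_upwards [hf2] with y hy
      rw [h3 y, hy, Finset.sum_insert hj, Function.update_self]
      congr 1
      refine Finset.sum_congr rfl fun i hi => ?_
      rw [Function.update_of_ne (show i ≠ j from fun h => hj (h ▸ hi))]

/-! ### linear algebra of `Mv` -/

theorem Mv.add {S : Set M} {a b : Fm 4 M} (ha : Mv S a) (hb : Mv S b) : Mv S (a + b) := by
  obtain ⟨γ, h1, ⟨C, hC, hC0⟩, h2⟩ := ha
  obtain ⟨γ', h1', ⟨C', hC', hC0'⟩, h2'⟩ := hb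
  refine ⟨γ + γ', fun y => (h1 y).add (h1' y), ⟨C ∪ C', hC.union hC', fun y hy => ?_⟩, ?_⟩
  · rw [mem_union, not_or] at hy
    show γ y + γ' y = 0
    rw [hC0 y hy.1, hC0' y hy.2, add_zero]
  · filter_upwards [h2, h2'] with y k1 k2
    rw [dF_add (h1 y) (h1' y), ← k1, ← k2]
    rfl

theorem Mv.smul {S : Set M} {a : Fm 4 M} (ha : Mv S a) (c : ℝ) : Mv S (c • a) := by
  obtain ⟨γ, h1, ⟨C, hC, hC0⟩, h2⟩ := ha
  refine ⟨c • γ, fun y => (h1 y).smul c, ⟨C, hC, fun y hy => ?_⟩, ?_⟩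
  · show c • γ y = 0
    rw [hC0 y hy, smul_zero]
  · filter_upwards [h2] with y k1
    rw [dF_smul, ← k1]
    rfl

theorem Mv.congr {S : Set M} {a b : Fm 4 M} (ha : Mv S a) (h : ∀ᶠ y in 𝓝ˢ S, b y = a y) :
    Mv S b := by
  obtain ⟨γ, h1, h3, h2⟩ := ha
  refine ⟨γ, h1, h3, ?_⟩
  filter_upwards [h2, h] with y k1 k2
  rw [k2, k1]

theorem Mv.zero (S : Set M) : Mv S (0 : Fm 4 M) :=
  ⟨0, fun y => smAt_zero y, ⟨∅, isCompact_empty, fun _ _ => rfl⟩, Eventually.of_forall fun y =>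
    (dF_ev_zero (γ := (0 : Fm 3 M)) (Eventually.of_forall fun _ => rfl)).symm⟩

theorem Mv.sum {S : Set M} {ι : Type} (t : Finset ι) {f : ι → Fm 4 M} (h : ∀ i ∈ t, Mv S (f i)) :
    Mv S (∑ i ∈ t, f i) := by
  classical
  induction t using Finset.induction_on with
  | empty => simpa using Mv.zero S
  | insert i t hi ih =>
    rw [Finset.sum_insert hi]
    exact (h i (Finset.mem_insert_self _ _)).add (ih fun j hj => h j (Finset.mem_insert_of_mem hj))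

end Vale.Agent.P277.H29
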