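import Vale.Agent.P277.H29.M2g

/-!
# P277, M2: proof of `StMove`
-/

set_option linter.unusedSectionVars false

open scoped Manifold ContDiff Topology
open Set Filter
open Vale.Agent.P267 Vale.Agent.P267.H175 Vale.Agent.P272.K

noncomputable section

namespace Vale.Agent.P277.H29

variable {M : Type} [TopologicalSpace M] [T2Space M] [SecondCountableTopology M]
  [ChartedSpace (Cm 4) M] [IsManifold 𝓘(ℂ, Cm 4) ω M]

omit [SecondCountableTopology M] [IsManifold 𝓘(ℂ, Cm 4) ω M] in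
theorem ind_of_negl {s : ℕ} {K : Set M} (hN : Negl M s K) : Ind s K := by
  refine ind_of_local fun x _ => ?_
  have h1 := hN (chartAt (Cm 4) x) (chart_mem_atlas _ _)
  have h2 := Ind.transport (chartAt (Cm 4) x) (ind_of_hausdorff s h1)
  refine ⟨(chartAt (Cm 4) x).source, (chartAt (Cm 4) x).open_source.mem_nhds
    (mem_chart_source _ x), h2.mono ?_⟩
  rintro y ⟨hyK, hy⟩
  exact ⟨chartAt (Cm 4) x y, ⟨⟨y, ⟨hyK, hy⟩, rfl⟩, (chartAt (Cm 4) x).map_source hy⟩,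
    (chartAt (Cm 4) x).left_inv hy⟩

theorem NC.mono {S N N' : Set M} {a : Fm 4 M} (h : NC S N a) (hN : N ⊆ N') : NC S N' a := by
  obtain ⟨C, hC, hC', h0⟩ := h.cs
  exact ⟨h.sm, h.cl, C, hC.trans hN, hC', h0⟩

/-- **(A)** clearing `T`. -/
theorem clear {S T : Set M} (hT : IsClosed T) (hI : Ind 3 T) {a : Fm 4 M} (ha : CCF univ a) :
    ∃ a' : Fm 4 M, (∀ᶠ y in 𝓝ˢ T, a' y = 0) ∧ NC S univ a' ∧ Mv S (a + (-1 : ℝ) • a') := by
  have : LocallyCompactSpace M := ChartedSpace.locallyCompactSpace (Cm 4) M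
  obtain ⟨Ca, -, hCa, ha0⟩ := ha.cpt
  obtain ⟨γ, h1, h2, -, C, hC, h3⟩ := thin_cpt (E := Cm 4) hT hI isClosed_empty (k := 3)
    (by norm_num) ha.sm (Eventually.of_forall ha.closed) hCa ha0 (by
      rw [inter_empty, nhdsSet_empty]; exact eventually_bot)
  have hds : ∀ y, SmAt (dF γ) y := fun y => smAt_dF isOpen_univ (fun y _ => h1 y) (mem_univ y)
  have hdd : ∀ y, dF (dF γ) y = 0 := fun y => dF_dF isOpen_univ (fun y _ => h1 y) (mem_univ y)
  refine ⟨a + (-1 : ℝ) • dF γ, ?_, ⟨fun y => (ha.sm y).add ((hds y).smul _), ?_, ?_⟩,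
    ⟨γ, h1, ⟨C, hC, h3⟩, ?_⟩⟩
  · filter_upwards [h2] with y hy
    show a y + (-1 : ℝ) • dF γ y = 0
    rw [hy, H285.neg1]; abel
  · refine Eventually.of_forall fun y => ?_
    rw [dF_sub' (ha.sm y) (hds y), ha.closed y, hdd y, smul_zero, add_zero]
  · refine ⟨Ca ∪ C, subset_univ _, hCa.union hC, fun y hy => ?_⟩
    rw [mem_union, not_or] at hy
    have e : dF γ y = 0 := by
      apply dF_ev_zero
      filter_upwards [hC.isClosed.isOpen_compl.mem_nhds hy.2] with w hw using h3 w hw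
    show a y + (-1 : ℝ) • dF γ y = 0
    rw [ha0 y hy.1, e, smul_zero, add_zero]
  · refine Eventually.of_forall fun y => ?_
    show a y + (-1 : ℝ) • (a y + (-1 : ℝ) • dF γ y) = dF γ y
    rw [H285.neg1, H285.neg1]; abel

/-- `x` is good for `κ` -/
def Gd (S : Set M) (κ : Fm 4 M) (x : M) : Prop :=
  ∃ N, IsOpen N ∧ x ∈ N ∧ ∀ a, NC S N a → ∃ c : ℝ, Mv S (a + (-c) • κ)

theorem Gd.spread {S : Set M} {κ : Fm 4 M} {φ : OpenPartialHomeomorph M (Cm 4)} {r : ℝ}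
    (hφ : IsFlat S φ r) {y : M} (hy : y ∈ φ.source) (hyS : y ∈ S) (h : Gd S κ y) :
    ∀ x ∈ φ.source, Gd S κ x := by
  intro x hx
  obtain ⟨N, hN, hyN, hNk⟩ := h
  obtain ⟨κ', h1, h2⟩ := local_line hφ (N := N ∩ φ.source) (hN.inter φ.open_source)
    inter_subset_right ⟨hyN, hy⟩ hyS
  obtain ⟨c', hc'⟩ := hNk κ' (h1.mono inter_subset_left)
  refine ⟨φ.source, φ.open_source, hx, fun a ha => ?_⟩
  obtain ⟨c, hc⟩ := h2 a ha
  refine ⟨c * c', ?_⟩
  have h3 := hc.add (hc'.smul c)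
  have e : a + (-(c * c')) • κ = (a + (-c) • κ') + c • (κ' + (-c') • κ) := by
    funext y
    show a y + (-(c * c')) • κ y = (a y + (-c) • κ' y) + c • (κ' y + (-c') • κ y)
    module
  rw [e]
  exact h3

theorem good_comp {S T : Set M} (hT : IsClosed T) (hsurf : ∀ x ∈ S \ T, IsSurfAt S x) (c : M) :
    ∃ κ : Fm 4 M, ∀ x ∈ connectedComponentIn (S \ T) c, Gd S κ x := by
  by_cases hc : c ∈ S \ T
  swap
  · refine ⟨0, fun x hx => ?_⟩
    rw [connectedComponentIn_eq_empty hc] at hx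
    exact absurd hx (notMem_empty x)
  have hfl : ∀ x ∈ S \ T, ∃ (φ : OpenPartialHomeomorph M (Cm 4)) (r : ℝ), IsFlat S φ r ∧
      x ∈ φ.source := by
    intro x hx
    obtain ⟨φ, r, -, h2, h3, h4, -, h6⟩ := exists_flat hx.1 (hsurf x hx) (N := univ) univ_mem
    exact ⟨φ, r, ⟨h2, h4, h6⟩, h3⟩
  obtain ⟨φ, r, hφ, hcφ⟩ := hfl c hc
  obtain ⟨κ, hκ, hκ'⟩ := local_line hφ φ.open_source Subset.rfl hcφ hc.1
  have hcG : Gd S κ c := ⟨φ.source, φ.open_source, hcφ, hκ'⟩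
  refine ⟨κ, ?_⟩
  have hA : IsOpen {x | Gd S κ x} := by
    rw [isOpen_iff_mem_nhds]
    rintro x ⟨N, hN, hxN, h⟩
    filter_upwards [hN.mem_nhds hxN] with y hy using ⟨N, hN, hy, h⟩
  have hB : IsOpen {x | ∃ N, IsOpen N ∧ x ∈ N ∧ ∀ y ∈ N, y ∈ S → ¬ Gd S κ y} := by
    rw [isOpen_iff_mem_nhds]
    rintro x ⟨N, hN, hxN, h⟩
    filter_upwards [hN.mem_nhds hxN] with y hy using ⟨N, hN, hy, h⟩
  have hconn := isPreconnected_connectedComponentIn (F := S \ T) (x := c)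
  intro x hx
  by_contra hxG
  have hsub := connectedComponentIn_subset (S \ T) c
  have hcov : connectedComponentIn (S \ T) c ⊆
      {x | Gd S κ x} ∪ {x | ∃ N, IsOpen N ∧ x ∈ N ∧ ∀ y ∈ N, y ∈ S → ¬ Gd S κ y} := by
    intro z hz
    by_cases hzG : Gd S κ z
    · exact Or.inl hzG
    · right
      obtain ⟨φ, r, hφ, hzφ⟩ := hfl z (hsub hz)
      exact ⟨φ.source, φ.open_source, hzφ, fun y hy hyS hyG => hzG (hyG.spread hφ hy hyS z hzφ)⟩
  obtain ⟨z, hz, hzA, N, -, hzN, hzB⟩ := hconn _ _ hA hB hcov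
    ⟨c, mem_connectedComponentIn hc, hcG⟩ ⟨x, hx, (hcov hx).resolve_left hxG⟩
  exact hzB z hzN (hsub hz).1 hzA

/-- **(B), (C)** the space of closed forms with compact support is spanned by `k` forms near
`S`. -/
theorem spanning {S T : Set M} (hS : IsClosed S) (hT : IsClosed T)
    (hIT : Ind 3 T) (hIS : Ind 5 S) (hsurf : ∀ x ∈ S \ T, IsSurfAt S x)
    {k : ℕ} (c : Fin k → M) (hcomp : ∀ x ∈ S \ T, ∃ i, x ∈ connectedComponentIn (S \ T) (c i)) :
    ∃ κ : Fin k → Fm 4 M, ∀ a, CCF univ a →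
      ∃ C : Fin k → ℝ, Mv S (a + (-1 : ℝ) • ∑ i, C i • κ i) := by
  classical
  have : LocallyCompactSpace M := ChartedSpace.locallyCompactSpace (Cm 4) M
  choose κ hκ using fun i => good_comp (S := S) (T := T) hT hsurf (c i)
  refine ⟨κ, fun a ha => ?_⟩
  obtain ⟨a', h1, h2, h3⟩ := clear (S := S) hT hIT ha
  obtain ⟨O, hO, hTO, hO0⟩ := ev_open h1
  obtain ⟨Ca, -, hCa, ha0⟩ := h2.cs
  let P := {x : M // x ∈ S \ T}
  have hch : ∀ x : P, ∃ (i : Fin k) (N : Set M), IsOpen N ∧ x.1 ∈ N ∧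
      ∀ a, NC S N a → ∃ c : ℝ, Mv S (a + (-c) • κ i) := by
    intro x
    obtain ⟨i, hi⟩ := hcomp x.1 x.2
    obtain ⟨N, hN⟩ := hκ i x.1 hi
    exact ⟨i, N, hN⟩
  choose i N hN hxN hNk using hch
  have hK : ∀ x : P, ∃ K : Set M, IsCompact K ∧ x.1 ∈ interior K ∧ K ⊆ N x := fun x =>
    exists_compact_subset (hN x) (hxN x)
  choose K hKc hxK hKN using hK
  have hcpt : IsCompact ((Ca \ O) ∩ S) := (hCa.diff hO).inter_right hS
  obtain ⟨t, ht⟩ := hcpt.elim_finite_subcover (fun x : P => interior (K x))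
    (fun x => isOpen_interior) (by
      rintro y ⟨⟨hy1, hy2⟩, hy3⟩
      exact mem_iUnion.2 ⟨⟨y, hy3, fun h => hy2 (hTO h)⟩, hxK _⟩)
  obtain ⟨f, hf1, hf2⟩ := decomp hS hIS K N hKc hN hKN t a' h2 (⋃ x ∈ t, interior (K x))ᶜ
    (isOpen_biUnion fun x _ => isOpen_interior).isClosed_compl (by
      refine ev_of_open (hCa.isClosed.isOpen_compl.union hO) ?_ ?_
      · rintro y ⟨hyS, hyL⟩
        by_contra h
        rw [mem_union, not_or, mem_compl_iff, not_not] at h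
        exact hyL (ht ⟨⟨h.1, h.2⟩, hyS⟩)
      · rintro y (hy | hy)
        · exact ha0 y hy
        · exact hO0 y hy) (by
      intro y hy
      rw [mem_compl_iff, not_not] at hy
      obtain ⟨x, hx, hyx⟩ := mem_iUnion₂.1 hy
      exact ⟨x, hx, interior_subset hyx⟩)
  have hcc : ∀ x : P, ∃ c : ℝ, x ∈ t → Mv S (f x + (-c) • κ (i x)) := by
    intro x
    by_cases hx : x ∈ t
    · obtain ⟨c, hc⟩ := hNk x (f x) (hf1 x hx)
      exact ⟨c, fun _ => hc⟩
    · exact ⟨0, fun h => absurd h hx⟩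
  choose d hd using hcc
  have h4 := Mv.sum t hd
  have h5 : Mv S (a' + (-1 : ℝ) • ∑ x ∈ t, d x • κ (i x)) := by
    refine h4.congr ?_
    filter_upwards [hf2] with y hy
    rw [Pi.add_apply, Pi.smul_apply, hy, Finset.sum_apply, Finset.sum_apply, Finset.smul_sum,
      ← Finset.sum_add_distrib]
    refine Finset.sum_congr rfl fun x _ => ?_
    show f x y + (-1 : ℝ) • (d x • κ (i x) y) = f x y + (-(d x)) • κ (i x) y
    module
  refine ⟨fun j => ∑ x ∈ t with i x = j, d x, ?_⟩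
  have e1 : ∑ j, (∑ x ∈ t with i x = j, d x) • κ j = ∑ x ∈ t, d x • κ (i x) := by
    rw [← Finset.sum_fiberwise t i fun x => d x • κ (i x)]
    refine Finset.sum_congr rfl fun j _ => ?_
    rw [Finset.sum_smul]
    refine Finset.sum_congr rfl fun x hx => ?_
    rw [(Finset.mem_filter.1 hx).2]
  rw [e1]
  refine (h3.add h5).congr (Eventually.of_forall fun y => ?_)
  show a y + (-1 : ℝ) • (∑ x ∈ t, d x • κ (i x)) y =
    (a y + (-1 : ℝ) • a' y) + (a' y + (-1 : ℝ) • (∑ x ∈ t, d x • κ (i x)) y)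
  module

/-- **(M2).** -/
theorem stMove : StMove := by
  intro M _ _ _ _ _ E T hE hT hTE hNT hNE hsurf k c hcomp a ha
  obtain ⟨κ, hκ⟩ := spanning hE hT (ind_of_negl hNT) (ind_of_negl hNE) hsurf c hcomp
  choose C hC using fun j => hκ (a j) (ha j)
  let Φ : (Fin (k + 1) → ℝ) →ₗ[ℝ] (Fin k → ℝ) :=
    { toFun := fun t => ∑ j, t j • C j
      map_add' := fun s t => by
        simp only [Pi.add_apply, add_smul, Finset.sum_add_distrib]
      map_smul' := fun s t => by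
        simp only [Pi.smul_apply, smul_eq_mul, mul_smul, Finset.smul_sum, RingHom.id_apply] }
  have hker : LinearMap.ker Φ ≠ ⊥ := LinearMap.ker_ne_bot_of_finrank_lt (by simp)
  obtain ⟨t, ht, ht0⟩ := (Submodule.ne_bot_iff _).1 hker
  have ht' : ∑ j, t j • C j = 0 := ht
  have h1 : Mv E (∑ j, t j • (a j + (-1 : ℝ) • ∑ i, C j i • κ i)) :=
    Mv.sum Finset.univ fun j _ => (hC j).smul (t j)
  have h2 : ∑ j, t j • (a j + (-1 : ℝ) • ∑ i, C j i • κ i) = ∑ j, t j • a j := by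
    have e : ∑ j, t j • ∑ i, C j i • κ i = 0 := by
      have e1 : ∀ j, t j • ∑ i, C j i • κ i = ∑ i, (t j * C j i) • κ i := fun j => by
        rw [Finset.smul_sum]
        exact Finset.sum_congr rfl fun i _ => by rw [mul_smul]
      simp only [e1]
      rw [Finset.sum_comm]
      refine Finset.sum_eq_zero fun i _ => ?_
      rw [← Finset.sum_smul]
      have e2 := congrFun ht' i
      rw [Finset.sum_apply] at e2
      have e3 : ∑ j, t j * C j i = 0 := e2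
      rw [e3, zero_smul]
    have e4 : ∀ j, t j • (a j + (-1 : ℝ) • ∑ i, C j i • κ i) =
        t j • a j + (-1 : ℝ) • (t j • ∑ i, C j i • κ i) := fun j => by
      rw [smul_add, smul_comm]
    simp only [e4]
    rw [Finset.sum_add_distrib, ← Finset.smul_sum, e, smul_zero, add_zero]
  rw [h2] at h1
  obtain ⟨γ, g1, g2, g3⟩ := h1
  refine ⟨t, γ, ht0, g1, g2, g3.mono fun y hy => ?_⟩
  rw [← hy, Finset.sum_apply]
  rfl

end Vale.Agent.P277.H29
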