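import Vale.Agent.P277.H29.M2h

/-!
# P277, M2: variant for forms which are not compactly supported, with control near a closed set
-/

set_option linter.unusedSectionVars false

open scoped Manifold ContDiff Topology
open Set Filter
open Vale.Agent.P267 Vale.Agent.P267.H175 Vale.Agent.P272.K

noncomputable section

namespace Vale.Agent.P277.H29

variable {M : Type} [TopologicalSpace M] [T2Space M] [SecondCountableTopology M]
  [ChartedSpace (Cm 4) M] [IsManifold 𝓘(ℂ, Cm 4) ω M]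

/-- clearing `T` -/
theorem clearNC {S T : Set M} (hT : IsClosed T) (hTS : T ⊆ S) (hI : Ind 3 T) {a : Fm 4 M}
    (ha : NC S univ a) :
    ∃ a' : Fm 4 M, (∀ᶠ y in 𝓝ˢ T, a' y = 0) ∧ NC S univ a' ∧ Mv S (a + (-1 : ℝ) • a') := by
  have : LocallyCompactSpace M := ChartedSpace.locallyCompactSpace (Cm 4) M
  obtain ⟨Ca, -, hCa, ha0⟩ := ha.cs
  obtain ⟨γ, h1, h2, -, C, hC, h3⟩ := thin_cpt (E := Cm 4) hT hI isClosed_empty (k := 3)
    (by norm_num) ha.sm (ha.cl.filter_mono (nhdsSet_mono hTS)) hCa ha0 (by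
      rw [inter_empty, nhdsSet_empty]; exact eventually_bot)
  have hds : ∀ y, SmAt (dF γ) y := fun y => smAt_dF isOpen_univ (fun y _ => h1 y) (mem_univ y)
  have hdd : ∀ y, dF (dF γ) y = 0 := fun y => dF_dF isOpen_univ (fun y _ => h1 y) (mem_univ y)
  refine ⟨a + (-1 : ℝ) • dF γ, ?_, ⟨fun y => (ha.sm y).add ((hds y).smul _), ?_, ?_⟩,
    ⟨γ, h1, ⟨C, hC, h3⟩, ?_⟩⟩
  · filter_upwards [h2] with y hy
    show a y + (-1 : ℝ) • dF γ y = 0
    rw [hy, H285.neg1]; abel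
  · filter_upwards [ha.cl] with y hy
    rw [dF_sub' (ha.sm y) (hds y), hy, hdd y, smul_zero, add_zero]
  · refine ⟨Ca ∪ C, subset_univ _, hCa.union hC, fun y hy => ?_⟩
    rw [mem_union, not_or] at hy
    have e : dF γ y = 0 := by
      apply dF_ev_zero
      filter_upwards [hC.isClosed.isOpen_compl.mem_nhds hy.2] with w hw using h3 w hw
    show a y + (-1 : ℝ) • dF γ y = 0
    rw [ha0 y hy.1, e, smul_zero, add_zero]
  · refine Eventually.of_forall fun y => ?_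
    show a y + (-1 : ℝ) • (a y + (-1 : ℝ) • dF γ y) = dF γ y
    rw [H285.neg1, H285.neg1]; abel

/-- the space of forms closed near `S` with compact support is spanned by `k` forms near `S`. -/
theorem spanningNC {S T : Set M} (hS : IsClosed S) (hT : IsClosed T) (hTS : T ⊆ S)
    (hIT : Ind 3 T) (hIS : Ind 5 S) (hsurf : ∀ x ∈ S \ T, IsSurfAt S x)
    {k : ℕ} (c : Fin k → M) (hcomp : ∀ x ∈ S \ T, ∃ i, x ∈ connectedComponentIn (S \ T) (c i)) :
    ∃ κ : Fin k → Fm 4 M, ∀ a, NC S univ a →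
      ∃ C : Fin k → ℝ, Mv S (a + (-1 : ℝ) • ∑ i, C i • κ i) := by
  classical
  have : LocallyCompactSpace M := ChartedSpace.locallyCompactSpace (Cm 4) M
  choose κ hκ using fun i => good_comp (S := S) (T := T) hT hsurf (c i)
  refine ⟨κ, fun a ha => ?_⟩
  obtain ⟨a', h1, h2, h3⟩ := clearNC (S := S) hT hTS hIT ha
  obtain ⟨O, hO, hTO, hO0⟩ := ev_open h1
  obtain ⟨Ca, -, hCa, ha0⟩ := h2.cs
  let P := {x : M // x ∈ S \ T}
  have hch : ∀ x : P, ∃ (i : Fin k) (N : Set M), IsOpen N ∧ x.1 ∈ N ∧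
      ∀ a, NC S N a → ∃ c : ℝ, Mv S (a + (-c) • κ i) := by
    intro x
    obtain ⟨i, hi⟩ := hcomp x.1 x.2
    obtain ⟨N, hN⟩ := hκ i x.1 hi
    exact ⟨i, N, hN⟩
  choose i N hN hxN hNk using hch
  have hK : ∀ x : P, ∃ K : Set M, IsCompact K ∧ x.1 ∈ interior K ∧ K ⊆ N x := fun x =>
    exists_compact_subset (hN x) (hxN x)
  choose K hKc hxK hKN using hK
  have hcpt : IsCompact ((Ca \ O) ∩ S) := (hCa.diff hO).inter_right hS
  obtain ⟨t, ht⟩ := hcpt.elim_finite_subcover (fun x : P => interior (K x))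
    (fun x => isOpen_interior) (by
      rintro y ⟨⟨hy1, hy2⟩, hy3⟩
      exact mem_iUnion.2 ⟨⟨y, hy3, fun h => hy2 (hTO h)⟩, hxK _⟩)
  obtain ⟨f, hf1, hf2⟩ := decomp hS hIS K N hKc hN hKN t a' h2 (⋃ x ∈ t, interior (K x))ᶜ
    (isOpen_biUnion fun x _ => isOpen_interior).isClosed_compl (by
      refine ev_of_open (hCa.isClosed.isOpen_compl.union hO) ?_ ?_
      · rintro y ⟨hyS, hyL⟩
        by_contra h
        rw [mem_union, not_or, mem_compl_iff, not_not] at h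
        exact hyL (ht ⟨⟨h.1, h.2⟩, hyS⟩)
      · rintro y (hy | hy)
        · exact ha0 y hy
        · exact hO0 y hy) (by
      intro y hy
      rw [mem_compl_iff, not_not] at hy
      obtain ⟨x, hx, hyx⟩ := mem_iUnion₂.1 hy
      exact ⟨x, hx, interior_subset hyx⟩)
  have hcc : ∀ x : P, ∃ c : ℝ, x ∈ t → Mv S (f x + (-c) • κ (i x)) := by
    intro x
    by_cases hx : x ∈ t
    · obtain ⟨c, hc⟩ := hNk x (f x) (hf1 x hx)
      exact ⟨c, fun _ => hc⟩
    · exact ⟨0, fun h => absurd h hx⟩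
  choose d hd using hcc
  have h4 := Mv.sum t hd
  have h5 : Mv S (a' + (-1 : ℝ) • ∑ x ∈ t, d x • κ (i x)) := by
    refine h4.congr ?_
    filter_upwards [hf2] with y hy
    rw [Pi.add_apply, Pi.smul_apply, hy, Finset.sum_apply, Finset.sum_apply, Finset.smul_sum,
      ← Finset.sum_add_distrib]
    refine Finset.sum_congr rfl fun x _ => ?_
    show f x y + (-1 : ℝ) • (d x • κ (i x) y) = f x y + (-(d x)) • κ (i x) y
    module
  refine ⟨fun j => ∑ x ∈ t with i x = j, d x, ?_⟩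
  have e1 : ∑ j, (∑ x ∈ t with i x = j, d x) • κ j = ∑ x ∈ t, d x • κ (i x) := by
    rw [← Finset.sum_fiberwise t i fun x => d x • κ (i x)]
    refine Finset.sum_congr rfl fun j _ => ?_
    rw [Finset.sum_smul]
    refine Finset.sum_congr rfl fun x hx => ?_
    rw [(Finset.mem_filter.1 hx).2]
  rw [e1]
  refine (h3.add h5).congr (Eventually.of_forall fun y => ?_)
  show a y + (-1 : ℝ) • (∑ x ∈ t, d x • κ (i x)) y =
    (a y + (-1 : ℝ) • a' y) + (a' y + (-1 : ℝ) • (∑ x ∈ t, d x • κ (i x)) y)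
  module

/-- `k + 1` forms have a combination which can be moved -/
theorem moveNC {E T : Set M} (hE : IsClosed E) (hT : IsClosed T) (hTE : T ⊆ E)
    (hNT : Negl M 3 T) (hNE : Negl M 5 E) (hsurf : ∀ x ∈ E \ T, IsSurfAt E x)
    (k : ℕ) (c : Fin k → M) (hcomp : ∀ x ∈ E \ T, ∃ i, x ∈ connectedComponentIn (E \ T) (c i))
    (a : Fin (k + 1) → Fm 4 M) (ha : ∀ i, NC E univ (a i)) :
    ∃ t : Fin (k + 1) → ℝ, t ≠ 0 ∧ Mv E (∑ i, t i • a i) := by
  obtain ⟨κ, hκ⟩ := spanningNC hE hT hTE (ind_of_negl hNT) (ind_of_negl hNE) hsurf c hcomp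
  choose C hC using fun j => hκ (a j) (ha j)
  let Φ : (Fin (k + 1) → ℝ) →ₗ[ℝ] (Fin k → ℝ) :=
    { toFun := fun t => ∑ j, t j • C j
      map_add' := fun s t => by
        simp only [Pi.add_apply, add_smul, Finset.sum_add_distrib]
      map_smul' := fun s t => by
        simp only [Pi.smul_apply, smul_eq_mul, mul_smul, Finset.smul_sum, RingHom.id_apply] }
  have hker : LinearMap.ker Φ ≠ ⊥ := LinearMap.ker_ne_bot_of_finrank_lt (by simp)
  obtain ⟨t, ht, ht0⟩ := (Submodule.ne_bot_iff _).1 hker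
  have ht' : ∑ j, t j • C j = 0 := ht
  have h1 : Mv E (∑ j, t j • (a j + (-1 : ℝ) • ∑ i, C j i • κ i)) :=
    Mv.sum Finset.univ fun j _ => (hC j).smul (t j)
  have h2 : ∑ j, t j • (a j + (-1 : ℝ) • ∑ i, C j i • κ i) = ∑ j, t j • a j := by
    have e : ∑ j, t j • ∑ i, C j i • κ i = 0 := by
      have e1 : ∀ j, t j • ∑ i, C j i • κ i = ∑ i, (t j * C j i) • κ i := fun j => by
        rw [Finset.smul_sum]
        exact Finset.sum_congr rfl fun i _ => by rw [mul_smul]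
      simp only [e1]
      rw [Finset.sum_comm]
      refine Finset.sum_eq_zero fun i _ => ?_
      rw [← Finset.sum_smul]
      have e2 := congrFun ht' i
      rw [Finset.sum_apply] at e2
      have e3 : ∑ j, t j * C j i = 0 := e2
      rw [e3, zero_smul]
    have e4 : ∀ j, t j • (a j + (-1 : ℝ) • ∑ i, C j i • κ i) =
        t j • a j + (-1 : ℝ) • (t j • ∑ i, C j i • κ i) := fun j => by
      rw [smul_add, smul_comm]
    simp only [e4]
    rw [Finset.sum_add_distrib, ← Finset.smul_sum, e, smul_zero, add_zero]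
  rw [h2] at h1
  exact ⟨t, ht0, h1⟩

/-- the primitive may be chosen to vanish near `L` -/
theorem Mv.avoid {S L : Set M} (hS : IsClosed S) (hL : IsClosed L) (hI : Ind 3 (S ∩ L))
    {a : Fm 4 M} (ha : Mv S a) (ha0 : ∀ᶠ y in 𝓝ˢ (S ∩ L), a y = 0) :
    ∃ γ : Fm 3 M, (∀ y, SmAt γ y) ∧ (∃ C, IsCompact C ∧ ∀ y ∉ C, γ y = 0) ∧
      (∀ᶠ y in 𝓝ˢ L, γ y = 0) ∧ ∀ᶠ y in 𝓝ˢ S, a y = dF γ y := by
  have : LocallyCompactSpace M := ChartedSpace.locallyCompactSpace (Cm 4) M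
  obtain ⟨γ, h1, ⟨C, hC, h2⟩, h3⟩ := ha
  have hcl : ∀ᶠ y in 𝓝ˢ (S ∩ L), dF γ y = 0 := by
    filter_upwards [ha0, h3.filter_mono (nhdsSet_mono (inter_subset_left (t := L)))] with y k1 k2
    rw [← k2, k1]
  obtain ⟨ζ, z1, z2, -, Cζ, hCζ, z3⟩ := thin_cpt (E := Cm 4) (hS.inter hL) hI isClosed_empty
    (k := 2) (by norm_num) h1 hcl hC h2 (by
      rw [inter_empty, nhdsSet_empty]; exact eventually_bot)
  have hds : ∀ y, SmAt (dF ζ) y := fun y => smAt_dF isOpen_univ (fun y _ => z1 y) (mem_univ y)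
  have hdd : ∀ y, dF (dF ζ) y = 0 := fun y => dF_dF isOpen_univ (fun y _ => z1 y) (mem_univ y)
  set γ' : Fm 3 M := γ + (-1 : ℝ) • dF ζ with hγ'
  have g1 : ∀ y, SmAt γ' y := fun y => (h1 y).add ((hds y).smul _)
  have g2 : ∀ y, dF γ' y = dF γ y := fun y => by
    rw [hγ', dF_sub' (h1 y) (hds y), hdd y, smul_zero, add_zero]
  have g3 : ∀ᶠ y in 𝓝ˢ (S ∩ L), γ' y = 0 := by
    filter_upwards [z2] with y hy
    show γ y + (-1 : ℝ) • dF ζ y = 0
    rw [hy, H285.neg1]; abel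
  have g4 : ∀ y ∉ C ∪ Cζ, γ' y = 0 := by
    intro y hy
    rw [mem_union, not_or] at hy
    have e : dF ζ y = 0 := by
      apply dF_ev_zero
      filter_upwards [hCζ.isClosed.isOpen_compl.mem_nhds hy.2] with w hw using z3 w hw
    show γ y + (-1 : ℝ) • dF ζ y = 0
    rw [h2 y hy.1, e, smul_zero, add_zero]
  obtain ⟨O, hO, hLO, hO0⟩ := ev_open g3
  have hCC : IsCompact (C ∪ Cζ) := hC.union hCζ
  have hK : IsCompact ((C ∪ Cζ) ∩ (S \ O)) := hCC.inter_right (hS.sdiff hO)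
  obtain ⟨χ, hχ, hχ1, ⟨Cχ, hCU, hCχ, hχ0⟩, -⟩ := exists_cutM (E := Cm 4) hK
    (U := (L \ O)ᶜ) (hL.sdiff hO).isOpen_compl (by
      rintro y ⟨-, hy⟩ hy'
      exact hy.2 (hLO ⟨hy.1, hy'.1⟩))
  refine ⟨fun y => χ y • γ' y, fun y => smAt_fsmul (hχ y) (g1 y), ⟨C ∪ Cζ, hCC, fun y hy => ?_⟩,
    ?_, ?_⟩
  · show χ y • γ' y = 0
    rw [g4 y hy, smul_zero]
  · refine ev_of_open (hO.union hCχ.isClosed.isOpen_compl) ?_ ?_
    · intro y hy
      by_contra h
      rw [mem_union, not_or, mem_compl_iff, not_not] at h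
      exact hCU h.2 ⟨hy, h.1⟩
    · rintro y (hy | hy)
      · show χ y • γ' y = 0
        rw [hO0 y hy, smul_zero]
      · show χ y • γ' y = 0
        rw [hχ0 y hy, zero_smul]
  · obtain ⟨U₁, hU₁, hKU₁, hU₁1⟩ := ev_open hχ1
    have e1 : ∀ᶠ y in 𝓝ˢ S, χ y • γ' y = γ' y := by
      refine ev_of_open ((hO.union hCC.isClosed.isOpen_compl).union hU₁) ?_ ?_
      · intro y hy
        by_contra h
        rw [mem_union, mem_union, not_or, not_or, mem_compl_iff, not_not] at h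
        exact h.2 (hKU₁ ⟨h.1.2, hy, h.1.1⟩)
      · rintro y ((hy | hy) | hy)
        · show χ y • γ' y = γ' y
          rw [hO0 y hy, smul_zero]
        · show χ y • γ' y = γ' y
          rw [g4 y hy, smul_zero]
        · show χ y • γ' y = γ' y
          rw [hU₁1 y hy, one_smul]
    filter_upwards [ev_ev' e1, h3] with y k1 k2
    rw [k1, g2, k2]

/-- forms whose support meets `E` in a compact set -/
theorem exists_NC {E K : Set M} (hK : IsCompact K) {a : Fm 4 M} (ha : ∀ y, SmAt a y)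
    (hc : ∀ᶠ y in 𝓝ˢ E, dF a y = 0) (ha0 : ∀ y ∈ E \ K, ∀ᶠ z in 𝓝 y, a z = 0) :
    ∃ b : Fm 4 M, NC E univ b ∧ ∀ᶠ y in 𝓝ˢ E, b y = a y := by
  have : LocallyCompactSpace M := ChartedSpace.locallyCompactSpace (Cm 4) M
  obtain ⟨χ, hχ, hχ1, ⟨C, -, hC, hχ0⟩, -⟩ := exists_cutM (E := Cm 4) hK isOpen_univ (subset_univ K)
  have h1 : ∀ᶠ y in 𝓝ˢ E, χ y • a y = a y := by
    rw [eventually_nhdsSet_iff_forall]
    intro y hy
    by_cases hyK : y ∈ K
    · filter_upwards [hχ1.filter_mono (nhds_le_nhdsSet hyK)] with z hz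
      rw [hz, one_smul]
    · filter_upwards [ha0 y ⟨hy, hyK⟩] with z hz
      rw [hz, smul_zero]
  refine ⟨fun y => χ y • a y, ⟨fun y => smAt_fsmul (hχ y) (ha y), ?_, C, subset_univ _, hC,
    fun y hy => by show χ y • a y = 0; rw [hχ0 y hy, zero_smul]⟩, h1⟩
  filter_upwards [ev_ev' h1, hc] with y k1 k2
  rw [k1, k2]

/-- **(M2), variant.** -/
theorem move_avoid {E T L : Set M} (hE : IsClosed E) (hT : IsClosed T) (hL : IsClosed L)
    (hTE : T ⊆ E) (hLT : E ∩ L ⊆ T)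
    (hNT : Negl M 3 T) (hNE : Negl M 5 E) (hsurf : ∀ x ∈ E \ T, IsSurfAt E x)
    (k : ℕ) (c : Fin k → M) (hcomp : ∀ x ∈ E \ T, ∃ i, x ∈ connectedComponentIn (E \ T) (c i))
    (a : Fin (k + 1) → Fm 4 M) (ha : ∀ i y, SmAt (a i) y)
    (hc : ∀ i, ∀ᶠ y in 𝓝ˢ E, dF (a i) y = 0) {K : Set M} (hK : IsCompact K)
    (ha0 : ∀ i, ∀ y ∈ E \ K, ∀ᶠ z in 𝓝 y, a i z = 0)
    (haL : ∀ i, ∀ᶠ y in 𝓝ˢ (E ∩ L), a i y = 0) :
    ∃ (t : Fin (k + 1) → ℝ) (γ : Fm 3 M), t ≠ 0 ∧ (∀ y, SmAt γ y) ∧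
      (∃ C, IsCompact C ∧ ∀ y ∉ C, γ y = 0) ∧ (∀ᶠ y in 𝓝ˢ L, γ y = 0) ∧
      ∀ᶠ y in 𝓝ˢ E, (∑ i, t i • a i y) = dF γ y := by
  choose b hb hba using fun i => exists_NC hK (ha i) (hc i) (ha0 i)
  obtain ⟨t, ht, hM⟩ := moveNC hE hT hTE hNT hNE hsurf k c hcomp b hb
  have h0 : ∀ᶠ y in 𝓝ˢ (E ∩ L), (∑ i, t i • b i) y = 0 := by
    have h1 : ∀ᶠ y in 𝓝ˢ (E ∩ L), ∀ i, b i y = 0 := by
      rw [eventually_all]
      intro i
      filter_upwards [haL i, (hba i).filter_mono (nhdsSet_mono inter_subset_left)] with y k1 k2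
      rw [k2, k1]
    filter_upwards [h1] with y hy
    rw [Finset.sum_apply]
    exact Finset.sum_eq_zero fun i _ => by rw [Pi.smul_apply, hy i, smul_zero]
  obtain ⟨γ, g1, g2, g3, g4⟩ := hM.avoid hE hL ((ind_of_negl hNT).mono hLT) h0
  refine ⟨t, γ, ht, g1, g2, g3, ?_⟩
  have h2 : ∀ᶠ y in 𝓝ˢ E, ∀ i, b i y = a i y := eventually_all.2 hba
  filter_upwards [g4, h2] with y k1 k2
  rw [← k1, Finset.sum_apply]
  exact Finset.sum_congr rfl fun i _ => by rw [Pi.smul_apply, k2 i]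

end Vale.Agent.P277.H29
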